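import Vale.Agent.P006.T0i

/-! P006: the theta identity for the Gaussian, with its constant term. -/

noncomputable section
open Complex MeasureTheory Filter Topology
open scoped Classical ComplexConjugate

namespace Vale.Agent.P026.J0

open W1

/-- the Gaussian -/
def G0 (z : ℂ) : ℂ := cexp (-(‖z‖ ^ 2 : ℝ))

namespace TH1Z

open TH1M

lemma norm_G0 (z : ℂ) : ‖G0 z‖ = Real.exp (-‖z‖ ^ 2) := by
  rw [G0, ← Complex.ofReal_neg, ← Complex.ofReal_exp, Complex.norm_real,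
    Real.norm_of_nonneg (Real.exp_pos _).le]

lemma G0_le {m : ℂ} (hm : m ≠ 0) (C : ℂ) : ‖G0 (m * C)‖ * (1 + ‖C‖) ≤ BB0 m C := by
  have h0 : 0 < ‖m‖ := norm_pos_iff.2 hm
  rw [norm_G0, norm_mul m]
  set s := ‖m‖ * ‖C‖ with hs
  have s0 : 0 ≤ s := by positivity
  have e1 : ‖C‖ = s / ‖m‖ := by rw [hs]; field_simp
  have e2 : -(‖m‖ ^ 2 / 2) * ‖C‖ ^ 2 = -(s ^ 2 / 2) := by rw [hs]; ring
  have e3 : Real.exp (-s ^ 2) * Real.exp (s ^ 2 / 2) = Real.exp (-(s ^ 2 / 2)) := by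
    rw [← Real.exp_add]; congr 1; ring
  have a1 := Real.add_one_le_exp (s ^ 2 / 2)
  have a2 : 1 ≤ Real.exp (s ^ 2 / 2) := by nlinarith [sq_nonneg s]
  have a3 : s / ‖m‖ ≤ 2 / ‖m‖ * Real.exp (s ^ 2 / 2) := by
    rw [div_mul_eq_mul_div]
    exact div_le_div_of_nonneg_right (by nlinarith [sq_nonneg (s - 1)]) h0.le
  rw [BB0, e2, ← e3]
  calc _ = Real.exp (-s ^ 2) * (1 + s / ‖m‖) := by rw [e1]
    _ ≤ Real.exp (-s ^ 2) * (Real.exp (s ^ 2 / 2) + 2 / ‖m‖ * Real.exp (s ^ 2 / 2)) := by gcongr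
    _ = _ := by ring

lemma G0_le' {m : ℂ} (hm : m ≠ 0) (C : ℂ) : ‖G0 (m * C)‖ ≤ BB0 m C :=
  le_trans (le_mul_of_one_le_right (norm_nonneg _) (by linarith [norm_nonneg C])) (G0_le hm C)

lemma k0_lim (h1 : B1) {f g : ℕ → ℂ → ℂ} {K : ℝ} (cf : ∀ n, Continuous (f n))
    (cg : ∀ n, Continuous (g n)) (bf : ∀ n z, ‖f n z‖ ≤ ‖G0 z‖) (bg : ∀ n z, ‖g n z‖ ≤ ‖G0 z‖)
    (lf : ∀ z, z ≠ 0 → Tendsto (fun n => f n z) atTop (𝓝 (G0 z)))
    (lg : ∀ z, z ≠ 0 → Tendsto (fun n => g n z) atTop (𝓝 (G0 z)))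
    (hK : ∀ n ξ, ‖ξ‖ ^ 2 * ‖F1 (g n) ξ‖ ≤ K) {m1 m2 : ℂ} (hm1 : m1 ≠ 0) (hm2 : m2 ≠ 0) :
    ∃ K' : ℝ, (∀ n (d : ℂ), 1 ≤ ‖d‖ →
      ‖K0 (fun C => f n (m1 * C)) (fun E => g n (m2 * E)) d‖ ≤ K' * ‖d‖ ^ (-4 / 3 : ℝ)) ∧
      ∀ d : ℂ, d ≠ 0 → Tendsto (fun n => K0 (fun C => f n (m1 * C)) (fun E => g n (m2 * E)) d) atTop
        (𝓝 (K0 (fun C => G0 (m1 * C)) (fun E => G0 (m2 * E)) d)) := by
  have K0' : 0 ≤ K := le_trans (by positivity) (hK 0 0)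
  have m20 : 0 < ‖m2‖ := norm_pos_iff.2 hm2
  have hK2 : ∀ n ξ, ‖ξ‖ ^ 2 * ‖F1 (fun E => g n (m2 * E)) ξ‖ ≤ K := fun n ξ => by
    have := hK n (ξ / m2)
    rw [F1_mul _ hm2, norm_mul, Complex.norm_real, Real.norm_of_nonneg (by positivity)]
    rw [norm_div] at this
    convert this using 1
    field_simp
  have cp : ∀ n ξ, Continuous fun z : ℂ => g n (m2 * z) * psi (-(z * ξ)) := fun n ξ =>
    ((cg n).comp (continuous_const.mul continuous_id)).mul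
      (h1.cont_psi.comp (continuous_id.mul continuous_const).neg)
  have bp : ∀ n ξ z, ‖g n (m2 * z) * psi (-(z * ξ))‖ ≤ BB0 m2 z := fun n ξ z => by
    rw [norm_mul, h1.norm_psi, mul_one]
    exact (bg n _).trans (G0_le' hm2 z)
  have cF : ∀ n, Continuous (F1 fun E => g n (m2 * E)) := fun n =>
    continuous_of_dominated (fun ξ => (cp n ξ).aestronglyMeasurable)
      (fun ξ => .of_forall (bp n ξ)) (BB0_int hm2)
      (.of_forall fun z => continuous_const.mul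
        (h1.cont_psi.comp (continuous_const.mul continuous_id).neg))
  have lF : ∀ ξ, Tendsto (fun n => F1 (fun E => g n (m2 * E)) ξ) atTop
      (𝓝 (F1 (fun E => G0 (m2 * E)) ξ)) := fun ξ =>
    tendsto_integral_of_dominated_convergence (BB0 m2) (fun n => (cp n ξ).aestronglyMeasurable)
      (BB0_int hm2) (fun n => .of_forall (bp n ξ)) ((Measure.ae_ne volume 0).mono fun z hz => (lg _ (mul_ne_zero hm2 hz)).mul_const _)
  have bI : ∀ n (d : ℂ), d ≠ 0 → ∀ C : ℂ, ‖f n (m1 * C) * ((‖C‖ ^ (-4 / 3 : ℝ) : ℝ) : ℂ) *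
      F1 (fun E => g n (m2 * E)) (d / (729 * C))‖ ≤ K * 729 ^ 2 / ‖d‖ ^ 2 * BB0 m1 C := by
    intro n d hd C
    have d0 : 0 < ‖d‖ := norm_pos_iff.2 hd
    have B0 : 0 ≤ BB0 m1 C := (norm_nonneg _).trans (G0_le' hm1 C)
    by_cases hC : C = 0
    · rw [hC, norm_zero, Real.zero_rpow (by norm_num)]
      simp only [ofReal_zero, mul_zero, zero_mul, norm_zero]
      rw [hC] at B0
      positivity
    have c0 : 0 < ‖C‖ := norm_pos_iff.2 hC
    have a1 : ‖F1 (fun E => g n (m2 * E)) (d / (729 * C))‖ ≤ K * 729 ^ 2 / ‖d‖ ^ 2 * ‖C‖ ^ 2 := by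
      have := hK2 n (d / (729 * C))
      rw [norm_div, norm_mul, Complex.norm_ofNat, div_pow, div_mul_eq_mul_div,
        div_le_iff₀ (by positivity)] at this
      rw [div_mul_eq_mul_div, le_div_iff₀ (by positivity)]
      nlinarith
    have a2 : ‖C‖ ^ (-4 / 3 : ℝ) * ‖C‖ ^ 2 ≤ 1 + ‖C‖ := by
      rw [← Real.rpow_natCast, ← Real.rpow_add c0]
      rcases le_total ‖C‖ 1 with h | h
      · exact (Real.rpow_le_one c0.le h (by norm_num)).trans (by linarith)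
      · have := Real.rpow_le_rpow_of_exponent_le h (show (-4 / 3 + ((2 : ℕ) : ℝ) : ℝ) ≤ 1 by norm_num)
        rw [Real.rpow_one] at this
        linarith
    rw [norm_mul, norm_mul, Complex.norm_real, Real.norm_of_nonneg (by positivity)]
    calc _ ≤ ‖G0 (m1 * C)‖ * ‖C‖ ^ (-4 / 3 : ℝ) * (K * 729 ^ 2 / ‖d‖ ^ 2 * ‖C‖ ^ 2) := by
          gcongr; exact bf n _
      _ = K * 729 ^ 2 / ‖d‖ ^ 2 * (‖G0 (m1 * C)‖ * (‖C‖ ^ (-4 / 3 : ℝ) * ‖C‖ ^ 2)) := by ring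
      _ ≤ K * 729 ^ 2 / ‖d‖ ^ 2 * (‖G0 (m1 * C)‖ * (1 + ‖C‖)) := by gcongr
      _ ≤ _ := by gcongr; exact G0_le hm1 C
  refine ⟨K * 729 ^ 2 * ∫ C, BB0 m1 C, fun n d hd => ?_, fun d hd => ?_⟩
  · have d0 : 0 < ‖d‖ := lt_of_lt_of_le one_pos hd
    have := norm_integral_le_of_norm_le ((BB0_int hm1).const_mul (K * 729 ^ 2 / ‖d‖ ^ 2))
      (.of_forall (bI n d (norm_pos_iff.1 d0)))
    rw [integral_const_mul] at this
    have e : ‖d‖ ^ (-4 / 3 : ℝ) = ‖d‖ ^ (2 / 3 : ℝ) / ‖d‖ ^ 2 := by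
      rw [← Real.rpow_natCast, ← Real.rpow_sub d0]; norm_num
    rw [K0, norm_mul, Complex.norm_real, Real.norm_of_nonneg (by positivity), e]
    calc _ ≤ ‖d‖ ^ (2 / 3 : ℝ) * (K * 729 ^ 2 / ‖d‖ ^ 2 * ∫ C, BB0 m1 C) := by gcongr
      _ = _ := by ring
  · refine Tendsto.const_mul _ (tendsto_integral_of_dominated_convergence _ (fun n => ?_)
      ((BB0_int hm1).const_mul (K * 729 ^ 2 / ‖d‖ ^ 2)) (fun n => .of_forall (bI n d hd))
      ((Measure.ae_ne volume 0).mono fun C hC =>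
        ((lf _ (mul_ne_zero hm1 hC)).mul_const _).mul (lF _)))
    refine Measurable.aestronglyMeasurable (Measurable.mul (Measurable.mul ?_ ?_) ?_)
    · exact ((cf n).comp (continuous_const.mul continuous_id)).measurable
    · exact Complex.measurable_ofReal.comp (measurable_norm.pow_const _)
    · exact (cF n).measurable.comp (measurable_const.div (measurable_const.mul measurable_id))

open CUTM in
theorem cut0 (hB : Bas) : ∃ (β : ℕ → ℂ → ℂ) (K : ℝ), (∀ n, Bump 0 (β n)) ∧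
    (∀ n z, ‖β n z‖ ≤ ‖G0 z‖) ∧ (∀ z, z ≠ 0 → Tendsto (fun n => β n z) atTop (𝓝 (G0 z))) ∧
    ∀ n ξ, ‖ξ‖ ^ 2 * ‖F1 (β n) ξ‖ ≤ K := by
  obtain ⟨G, hG⟩ : ∃ G : SchwartzMap ℂ ℂ, ∀ z, G z = G0 z := ⟨E, E_apply⟩
  obtain ⟨R, hR⟩ := rh_sch
  obtain ⟨K1, h1⟩ := fam G R
  obtain ⟨K2, h2⟩ := fam R G
  have m1 : ∀ n : ℕ, (1 : ℝ) ≤ n + 1 := fun n => by simp
  have m0 : ∀ n : ℕ, (0 : ℝ) < n + 1 := fun n => by positivity
  have ns : ∀ (c : ℝ) (z : ℂ), 0 < c → ‖c • z‖ = c * ‖z‖ := fun c z hc => by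
    rw [norm_smul, Real.norm_of_nonneg hc.le]
  refine ⟨fun n z => G z * R (((n + 1 : ℝ))⁻¹ • z) - G z * R ((n + 1 : ℝ) • z), K1 + K2,
    fun n => ⟨?_, ⟨((n + 1 : ℝ))⁻¹, 2 * (n + 1), by positivity, fun z hz => ⟨?_, ?_⟩⟩, ?_⟩, ?_, ?_, ?_⟩
  · exact ((G.smooth ⊤).mul ((R.smooth ⊤).comp (contDiff_const_smul _))).sub
      ((G.smooth ⊤).mul ((R.smooth ⊤).comp (contDiff_const_smul _)))
  · by_contra h
    apply hz
    have h3 := (not_le.1 h).le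
    have h4 : ((n + 1 : ℝ))⁻¹ ≤ 1 := inv_le_one_of_one_le₀ (m1 n)
    have h5 := inv_pos.2 (m0 n)
    simp only [hR]
    rw [rh_one, rh_one, sub_self]
    · rw [ns _ _ (m0 n)]
      exact (mul_le_mul_of_nonneg_left h3 (m0 n).le).trans (mul_inv_cancel₀ (m0 n).ne').le
    · rw [ns _ _ h5]
      nlinarith [norm_nonneg z]
  · by_contra h
    apply hz
    have h3 := (not_le.1 h).le
    simp only [hR]
    rw [rh_zero, rh_zero, sub_self]
    · rw [ns _ _ (m0 n)]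
      nlinarith [m1 n]
    · rw [ns _ _ (inv_pos.2 (m0 n)), le_inv_mul_iff₀ (m0 n)]
      linarith
  · intro ζ z hζ
    have e1 : ∀ c : ℝ, R (c • (ζ * z)) = R (c • z) := fun c => by
      simp only [hR, rh, norm_smul, norm_mul, hζ, one_mul]
    have e2 : G (ζ * z) = ζ ^ (0 : ℤ) * G z := by
      simp only [hG, G0, norm_mul, hζ, one_mul, zpow_zero]
    simp only [e1, e2]
    ring
  · intro n z
    simp only [hR]
    rw [← mul_sub, norm_mul, hG, ← ofReal_sub, norm_real, Real.norm_eq_abs]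
    refine mul_le_of_le_one_right (norm_nonneg _) (abs_le.2 ⟨?_, ?_⟩) <;> unfold rh <;>
      linarith [Real.smoothTransition.le_one (2 - ‖((n + 1 : ℝ))⁻¹ • z‖ ^ 2),
        Real.smoothTransition.nonneg (2 - ‖((n + 1 : ℝ))⁻¹ • z‖ ^ 2),
        Real.smoothTransition.le_one (2 - ‖((n + 1 : ℝ)) • z‖ ^ 2),
        Real.smoothTransition.nonneg (2 - ‖((n + 1 : ℝ)) • z‖ ^ 2)]
  · intro z hz
    have hz' : 0 < ‖z‖ := norm_pos_iff.2 hz
    refine tendsto_const_nhds.congr' ?_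
    filter_upwards [(tendsto_natCast_atTop_atTop (R := ℝ)).eventually_ge_atTop ‖z‖,
      (tendsto_natCast_atTop_atTop (R := ℝ)).eventually_ge_atTop (2 / ‖z‖)] with n a1 a2
    simp only [hR]
    rw [rh_one, rh_zero, hG]
    · simp
    · rw [div_le_iff₀ hz'] at a2
      rw [ns _ _ (m0 n)]
      nlinarith
    · rw [ns _ _ (inv_pos.2 (m0 n)), inv_mul_le_iff₀ (m0 n)]
      linarith
  · intro n ξ
    have i1 : ∀ c : ℝ, Integrable fun z => G z * R (c • z) * psi (-(z * ξ)) := fun c => by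
      simp only [mul_assoc]
      refine G.integrable.mul_bdd (c := SchwartzMap.seminorm ℝ 0 0 R)
        ((R.continuous.comp (by fun_prop)).mul
          (hB.b1.cont_psi.comp (by fun_prop))).aestronglyMeasurable (.of_forall fun z => ?_)
      rw [norm_mul, hB.b1.norm_psi, mul_one]
      exact R.norm_le_seminorm ℝ _
    have mc : ((n + 1 : ℝ) : ℂ) ≠ 0 := by exact_mod_cast (m0 n).ne'
    have e1 : F1 (fun z => G z * R (((n + 1 : ℝ))⁻¹ • z) - G z * R ((n + 1 : ℝ) • z)) ξ =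
        FTc (fun z => G z * R (((n + 1 : ℝ))⁻¹ • z)) ξ - FTc (fun z => G z * R ((n + 1 : ℝ) • z)) ξ := by
      rw [FTc, FTc, ← integral_sub (i1 _) (i1 _), F1]
      simp only [sub_mul]
    have e2 := FTc_mul (fun w => R w * G (((n + 1 : ℝ))⁻¹ • w)) mc ξ
    have e3 : (fun z : ℂ => R (((n + 1 : ℝ) : ℂ) * z) * G (((n + 1 : ℝ))⁻¹ • (((n + 1 : ℝ) : ℂ) * z))) =
        fun z => G z * R ((n + 1 : ℝ) • z) := by
      ext z
      rw [mul_comm, ← Complex.real_smul, smul_smul, inv_mul_cancel₀ (m0 n).ne', one_smul]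
    have s1 : ((n + 1 : ℝ))⁻¹ ≤ 1 := inv_le_one_of_one_le₀ (m1 n)
    have a1 := h1 _ (inv_pos.2 (m0 n)).le s1 ξ
    have a2 := h2 _ (inv_pos.2 (m0 n)).le s1 (ξ / (n + 1 : ℝ))
    rw [e3] at e2
    rw [norm_div, div_pow, div_eq_mul_inv, mul_assoc] at a2
    simp only
    rw [e1]
    refine (mul_le_mul_of_nonneg_left (norm_sub_le _ _) (by positivity)).trans ?_
    rw [mul_add, e2, norm_mul, norm_real, Real.norm_of_nonneg (by positivity)]
    exact add_le_add a1 a2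


lemma K0_div (β1 β2 : ℂ → ℂ) {s : ℝ} (hs : 0 < s) :
    K0 (fun C => β1 (C / s)) (fun E => β2 (E / s)) =
      fun d => ((s ^ (8 / 3 : ℝ) : ℝ) : ℂ) * K0 β1 β2 d := by
  funext d
  have s0 : (s : ℂ) ≠ 0 := by exact_mod_cast hs.ne'
  have ns : ‖(s : ℂ)‖ = s := by rw [Complex.norm_real, Real.norm_of_nonneg hs.le]
  have e1 := F1_mul β2 (inv_ne_zero s0)
  simp only [← div_eq_inv_mul, norm_inv, ns, inv_pow, inv_inv, div_inv_eq_mul] at e1
  have e2 := int_mul (fun C => β1 C * ((‖C‖ ^ (-4 / 3 : ℝ) : ℝ) : ℂ) * F1 β2 (d / (729 * C)))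
    (inv_ne_zero s0)
  simp only [← div_eq_inv_mul, norm_inv, ns, inv_pow, inv_inv] at e2
  have e3 : ∀ C : ℂ, β1 (C / s) * ((‖C‖ ^ (-4 / 3 : ℝ) : ℝ) : ℂ) *
      F1 (fun E => β2 (E / s)) (d / (729 * C)) = ((s ^ (2 / 3 : ℝ) : ℝ) : ℂ) *
      (β1 (C / s) * ((‖C / s‖ ^ (-4 / 3 : ℝ) : ℝ) : ℂ) * F1 β2 (d / (729 * (C / s)))) := by
    intro C
    have a1 : d / (729 * C) * s = d / (729 * (C / s)) := by
      rw [← mul_div_assoc, div_div_eq_mul_div, div_mul_eq_mul_div]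
    have a2 : ‖C‖ ^ (-4 / 3 : ℝ) * s ^ 2 = s ^ (2 / 3 : ℝ) * ‖C / s‖ ^ (-4 / 3 : ℝ) := by
      rw [norm_div, ns, Real.div_rpow (norm_nonneg _) hs.le, mul_div_left_comm,
        ← Real.rpow_sub hs, ← Real.rpow_natCast]
      norm_num
    have a3 := congrArg (fun x : ℝ => (x : ℂ)) a2
    simp only [ofReal_mul] at a3
    rw [e1, a1]
    linear_combination β1 (C / s) * F1 β2 (d / (729 * (C / s))) * a3
  have e4 : s ^ (8 / 3 : ℝ) = s ^ (2 / 3 : ℝ) * s ^ 2 := by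
    rw [← Real.rpow_natCast, ← Real.rpow_add hs]
    norm_num
  simp only [K0, e3, integral_const_mul, e2, e4, ofReal_mul]
  ring

lemma thL_div (r h a : O) (β1 β2 : ℂ → ℂ) {s : ℝ} (hs : 0 < s) :
    thL r h a (fun C => β1 (C / s)) (fun E => β2 (E / s)) =
      ((s ^ (8 / 3 : ℝ) : ℝ) : ℂ) * thL r h a β1 β2 := by
  rw [thL, thL, K0_div _ _ hs, TH0M.theta_mul]

lemma thR_div (h a a2 : O) (ν : ℕ → O → O → O → O → ℂ) (β1 β2 : ℂ → ℂ) {s : ℝ} (hs : 0 < s) :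
    thR h a a2 ν (fun C => β1 (C / s)) (fun E => β2 (E / s)) =
      ((s ^ (8 / 3 : ℝ) : ℝ) : ℂ) * thR h a a2 ν β1 β2 := by
  simp only [thR, Finset.mul_sum]
  refine Finset.sum_congr rfl fun v _ => Finset.sum_congr rfl fun e _ => ?_
  have := K0_div (fun C => β2 (C / muC v e h)) (fun E => β1 (-(muC v e h * E))) hs
  simp only [div_right_comm _ (s : ℂ), ← mul_div_assoc, ← neg_div] at this
  rw [this, TH0M.theta_mul]
  ring

end TH1Z

open TH0M TH1M TH1Z in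
/-- the theta identity for the Gaussian -/
theorem th10 (r h : O) (ν : ℕ → O → O → O → O → ℂ) (hr : Prim r) (hh : Prim h)
    (hν : ∀ v < 7, ∀ e ∈ U6, InvP r v e h (ν v e)) :
    ∃ c : ℂ, ∀ (y : ℝ) (a a2 : O), 0 < y → (729 : O) ∣ a → h ∣ lam ^ 18 * a * a2 - 1 →
      thL r h a G0 (fun E => G0 (E / y)) = thR h a a2 ν G0 (fun E => G0 (E / y)) +
        cub a h * c * ((y ^ (2 / 3 : ℝ) : ℝ) : ℂ) := by
  obtain ⟨f, Kf, f1, f2, f3, f4⟩ := cut0 bas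
  choose l hl using fun n => th00 r h ν (f n) hr hh hν (f1 n)
  refine ⟨limUnder atTop fun n => (∫ z, f n z) * l n, fun y a a2 hy ha ha2 => ?_⟩
  have y0 : (y : ℂ) ≠ 0 := by exact_mod_cast hy.ne'
  have cf : ∀ n, Continuous (f n) := fun n => (f1 n).smooth.continuous
  have t1 : Tendsto (fun n => thL r h a (fun C => f n (y * C)) (f n)) atTop
      (𝓝 (thL r h a (fun C => G0 (y * C)) G0)) := by
    obtain ⟨K, k1, k2⟩ := k0_lim bas.b1 cf cf f2 f2 f3 f3 f4 y0 one_ne_zero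
    simp only [one_mul] at k1 k2
    exact theta_lim bas W1.bb W2.av1 (W2.av0 r hr).1 _ (.of_forall k1) k2
  have t2 : Tendsto (fun n => thR h a a2 ν (fun C => f n (y * C)) (f n)) atTop
      (𝓝 (thR h a a2 ν (fun C => G0 (y * C)) G0)) := by
    refine tendsto_finsetSum _ fun v hv => tendsto_finsetSum _ fun e he => Tendsto.const_mul _ ?_
    have m0 := mu_ne bas v he hh
    obtain ⟨K, k1, k2⟩ := k0_lim bas.b1 cf cf f2 f2 f3 f3 f4 (inv_ne_zero m0)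
      (mul_ne_zero y0 (neg_ne_zero.2 m0))
    simp only [mul_assoc, neg_mul, ← div_eq_inv_mul] at k1 k2
    exact theta_lim bas W1.bb W2.av1 (hν v (Finset.mem_range.1 hv) e he).1 _ (.of_forall k1) k2
  have ny : ‖(y : ℂ)‖ = y := by rw [Complex.norm_real, Real.norm_of_nonneg hy.le]
  set w : ℂ := cub a h * ((y ^ 2)⁻¹ : ℝ) with hw
  have t3 : Tendsto (fun n => w * ((∫ z, f n z) * l n)) atTop _ := (t1.sub t2).congr fun n => by
    rw [hl n _ a a2 (bump_mul (f1 n) y0) ha ha2, int_mul _ y0, ny, hw]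
    ring
  have t4 : Tendsto (fun n => w * ((∫ z, f n z) * l n)) atTop
      (𝓝 (w * limUnder atTop fun n => (∫ z, f n z) * l n)) := by
    by_cases w0 : w = 0
    · simp [w0]
    · have k4 : Tendsto (fun n => (∫ z, f n z) * l n) atTop _ :=
        (t3.const_mul w⁻¹).congr fun n => by rw [inv_mul_cancel_left₀ w0]
      exact (tendsto_nhds_limUnder ⟨_, k4⟩).const_mul w
  have t5 := tendsto_nhds_unique t3 t4
  have e1 := thL_div r h a (fun C => G0 (y * C)) G0 hy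
  have e2 := thR_div h a a2 ν (fun C => G0 (y * C)) G0 hy
  simp only [mul_div_cancel₀ _ y0] at e1 e2
  have e4 : y ^ (2 / 3 : ℝ) = y ^ (8 / 3 : ℝ) * (y ^ 2)⁻¹ := by
    rw [← Real.rpow_natCast, ← Real.rpow_neg hy.le, ← Real.rpow_add hy]
    norm_num
  rw [e1, e2, e4, ofReal_mul, ← sub_eq_iff_eq_add', ← mul_sub, t5, hw]
  ring

end Vale.Agent.P026.J0
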