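import Vale.Agent.P026.M.PS1a

/-! P006: Poisson summation for a pair of cubic characters, Moebius, separation, duality. -/

noncomputable section
open Complex MeasureTheory Filter Topology
open scoped Classical ComplexConjugate

namespace Vale.Agent.P006
namespace Poi3
open Vale.Agent.P026 PSM PS1M

lemma kap_ne : kap ≠ 0 := by
  unfold kap
  exact div_ne_zero (by exact_mod_cast (Real.sqrt_pos.2 (by norm_num : (0 : ℝ) < 3)).ne') two_ne_zero

lemma pe_pair (hB : Bas) (m1 m2 : O) : Pe (m1 * m2) fun n => cub n m1 * conj (cub n m2) := by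
  intro a m
  have h1 := hB.b6.pe m1 a (m2 * m)
  have h2 := hB.b6.pe m2 a (m1 * m)
  simp only at h1 h2 ⊢
  rw [mul_assoc, h1, mul_left_comm, h2]

/-- finite Fourier transform of a product of two cubic characters with coprime moduli -/
lemma ft (hB : Bas) (hC : CRStmt) (hH : HD) {m1 m2 : O} (p1 : Prim m1) (p2 : Prim m2)
    (s1 : Squarefree m1) (s2 : Squarefree m2) (hc : IsCoprime m1 m2) (h : O) :
    ∑ r ∈ Rs (m1 * m2), cub r m1 * conj (cub r m2) * eQ (r * h) (m1 * m2) =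
      conj (cub h m1 * gs m1) * (cub h m2 * gs m2) := by
  have n1 := hB.b2.ne _ p1
  have n2 := hB.b2.ne _ p2
  have c1 := hB.b2.cop _ p1
  have c2 := hB.b2.cop _ p2
  rw [hB.b4.crt m1 m2 (fun r => cub r m1 * conj (cub r m2) * eQ (r * h) (m1 * m2)) n1 n2 hc]
  swap
  · intro a m
    have := pe_pair hB m1 m2 a m
    simp only at this ⊢
    rw [this, add_mul, hB.b1.eQ_add, hB.b1.eQ_dvd (m1 * m2 * m * h) _ ⟨m * h, by ring⟩, mul_one]
  have x : cub m2 m1 * conj (cub m1 m2) = 1 := by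
    rw [hC m2 m1 p2 p1, Complex.mul_conj, Complex.normSq_eq_norm_sq, hB.b6.norm _ _ hc]; simp
  have e : ∀ r1 r2, cub (r1 * m2 + r2 * m1) m1 * conj (cub (r1 * m2 + r2 * m1) m2) *
      eQ ((r1 * m2 + r2 * m1) * h) (m1 * m2) =
      conj (conj (cub r1 m1) * eQ (r1 * -h) m1) * (conj (cub r2 m2) * eQ (r2 * h) m2) := by
    intro r1 r2
    have a1 := hB.b6.pe m1 (r1 * m2) r2
    have a2 := hB.b6.pe m2 (r2 * m1) r1
    simp only at a1 a2
    have b1 : eQ (r1 * m2 * h) (m1 * m2) = eQ (r1 * h) m1 := by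
      rw [← hB.b1.eQ_mul m2 (r1 * h) m1 n2]; congr 1 <;> ring
    have b2 : eQ (r2 * m1 * h) (m1 * m2) = eQ (r2 * h) m2 := by
      rw [← hB.b1.eQ_mul m1 (r2 * h) m2 n1]; congr 1; ring
    rw [show r1 * m2 + r2 * m1 = r1 * m2 + m1 * r2 by ring, a1,
      show r1 * m2 + m1 * r2 = r2 * m1 + m2 * r1 by ring, a2,
      show (r2 * m1 + m2 * r1) * h = r1 * m2 * h + r2 * m1 * h by ring, hB.b1.eQ_add, b1, b2,
      hB.b6.mul_l _ _ _ c1, hB.b6.mul_l _ _ _ c2, mul_neg, hB.b1.eQ_neg]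
    simp only [map_mul, Complex.conj_conj]
    linear_combination (cub r1 m1 * conj (cub r2 m2) * eQ (r1 * h) m1 * eQ (r2 * h) m2) * x
  simp only [e]
  rw [← Finset.sum_mul_sum, ← map_sum, hH.tw3 m1 (-h) c1 s1, hH.tw3 m2 h c2 s2, hB.b6.neg_l _ _ c1]

/-- (a) Poisson summation -/
theorem poi (hB : Bas) (hC : CRStmt) (hH : HD) (hG : GPOStmt) {m1 m2 : O} (p1 : Prim m1) (p2 : Prim m2)
    (s1 : Squarefree m1) (s2 : Squarefree m2) (hc : IsCoprime m1 m2) {M : ℝ} (hM : 0 < M) :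
    ∑' n : O, cub n m1 * conj (cub n m2) * cexp (-(N n / M : ℝ)) =
      (Real.pi * M : ℝ) / (kap * N (m1 * m2)) * ∑' h : O,
        conj (cub h m1 * gs m1) * (cub h m2 * gs m2) * cexp (-(sg * M * N h / N (m1 * m2) : ℝ)) := by
  have G := hG _ (m1 * m2) M (mul_ne_zero (hB.b2.ne _ p1) (hB.b2.ne _ p2)) (pe_pair hB m1 m2) hM
  simp only [ft hB hC hH p1 p2 s1 s2 hc] at G
  exact G

lemma mu_prime_mul {p n : O} (hp : Prime p) (hn : n ≠ 0) :
    mu (p * n) = if p ∣ n then 0 else -mu n := by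
  have hc : (UniqueFactorizationMonoid.factors (p * n)).card =
      (UniqueFactorizationMonoid.factors n).card + 1 := by
    rw [Multiset.card_eq_card_of_rel (UniqueFactorizationMonoid.factors_mul hp.ne_zero hn),
      Multiset.card_add, UniqueFactorizationMonoid.card_factors_of_irreducible hp.irreducible,
      add_comm]
  unfold mu
  rw [squarefree_mul_iff, hp.irreducible.isRelPrime_iff_not_dvd, hc, pow_succ]
  by_cases h : p ∣ n <;> by_cases h' : Squarefree n <;> simp [h, h', hp.irreducible.squarefree]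

lemma ex_prime (hB : Bas) {g : O} (hg : Prim g) (h1 : g ≠ 1) : ∃ p, Prime p ∧ Prim p ∧ p ∣ g := by
  revert h1
  refine hB.b2.ind1 (fun g => g ≠ 1 → ∃ p, Prime p ∧ Prim p ∧ p ∣ g) (fun h => (h rfl).elim)
    (fun p a hp hp' _ _ _ => ⟨p, hp, hp', dvd_mul_right _ _⟩) g hg

lemma eq_one_of_dvd (hB : Bas) {d : O} (hd : Prim d) (h : d ∣ 1) : d = 1 :=
  hB.b2.uniq _ _ hd hB.b2.one (associated_one_iff_isUnit.2 (isUnit_of_dvd_one h))

/-- (b) Moebius over the primary divisors -/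
theorem mob (hB : Bas) {g : O} (hg : Prim g) (D : Finset O) (hD : ∀ d ∈ D, Prim d)
    (hD' : ∀ d, Prim d → d ∣ g → d ∈ D) :
    ∑ d ∈ D, (if d ∣ g then mu d else 0) = if g = 1 then 1 else 0 := by
  by_cases h1 : g = 1
  · subst h1
    rw [if_pos rfl, Finset.sum_eq_single 1]
    · simp [mu]
    · intro d hd hne
      exact if_neg fun h => hne (eq_one_of_dvd hB (hD d hd) h)
    · intro h; exact (h (hD' 1 hB.b2.one dvd_rfl)).elim
  rw [if_neg h1]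
  obtain ⟨p, hp, hp', hpg⟩ := ex_prime hB hg h1
  rw [← Finset.sum_filter, ← Finset.sum_filter_add_sum_filter_not _ (fun d => p ∣ d)]
  have key : ∑ d ∈ (D.filter (· ∣ g)).filter (fun d => p ∣ d), mu d =
      ∑ d ∈ (D.filter (· ∣ g)).filter (fun d => ¬ p ∣ d), -mu d := by
    symm
    refine Finset.sum_bij_ne_zero (fun d _ _ => p * d) ?_ ?_ ?_ ?_
    · intro d hd _
      simp only [Finset.mem_filter] at hd ⊢
      have hc : IsCoprime p d := (hp.irreducible.coprime_iff_not_dvd).2 hd.2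
      have hdv : p * d ∣ g := hc.mul_dvd hpg hd.1.2
      exact ⟨⟨hD' _ (hB.b2.mul _ _ hp' (hD d hd.1.1)) hdv, hdv⟩, dvd_mul_right _ _⟩
    · intro d _ _ d' _ _ h
      exact mul_left_cancel₀ hp.ne_zero h
    · intro b hb hb0
      simp only [Finset.mem_filter] at hb
      obtain ⟨⟨hb1, hb2⟩, d, rfl⟩ := hb
      have pd : Prim d := hB.b2.cancel _ _ hp' (hD _ hb1)
      rw [mu_prime_mul hp (hB.b2.ne _ pd)] at hb0
      have hpd : ¬ p ∣ d := fun h => hb0 (if_pos h)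
      rw [if_neg hpd] at hb0
      have hdg : d ∣ g := (dvd_mul_left _ _).trans hb2
      exact ⟨d, by simp only [Finset.mem_filter]; exact ⟨⟨hD' _ pd hdg, hdg⟩, hpd⟩, hb0, rfl⟩
    · intro d hd _
      simp only [Finset.mem_filter] at hd
      rw [mu_prime_mul hp (hB.b2.ne _ (hD d hd.1.1)), if_neg hd.2]
  rw [key, ← Finset.sum_add_distrib]
  simp

/-- detecting coprimality -/
theorem mob2 (hB : Bas) {a : O} (b : O) (ha : Prim a) (D : Finset O) (hD : ∀ d ∈ D, Prim d)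
    (hD' : ∀ d, Prim d → d ∣ a → d ∈ D) :
    ∑ d ∈ D, (if d ∣ a ∧ d ∣ b then mu d else 0) = if IsCoprime a b then 1 else 0 := by
  obtain ⟨g, c1, d1, pg, _, e1, e2, hc⟩ := hB.b2.gcd a b ha
  have iff1 : ∀ d, d ∣ a ∧ d ∣ b ↔ d ∣ g := by
    intro d
    constructor
    · rintro ⟨h1, h2⟩
      obtain ⟨u, v, huv⟩ := hc
      have : g = u * a + v * b := by rw [e1, e2]; linear_combination (-g) * huv
      rw [this]
      exact dvd_add (h1.mul_left _) (h2.mul_left _)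
    · intro h
      exact ⟨by rw [e1]; exact h.mul_right _, by rw [e2]; exact h.mul_right _⟩
  have iff2 : IsCoprime a b ↔ g = 1 := by
    constructor
    · intro h
      exact eq_one_of_dvd hB pg (isUnit_iff_dvd_one.1
        (h.isUnit_of_dvd' ((iff1 g).2 dvd_rfl).1 ((iff1 g).2 dvd_rfl).2))
    · intro h; rw [e1, e2, h, one_mul, one_mul]; exact hc
  simp only [iff1, iff2]
  exact mob hB pg D hD fun d hd h => hD' d hd ((iff1 d).2 h).1

/-- regrouping of pairs by the primary greatest common divisor -/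
theorem regroup (hB : Bas) (U : Finset O) (hU : ∀ d ∈ U, Prim d)
    (hU' : ∀ m ∈ U, ∀ d, Prim d → d ∣ m → d ∈ U) (f : O → O → ℂ) :
    ∑ m1 ∈ U, ∑ m2 ∈ U, f m1 m2 = ∑ g ∈ U, ∑ k1 ∈ U, ∑ k2 ∈ U,
      if IsCoprime k1 k2 ∧ g * k1 ∈ U ∧ g * k2 ∈ U then f (g * k1) (g * k2) else 0 := by
  rw [← Finset.sum_product', ← Finset.sum_product' (f := fun (g : O) (k1 : O) => ∑ k2 ∈ U,
    if IsCoprime k1 k2 ∧ g * k1 ∈ U ∧ g * k2 ∈ U then f (g * k1) (g * k2) else 0),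
    ← Finset.sum_product' (f := fun (x : O × O) (k2 : O) =>
      if IsCoprime x.2 k2 ∧ x.1 * x.2 ∈ U ∧ x.1 * k2 ∈ U then f (x.1 * x.2) (x.1 * k2) else 0),
    ← Finset.sum_filter]
  symm
  refine Finset.sum_bij (fun x _ => (x.1.1 * x.1.2, x.1.1 * x.2)) ?_ ?_ ?_ ?_
  · intro x hx
    simp only [Finset.mem_filter, Finset.mem_product] at hx ⊢
    exact ⟨hx.2.2.1, hx.2.2.2⟩
  · rintro ⟨⟨g, k1⟩, k2⟩ hx ⟨⟨g', k1'⟩, k2'⟩ hy h
    simp only [Finset.mem_filter, Finset.mem_product, Prod.mk.injEq] at hx hy h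
    have d1 : ∀ {g k1 k2 g' k1' k2' : O}, IsCoprime k1' k2' → g * k1 = g' * k1' → g * k2 = g' * k2' →
        g ∣ g' := by
      intro g k1 k2 g' k1' k2' ⟨u, v, huv⟩ e1 e2
      exact ⟨u * k1 + v * k2, by linear_combination (-g') * huv - u * e1 - v * e2⟩
    have eg : g = g' := hB.b2.uniq _ _ (hU _ hx.1.1.1) (hU _ hy.1.1.1)
      (associated_of_dvd_dvd (d1 hy.2.1 h.1 h.2) (d1 hx.2.1 h.1.symm h.2.symm))
    subst eg
    have g0 := hB.b2.ne _ (hU _ hx.1.1.1)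
    rw [mul_left_cancel₀ g0 h.1, mul_left_cancel₀ g0 h.2]
  · rintro ⟨m1, m2⟩ hm
    simp only [Finset.mem_product] at hm
    obtain ⟨g, c1, d1, pg, pc, e1, e2, hc⟩ := hB.b2.gcd m1 m2 (hU _ hm.1)
    have pd : Prim d1 := hB.b2.cancel _ _ pg (e2 ▸ hU _ hm.2)
    refine ⟨((g, c1), d1), ?_, by simp [← e1, ← e2]⟩
    simp only [Finset.mem_filter, Finset.mem_product]
    exact ⟨⟨⟨hU' _ hm.1 g pg ⟨c1, e1⟩, hU' _ hm.1 c1 pc ⟨g, by rw [e1]; ring⟩⟩,
      hU' _ hm.2 d1 pd ⟨g, by rw [e2]; ring⟩⟩, hc, e1 ▸ hm.1, e2 ▸ hm.2⟩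
  · intro x _; rfl

lemma cpc {x : ℝ} (hx : 0 < x) (a b : ℂ) : Continuous fun u : ℝ => (x : ℂ) ^ (a + b * (u : ℂ) * I) :=
  Continuous.const_cpow (by fun_prop) (Or.inl (by exact_mod_cast hx.ne'))

/-- the separated polynomial -/
def SP {ι : Type} (S : Finset ι) (z : ι → ℂ) (n : ι → ℝ) (σ u : ℝ) : ℂ :=
  ∑ k ∈ S, z k * (n k : ℂ) ^ (-1 / 2 + σ + u * I)

lemma SP_cont {ι : Type} (S : Finset ι) (z : ι → ℂ) (n : ι → ℝ) (hn : ∀ k ∈ S, 0 < n k) (σ : ℝ) :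
    Continuous (SP S z n σ) := by
  refine continuous_finsetSum _ fun k hk => continuous_const.mul ?_
  simpa using cpc (hn k hk) (-1 / 2 + σ) 1

lemma SP_le {ι : Type} (S : Finset ι) (z : ι → ℂ) (n : ι → ℝ) (hn : ∀ k ∈ S, 0 < n k) (σ u : ℝ) :
    ‖SP S z n σ u‖ ≤ ∑ k ∈ S, ‖z k‖ * n k ^ (-1 / 2 + σ) := by
  refine (norm_sum_le _ _).trans (Finset.sum_le_sum fun k hk => ?_)
  rw [norm_mul, Complex.norm_cpow_eq_rpow_re_of_pos (hn k hk)]
  simp

lemma SP_int (hΓ : GAM) {ι : Type} (S : Finset ι) (z : ι → ℂ) (n : ι → ℝ) (hn : ∀ k ∈ S, 0 < n k)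
    {σ : ℝ} (hσ : 0 < σ) : Integrable fun u : ℝ => ‖Gamma (σ + u * I)‖ * ‖SP S z n σ u‖ ^ 2 := by
  refine ((gam_int hΓ hσ).norm.mul_const ((∑ k ∈ S, ‖z k‖ * n k ^ (-1 / 2 + σ)) ^ 2)).mono'
    ((gam_cont hσ).norm.mul ((SP_cont S z n hn σ).norm.pow 2)).aestronglyMeasurable
    (Eventually.of_forall fun u => ?_)
  rw [Real.norm_of_nonneg (by positivity)]
  have := SP_le S z n hn σ u
  gcongr

/-- (c) separation of variables -/
theorem sep (hΓ : GAM) {ι : Type} (S : Finset ι) (z : ι → ℂ) (n : ι → ℝ) (hn : ∀ k ∈ S, 0 < n k)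
    {X σ : ℝ} (hX : 0 < X) (hσ : 0 < σ) :
    ‖∑ k1 ∈ S, ∑ k2 ∈ S, z k1 * conj (z k2) * (((Real.sqrt (n k1 * n k2) : ℂ))⁻¹ *
        cexp (-(X / (n k1 * n k2) : ℝ)))‖ ≤
      1 / (2 * Real.pi) * X ^ (-σ) * ∫ u : ℝ, ‖Gamma (σ + u * I)‖ * ‖SP S z n σ u‖ ^ 2 := by
  have nX : ∀ u : ℝ, ‖(X : ℂ) ^ (-(σ + u * I))‖ = X ^ (-σ) := fun u => by
    rw [Complex.norm_cpow_eq_rpow_re_of_pos hX]; simp
  have cX : Continuous fun u : ℝ => (X : ℂ) ^ (-(σ + u * I)) :=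
    Continuous.const_cpow (by fun_prop) (Or.inl (by exact_mod_cast hX.ne'))
  obtain ⟨G, hG⟩ : ∃ G : ι → ι → ℝ → ℂ, G = fun k1 k2 (u : ℝ) => Gamma (σ + u * I) * (X : ℂ) ^ (-(σ + u * I)) *
    ((z k1 * (n k1 : ℂ) ^ (-1 / 2 + σ + u * I)) *
      conj (z k2 * (n k2 : ℂ) ^ (-1 / 2 + σ + ((-u : ℝ) : ℂ) * I))) := ⟨_, rfl⟩
  have e1 : ∀ k1 ∈ S, ∀ k2 ∈ S, z k1 * conj (z k2) * (((Real.sqrt (n k1 * n k2) : ℂ))⁻¹ *
      cexp (-(X / (n k1 * n k2) : ℝ))) = ((1 / (2 * Real.pi) : ℝ) : ℂ) * ∫ u : ℝ, G k1 k2 u := by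
    intro k1 h1 k2 h2
    have a := hn k1 h1
    have b := hn k2 h2
    rw [mel hΓ hσ (by positivity : 0 < X / (n k1 * n k2)), ← integral_const_mul, ← integral_const_mul,
      ← integral_const_mul, ← integral_const_mul, hG]
    congr 1
    funext u
    have A := alg σ u hX a b
    simp only [map_mul]
    linear_combination (z k1 * conj (z k2) * ((1 / (2 * Real.pi) : ℝ) : ℂ) * Gamma (σ + u * I)) * A
  have gi : ∀ k1 ∈ S, ∀ k2 ∈ S, Integrable (G k1 k2) := by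
    intro k1 h1 k2 h2
    have a := hn k1 h1
    have b := hn k2 h2
    have c1 : Continuous fun u : ℝ => (n k1 : ℂ) ^ (-1 / 2 + σ + u * I) := by
      simpa using cpc a (-1 / 2 + σ) 1
    have c2 : Continuous fun u : ℝ => (n k2 : ℂ) ^ (-1 / 2 + σ + ((-u : ℝ) : ℂ) * I) := by
      simpa using cpc b (-1 / 2 + σ) (-1)
    rw [hG]
    refine ((gam_int hΓ hσ).norm.mul_const (X ^ (-σ) * ((‖z k1‖ * n k1 ^ (-1 / 2 + σ)) *
      (‖z k2‖ * n k2 ^ (-1 / 2 + σ))))).mono' (((gam_cont hσ).mul cX).mul ((continuous_const.mul c1).mul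
        (Complex.continuous_conj.comp (continuous_const.mul c2)))).aestronglyMeasurable
      (Eventually.of_forall fun u => le_of_eq ?_)
    simp only [norm_mul, Complex.norm_conj, nX, Complex.norm_cpow_eq_rpow_re_of_pos a,
      Complex.norm_cpow_eq_rpow_re_of_pos b]
    simp [mul_assoc]
  rw [Finset.sum_congr rfl fun k1 h1 => Finset.sum_congr rfl fun k2 h2 => e1 k1 h1 k2 h2]
  simp only [← Finset.mul_sum]
  rw [Finset.sum_congr rfl fun k1 h1 => (integral_finsetSum S fun k2 h2 => gi k1 h1 k2 h2).symm,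
    ← integral_finsetSum S fun k1 h1 => integrable_finsetSum S fun k2 h2 => gi k1 h1 k2 h2]
  have e2 : ∀ u : ℝ, ∑ k1 ∈ S, ∑ k2 ∈ S, G k1 k2 u =
      Gamma (σ + u * I) * (X : ℂ) ^ (-(σ + u * I)) * (SP S z n σ u * conj (SP S z n σ (-u))) := by
    intro u
    rw [hG]
    simp only [← Finset.mul_sum]
    unfold SP
    rw [map_sum, Finset.sum_mul]
  simp only [e2]
  have i1 := SP_int hΓ S z n hn hσ
  have gn : ∀ u : ℝ, ‖Gamma (σ + ((-u : ℝ) : ℂ) * I)‖ = ‖Gamma (σ + u * I)‖ := by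
    intro u
    have : (σ : ℂ) + ((-u : ℝ) : ℂ) * I = conj (σ + u * I) := by simp
    rw [this, Complex.Gamma_conj, Complex.norm_conj]
  have i2 : Integrable fun u : ℝ => ‖Gamma (σ + u * I)‖ * ‖SP S z n σ (-u)‖ ^ 2 := by
    simpa only [gn] using i1.comp_neg
  have e3 : ∫ u : ℝ, ‖Gamma (σ + u * I)‖ * ‖SP S z n σ (-u)‖ ^ 2 =
      ∫ u : ℝ, ‖Gamma (σ + u * I)‖ * ‖SP S z n σ u‖ ^ 2 := by
    rw [← integral_neg_eq_self]; simp only [gn, neg_neg]
  rw [norm_mul, Complex.norm_real, Real.norm_of_nonneg (by positivity), mul_assoc]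
  gcongr
  calc _ ≤ ∫ u : ℝ, X ^ (-σ) / 2 * (‖Gamma (σ + u * I)‖ * ‖SP S z n σ u‖ ^ 2 +
        ‖Gamma (σ + u * I)‖ * ‖SP S z n σ (-u)‖ ^ 2) := by
        refine norm_integral_le_of_norm_le ((i1.add i2).const_mul _) (Eventually.of_forall fun u => ?_)
        rw [norm_mul, norm_mul, norm_mul, nX, Complex.norm_conj]
        have h0 : 0 ≤ ‖Gamma (σ + u * I)‖ * X ^ (-σ) := by positivity
        nlinarith [mul_nonneg h0 (sq_nonneg (‖SP S z n σ u‖ - ‖SP S z n σ (-u)‖))]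
    _ = _ := by rw [integral_const_mul, integral_add i1 i2, e3]; ring

/-- (d) duality for finite bilinear forms -/
theorem dual {ι κ : Type} (S : Finset ι) (T : Finset κ) (K : ι → κ → ℂ) (B : ℝ) (hB : 0 ≤ B)
    (h : ∀ c : κ → ℂ, ∑ m ∈ S, ‖∑ n ∈ T, c n * K m n‖ ^ 2 ≤ B * ∑ n ∈ T, ‖c n‖ ^ 2) (a : ι → ℂ) :
    ∑ n ∈ T, ‖∑ m ∈ S, a m * K m n‖ ^ 2 ≤ B * ∑ m ∈ S, ‖a m‖ ^ 2 := by
  obtain ⟨c, hc⟩ : ∃ c : κ → ℂ, c = fun n => conj (∑ m ∈ S, a m * K m n) := ⟨_, rfl⟩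
  have hn : ∀ n, ‖c n‖ = ‖∑ m ∈ S, a m * K m n‖ := fun n => by rw [hc, Complex.norm_conj]
  have h1 := h c
  simp only [hn] at h1
  set L := ∑ n ∈ T, ‖∑ m ∈ S, a m * K m n‖ ^ 2 with hL
  set A := ∑ m ∈ S, ‖a m‖ ^ 2 with hA
  have L0 : 0 ≤ L := Finset.sum_nonneg fun _ _ => sq_nonneg _
  have A0 : 0 ≤ A := Finset.sum_nonneg fun _ _ => sq_nonneg _
  have e : (L : ℂ) = ∑ m ∈ S, a m * ∑ n ∈ T, c n * K m n := by
    simp only [Finset.mul_sum]
    rw [Finset.sum_comm, hL]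
    push_cast
    refine Finset.sum_congr rfl fun n _ => ?_
    rw [← Complex.conj_mul', Finset.mul_sum, hc]
    exact Finset.sum_congr rfl fun m _ => by ring
  have h2 : L ≤ ∑ m ∈ S, ‖a m‖ * ‖∑ n ∈ T, c n * K m n‖ := by
    calc L = ‖(L : ℂ)‖ := by rw [Complex.norm_real, Real.norm_of_nonneg L0]
      _ ≤ _ := by
        rw [e]
        exact (norm_sum_le _ _).trans (le_of_eq (Finset.sum_congr rfl fun m _ => norm_mul _ _))
  have h3 := Finset.sum_mul_sq_le_sq_mul_sq S (fun m => ‖a m‖) fun m => ‖∑ n ∈ T, c n * K m n‖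
  have h4 : L ^ 2 ≤ A * (B * L) :=
    ((pow_le_pow_left₀ L0 h2 2).trans h3).trans (mul_le_mul_of_nonneg_left h1 A0)
  rcases L0.eq_or_lt with h0 | h0
  · rw [← h0]; positivity
  · nlinarith

end Poi3
end Vale.Agent.P006
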