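import Vale.Agent.P026.M.W1
import Vale.Agent.P026.M.B8
import Vale.Agent.P026.M.ZK

/-! Dirichlet convolution on primary elements, the identities of Vaughan and Heath-Brown. -/

noncomputable section
open Finset
open scoped Classical

namespace Vale.Agent.P006.Vau

open Vale.Agent.P026 W1

theorem b8 : B8 := b8S bas

/-- primary elements of norm at most `X` -/
def PS (X : ℝ) : Finset O := (bas.b3.fin X).toFinset.filter Prim

theorem mem_PS {X : ℝ} {n : O} : n ∈ PS X ↔ Prim n ∧ N n ≤ X := by simp [PS, and_comm]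

theorem N1 {n : O} (h : Prim n) : 1 ≤ N n := bas.b1.N_one_le n (bas.b2.ne n h)

theorem N0 (n : O) : 0 ≤ N n := Nat.cast_nonneg _

theorem N_one : N 1 = 1 := by simp [N, ZKM.Nn_one]

theorem N_dvd {d n : O} (hn : n ≠ 0) (h : d ∣ n) : N d ≤ N n := by
  obtain ⟨e, rfl⟩ := h
  have := bas.b1.N_one_le e (right_ne_zero_of_mul hn)
  rw [bas.b1.N_mul]
  nlinarith [N0 d]

/-- primary divisors -/
def dv (n : O) : Finset O := (PS (N n)).filter (· ∣ n)

theorem mem_dv {d n : O} (hn : n ≠ 0) : d ∈ dv n ↔ Prim d ∧ d ∣ n := by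
  simp only [dv, mem_filter, mem_PS]
  exact ⟨fun h => ⟨h.1.1, h.2⟩, fun h => ⟨⟨h.1, N_dvd hn h.2⟩, h.2⟩⟩

theorem dv_one : dv 1 = {1} := by
  ext d
  rw [mem_dv one_ne_zero, mem_singleton]
  exact ⟨fun h => bas.b2.uniq _ _ h.1 bas.b2.one (associated_one_iff_isUnit.2 (isUnit_of_dvd_one h.2)),
    by rintro rfl; exact ⟨bas.b2.one, dvd_rfl⟩⟩

theorem sum_dv_mul {R : Type} [AddCommMonoid R] {p a : O} (hp : Prime p) (h1 : Prim p) (ha : Prim a)
    (g : O → R) : ∑ d ∈ dv (p * a), g d = ∑ d ∈ dv a, ((if p ∣ d then 0 else g d) + g (p * d)) := by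
  have a0 := bas.b2.ne a ha
  have n0 := mul_ne_zero hp.ne_zero a0
  rw [← sum_filter_not_add_sum_filter _ (p ∣ ·), sum_add_distrib, sum_ite, sum_const_zero, zero_add]
  congr 1
  · refine sum_congr ?_ fun _ _ => rfl
    ext d
    simp only [mem_filter, mem_dv a0, mem_dv n0]
    exact and_congr_left fun h => and_congr_right fun _ => ⟨fun k =>
      ((hp.irreducible.isRelPrime_iff_not_dvd.2 h).symm.dvd_of_dvd_mul_left k), fun k => k.mul_left _⟩
  · refine (sum_bij (fun d _ => p * d) (fun d hd => ?_) (fun _ _ _ _ h => mul_left_cancel₀ hp.ne_zero h)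
      (fun d hd => ?_) fun _ _ => rfl).symm
    · rw [mem_dv a0] at hd
      exact mem_filter.2 ⟨(mem_dv n0).2 ⟨bas.b2.mul _ _ h1 hd.1, mul_dvd_mul_left _ hd.2⟩,
        dvd_mul_right _ _⟩
    · obtain ⟨h2, e, rfl⟩ := mem_filter.1 hd
      rw [mem_dv n0] at h2
      exact ⟨e, (mem_dv a0).2 ⟨bas.b2.cancel _ _ h1 h2.1,
        (mul_dvd_mul_iff_left hp.ne_zero).1 h2.2⟩, rfl⟩

theorem sum_mu {n : O} (hn : Prim n) : ∑ d ∈ dv n, mu d = if n = 1 then 1 else 0 := by
  refine bas.b2.ind1 (fun n => ∑ d ∈ dv n, mu d = if n = 1 then 1 else 0) ?_ ?_ n hn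
  · simp [dv_one, ZKM.mu_one]
  · intro p a hp h1 ha _
    rw [if_neg fun h => hp.not_dvd_one ⟨_, h.symm⟩, sum_dv_mul hp h1 ha]
    refine sum_eq_zero fun d hd => ?_
    rw [ZKM.mu_prime_mul hp (bas.b2.ne d ((mem_dv (bas.b2.ne a ha)).1 hd).1)]
    split_ifs <;> simp

/-- von Mangoldt function -/
def Lam (n : O) : ℝ := if (pf n).card = 1 then ∑ q ∈ pf n, Real.log (N q) else 0

theorem pf_prime {p : O} (hp : Prime p) (h1 : Prim p) : pf p = {p} := by
  simpa using b8.pf_pp p 1 hp h1 one_ne_zero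

theorem Lam_pow {p : O} (hp : Prime p) (h1 : Prim p) {k : ℕ} (hk : k ≠ 0) :
    Lam (p ^ k) = Real.log (N p) := by simp [Lam, b8.pf_pp p k hp h1 hk]

theorem Lam_prime {p : O} (hp : Prime p) (h1 : Prim p) : Lam p = Real.log (N p) := by
  simpa using Lam_pow hp h1 one_ne_zero

theorem Lam_one : Lam 1 = 0 := by simp [Lam, b8.pf_one]

theorem Lam_ne {n : O} (hn : Prim n) (h : Lam n ≠ 0) :
    ∃ (p : O) (k : ℕ), Prime p ∧ Prim p ∧ k ≠ 0 ∧ n = p ^ k := by
  obtain ⟨p, hp⟩ := card_eq_one.1 (by_contra fun k => h (if_neg k))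
  have m := (b8.mem n p (bas.b2.ne n hn)).1 (hp ▸ mem_singleton_self p)
  have e := b8.prod n hn
  rw [hp, prod_singleton] at e
  exact ⟨p, _, m.1, m.2.1, fun z => h (by rw [e, z, pow_zero, Lam_one]), e⟩

theorem Lam_nonneg (n : O) : 0 ≤ Lam n := by
  unfold Lam
  split_ifs
  · exact sum_nonneg fun q _ => Real.log_natCast_nonneg _
  · rfl

theorem sum_Lam {n : O} (hn : Prim n) : ∑ d ∈ dv n, Lam d = Real.log (N n) := by
  refine bas.b2.ind1 (fun n => ∑ d ∈ dv n, Lam d = Real.log (N n)) ?_ ?_ n hn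
  · simp [dv_one, Lam_one, N_one]
  · intro p a hp h1 ha ih
    have a0 := bas.b2.ne a ha
    rw [sum_dv_mul hp h1 ha, bas.b1.N_mul, Real.log_mul (zero_lt_one.trans_le (N1 h1)).ne'
      (zero_lt_one.trans_le (N1 ha)).ne', ← ih,
      ← (sum_ite_eq' (dv a) 1 fun _ => Real.log (N p)).trans
        (if_pos ((mem_dv a0).2 ⟨bas.b2.one, one_dvd _⟩)), ← sum_add_distrib]
    refine sum_congr rfl fun d hd => ?_
    have d1 := ((mem_dv a0).1 hd).1
    have d0 := bas.b2.ne d d1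
    have e := b8.pf_mul p d hp.ne_zero d0
    have m := b8.mem d p d0
    rw [pf_prime hp h1, ← insert_eq] at e
    by_cases k : p ∣ d
    · rw [insert_eq_of_mem (m.2 ⟨hp, h1, k⟩)] at e
      rw [if_pos k, if_neg (by rintro rfl; exact hp.not_dvd_one k), Lam, e]; rfl
    · rw [if_neg k, add_comm]
      split_ifs with h
      · rw [h, mul_one, Lam_prime hp h1]
      · rw [Lam, e, card_insert_of_notMem fun z => k (m.1 z).2.2, if_neg]
        intro z
        refine h ((b8.prod d d1).trans ?_)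
        rw [card_eq_zero.1 (by omega : (pf d).card = 0), prod_empty]

theorem Lam_le {n : O} (hn : Prim n) : Lam n ≤ Real.log (N n) :=
  sum_Lam hn ▸ single_le_sum (fun d _ => Lam_nonneg d) ((mem_dv (bas.b2.ne n hn)).2 ⟨hn, dvd_rfl⟩)

/-- regrouping of a bilinear sum by the product, second factor unweighted -/
theorem conv {R : Type} [Semiring R] {X : ℝ} (g f : O → R) (hf : ∀ n, X < N n → f n = 0) :
    ∑ a ∈ PS X, ∑ b ∈ PS X, g a * f (a * b) = ∑ n ∈ PS X, (∑ d ∈ dv n, g d) * f n := by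
  have e : ∀ n ∈ PS X, (∑ d ∈ dv n, g d) * f n = ∑ a ∈ PS X, if a ∣ n then g a * f n else 0 := by
    intro n hn
    rw [mem_PS] at hn
    rw [sum_mul, ← sum_filter]
    refine sum_congr ?_ fun _ _ => rfl
    ext d
    rw [mem_dv (bas.b2.ne n hn.1), mem_filter, mem_PS]
    exact ⟨fun h => ⟨⟨h.1, (N_dvd (bas.b2.ne n hn.1) h.2).trans hn.2⟩, h.2⟩, fun h => ⟨h.1.1, h.2⟩⟩
  rw [sum_congr rfl e]
  refine Eq.trans ?_ sum_comm
  refine sum_congr rfl fun a ha => ?_
  rw [mem_PS] at ha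
  rw [← sum_filter, ← sum_filter_of_ne (p := fun b => N (a * b) ≤ X) fun b _ h =>
    not_lt.1 fun k => h (by rw [hf _ k, mul_zero])]
  refine sum_bij (fun b _ => a * b) (fun b hb => ?_)
    (fun _ _ _ _ h => mul_left_cancel₀ (bas.b2.ne a ha.1) h) (fun n hn => ?_) fun _ _ => rfl
  · rw [mem_filter, mem_PS] at hb ⊢
    exact ⟨⟨bas.b2.mul _ _ ha.1 hb.1.1, hb.2⟩, dvd_mul_right _ _⟩
  · obtain ⟨h2, e, rfl⟩ := mem_filter.1 hn
    rw [mem_PS] at h2
    exact ⟨e, mem_filter.2 ⟨mem_PS.2 ⟨bas.b2.cancel _ _ ha.1 h2.1,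
      (N_dvd (bas.b2.ne _ h2.1) (dvd_mul_left _ _)).trans h2.2⟩, h2.2⟩, rfl⟩

/-- functions vanishing at `0` and beyond norm `X` -/
def W (X : ℝ) : Submodule ℂ (O → ℂ) where
  carrier := {f | f 0 = 0 ∧ ∀ n, X < N n → f n = 0}
  zero_mem' := ⟨rfl, fun _ _ => rfl⟩
  add_mem' hf hg := ⟨by simp [hf.1, hg.1], fun n h => by simp [hf.2 n h, hg.2 n h]⟩
  smul_mem' c f hf := ⟨by simp [hf.1], fun n h => by simp [hf.2 n h]⟩

theorem W_mul {X : ℝ} (f : W X) (m n : O) (h : X < N n) : f.1 (m * n) = 0 := by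
  by_cases z : m = 0
  · rw [z, zero_mul]; exact f.2.1
  · exact f.2.2 _ (h.trans_le (by
      have := bas.b1.N_one_le m z
      rw [bas.b1.N_mul]; nlinarith [N0 n]))

/-- the operator `(T g f) m = ∑ g n * f (m n)` -/
def T (X : ℝ) (g : O → ℂ) : Module.End ℂ (W X) where
  toFun f := ⟨fun m => ∑ n ∈ PS X, g n * f.1 (m * n), by simp [f.2.1], fun m h =>
    sum_eq_zero fun n _ => by rw [mul_comm m, W_mul f n m h, mul_zero]⟩
  map_add' f f' := by ext m; simp [mul_add, sum_add_distrib]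
  map_smul' c f := by ext m; simp [mul_sum, mul_left_comm]

theorem T_apply {X : ℝ} (g : O → ℂ) (f : W X) (m : O) :
    (T X g f).1 m = ∑ n ∈ PS X, g n * f.1 (m * n) := rfl

theorem T_comm (X : ℝ) (g h : O → ℂ) : Commute (T X g) (T X h) := by
  ext f m
  simp only [Module.End.mul_apply, T_apply, mul_sum]
  rw [sum_comm]
  exact sum_congr rfl fun a _ => sum_congr rfl fun b _ => by rw [mul_left_comm, mul_right_comm m]

theorem T_add (X : ℝ) (g h : O → ℂ) : T X (g + h) = T X g + T X h := by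
  ext f m; simp [T_apply, add_mul, sum_add_distrib]

theorem T_mul_one (X : ℝ) (g : O → ℂ) : T X g * T X 1 = T X fun n => ∑ d ∈ dv n, g d := by
  ext f m
  simp only [Module.End.mul_apply, T_apply, Pi.one_apply, one_mul, mul_sum, mul_assoc m]
  exact conv g (fun n => f.1 (m * n)) (W_mul f m)

theorem T_mu {X : ℝ} (hX : 1 ≤ X) : T X mu * T X 1 = 1 := by
  rw [T_mul_one]
  ext f m
  rw [T_apply, sum_congr rfl fun n hn => by rw [sum_mu (mem_PS.1 hn).1]]
  simp [mem_PS, bas.b2.one, N_one, hX]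

theorem T_Lam (X : ℝ) : T X (fun n => Lam n) * T X 1 = T X fun n => Real.log (N n) := by
  rw [T_mul_one]
  ext f m
  refine sum_congr rfl fun n hn => ?_
  simp only [← sum_Lam (mem_PS.1 hn).1, Complex.ofReal_sum]

/-- truncations -/
def lo (U : ℝ) (g : O → ℂ) (n : O) : ℂ := if N n ≤ U then g n else 0
def hi (U : ℝ) (g : O → ℂ) (n : O) : ℂ := if N n ≤ U then 0 else g n

theorem T_split (X U : ℝ) (g : O → ℂ) : T X g = T X (lo U g) + T X (hi U g) := by
  rw [← T_add]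
  congr 1
  funext n
  simp only [lo, hi, Pi.add_apply]
  split_ifs <;> simp

/-- Vaughan's identity, operator form -/
theorem vaughan_op {X : ℝ} (hX : 1 ≤ X) (U V : ℝ) : T X (fun n => Lam n) =
    T X (lo V fun n => Lam n) + T X (lo U mu) * T X (fun n => Real.log (N n)) -
      T X (lo U mu) * (T X (lo V fun n => Lam n) * T X 1) +
      T X (hi U mu) * (T X (hi V fun n => Lam n) * T X 1) := by
  have h1 := T_mu hX
  have h2 := T_Lam X
  have c := (T_comm X (hi V fun n => Lam n) 1).eq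
  rw [T_split X U mu] at h1
  rw [← h2, T_split X V fun n => Lam n, c]
  have h3 : (T X (lo U mu) + T X (hi U mu)) * T X 1 * T X (hi V fun n => Lam n) =
      T X (hi V fun n => Lam n) := by rw [h1, one_mul]
  rw [add_mul (T X (lo V _)), mul_add, c]
  simp only [add_mul, mul_assoc] at h3
  rw [← sub_eq_zero] at h3 ⊢
  rw [← neg_eq_zero, ← h3]
  abel

/-- Vaughan's identity -/
theorem vaughan {X : ℝ} (hX : 1 ≤ X) (U V : ℝ) (f : O → ℂ) (h0 : f 0 = 0)
    (hf : ∀ n, X < N n → f n = 0) :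
    ∑ n ∈ PS X, Lam n * f n = ∑ n ∈ PS X, lo V (fun n => Lam n) n * f n +
      ∑ a ∈ PS X, lo U mu a * ∑ b ∈ PS X, Real.log (N b) * f (a * b) -
      ∑ a ∈ PS X, lo U mu a * ∑ b ∈ PS X, lo V (fun n => Lam n) b * ∑ c ∈ PS X, f (a * b * c) +
      ∑ a ∈ PS X, hi U mu a * ∑ b ∈ PS X, hi V (fun n => Lam n) b * ∑ c ∈ PS X, f (a * b * c) := by
  have := congrArg (fun S : Module.End ℂ (W X) => (S ⟨f, h0, hf⟩).1 1) (vaughan_op hX U V)
  simpa only [LinearMap.add_apply, LinearMap.sub_apply, Module.End.mul_apply, Submodule.coe_add,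
    Submodule.coe_sub, Pi.add_apply, Pi.sub_apply, T_apply, one_mul, Pi.one_apply] using this

theorem hi_pow {X U : ℝ} (hU : 0 ≤ U) (g : O → ℂ) (k : ℕ) (f : W X) (m : O)
    (h : X < N m * U ^ k) : ((T X (hi U g) ^ k) f).1 m = 0 := by
  induction k generalizing m with
  | zero => exact f.2.2 m (by simpa using h)
  | succ k ih =>
    rw [pow_succ', Module.End.mul_apply, T_apply]
    refine sum_eq_zero fun n _ => ?_
    by_cases h1 : N n ≤ U
    · rw [hi, if_pos h1, zero_mul]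
    · rw [ih, mul_zero]
      rw [bas.b1.N_mul, mul_assoc]
      refine h.trans_le (mul_le_mul_of_nonneg_left ?_ (N0 m))
      rw [pow_succ']
      exact mul_le_mul_of_nonneg_right (not_le.1 h1).le (by positivity)

theorem gen {R : Type} [Ring R] [Algebra ℂ R] {M Z L Λ : R} (c : Commute M Z) (hL : Z * Λ = L)
    {k : ℕ} (h2 : (-(M * Z) + 1) ^ k = 0) :
    Λ = ∑ j ∈ range k, ((-1 : ℂ) ^ j * (k.choose (j + 1) : ℂ)) • (M ^ (j + 1) * Z ^ j * L) := by
  rw [(Commute.one_right _).add_pow, sum_range_succ'] at h2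
  have h3 := congrArg (· * Λ) h2
  simp only [pow_zero, one_pow, mul_one, Nat.choose_zero_right, Nat.cast_one, add_mul, one_mul,
    zero_mul, sum_mul] at h3
  refine (eq_neg_of_add_eq_zero_right h3).trans ?_
  rw [← sum_neg_distrib]
  refine sum_congr rfl fun j _ => ?_
  rw [← neg_one_smul ℂ (M * Z), smul_pow, c.mul_pow, ← hL, pow_succ Z,
    (Nat.cast_commute _ _).symm.eq, ← nsmul_eq_mul, ← Nat.cast_smul_eq_nsmul ℂ,
    smul_smul, smul_mul_assoc, ← neg_smul]
  simp only [mul_assoc]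
  congr 1
  ring

/-- Heath-Brown's identity, operator form -/
theorem hb_op {X U : ℝ} (hX : 1 ≤ X) (hU : 0 ≤ U) (k : ℕ) (h : X < U ^ k) : T X (fun n => Lam n) =
    ∑ j ∈ range k, ((-1 : ℂ) ^ j * (k.choose (j + 1) : ℂ)) •
      (T X (lo U mu) ^ (j + 1) * T X 1 ^ j * T X fun n => Real.log (N n)) := by
  have z : T X (hi U mu) ^ k = 0 := by
    ext f m
    by_cases m0 : m = 0
    · rw [m0]; exact ((T X (hi U mu) ^ k) f).2.1
    · exact hi_pow hU mu k f m (h.trans_le (le_mul_of_one_le_left (by positivity)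
        (bas.b1.N_one_le m m0)))
  have h1 := T_mu hX
  rw [T_split X U mu, add_mul] at h1
  refine gen (R := Module.End ℂ (W X)) (T_comm X _ _) ((T_comm X _ _).eq.trans (T_Lam X)) ?_
  rw [show -(T X (lo U mu) * T X 1) + 1 = T X (hi U mu) * T X 1 by rw [← h1]; abel,
    (T_comm X _ _).mul_pow, z, zero_mul]

end Vale.Agent.P006.Vau
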