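import Vale.Agent.P026.Stm3

/-! P006 branch K: the exact constant from a type I estimate with unknown constant. -/

noncomputable section
open Complex MeasureTheory Filter Topology
open scoped Classical ComplexConjugate

namespace Vale.Agent.P006.K
open Vale.Agent.P026

/-- closed facts from P026 -/
structure Env : Prop where
  hB : Bas
  hC : CRStmt
  h9 : P9Stmt
  hJ : JStmt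
  hH : HD
  hb : BB
  h8 : B8
  hL : LN
  hG : GPOStmt
  hΓ : GAM
  hS : SHStmt

def cc (k : O) : ℂ := cub lam k * bb k / (Real.sqrt (N k) : ℂ)
def ww (k : O) : ℝ := ‖bb k‖ ^ 2 * N k ^ (-7 / 6 : ℝ)
def EP (s : O) : ℝ := ∏ p ∈ pf s, (1 - (N p)⁻¹)
def MM (s : O) : ℂ := conj (cc s) * ((N s ^ (-1 / 6 : ℝ) * EP s : ℝ) : ℂ)
def T0 (s : O) (Y : ℝ) : ℂ := ∑' k, if Prim k then cc k * cub s k * VV Y (N k) else 0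
/-- pointwise type I estimate with an unknown constant -/
def TI (ρ : ℂ) : Prop := ∀ ε : ℝ, 0 < ε → ∃ C : ℝ, ∀ (s : O) (Y : ℝ), Prim s → 1 ≤ Y →
  ‖T0 s Y - ρ * MM s * ((Y ^ (5 / 6 : ℝ) : ℝ) : ℂ)‖ ≤ C * N s ^ (1 / 2 + ε) * Y ^ ε
def rho0 : ℝ := 2 * Real.pi / (9 * Real.sqrt 3) * Real.sqrt Real.pi * Real.exp (25 / 144)
def cstar : ℝ := (2 * Real.pi) ^ (2 / 3 : ℝ) / (3 * Real.Gamma (2 / 3))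
/-- END statement of the branch -/
def KStmt : Prop := ∀ ρ : ℂ, TI ρ → ρ = (cstar * rho0 : ℝ)

def c1 : ℝ := Real.pi ^ (-1 / 6 : ℝ) * Real.Gamma (1 / 6) / 3
def c2 : ℝ := Real.pi ^ (-1 / 3 : ℝ) * Real.Gamma (1 / 3)
def gA (A : ℝ) (a : ℤ) : ℝ := Real.exp (-(Real.pi * (a / A) ^ 2))
def PR (R : ℕ) : ℝ := ∏ p ∈ R.primeFactors, (1 - (p : ℝ)⁻¹)
def mm (n : ℕ) : ℝ :=
  if h : ∃ p : ℕ × ℕ, Squarefree p.1 ∧ n = p.1 * p.2 ^ 3 then (h.choose.1 : ℝ) ^ (-1 / 3 : ℝ) else 0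
def IsCb (m : ℤ) : Prop := ∃ j : ℤ, m = j ^ 3
def LL (A Y : ℝ) : ℂ := ∑' a : ℤ, if IsCoprime a 3 then (gA A a : ℂ) * T0 (a : O) Y else 0
def SS (Y : ℝ) : ℝ := ∑' k, if Prim k then PR (3 * Nn k) * ww k * VV Y (N k) else 0

/-- elementary sums and constants -/
def EMStmt : Prop := c1 = cstar * c2 ∧ 0 < c2 ∧ 0 < rho0 ∧
  (∃ C : ℝ, ∀ A : ℝ, 0 < A →
    |∑' b : ℕ, ((b + 1 : ℕ) : ℝ) ^ (-1 / 3 : ℝ) * gA A (b + 1 : ℕ) - c2 / 2 * A ^ (2 / 3 : ℝ)| ≤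
      C * A ^ (3 / 5 : ℝ)) ∧
  (∀ β : ℝ, 0 < β →
    |∑' j : ℕ, Real.exp (-(Real.pi * (β * ((j + 1 : ℕ) : ℝ) ^ 3) ^ 2)) - c1 / 2 * β ^ (-1 / 3 : ℝ)| ≤ 1) ∧
  (∀ σ δ : ℝ, 0 ≤ σ → 0 < δ → ∃ C : ℝ, ∀ A : ℝ, 0 < A →
    (Summable fun a : ℤ => |(a : ℝ)| ^ σ * gA A a) ∧
    ∑' a : ℤ, (if a = 0 then 0 else |(a : ℝ)| ^ σ * gA A a) ≤ C * A ^ (σ + 1 + δ)) ∧
  ∀ ε : ℝ, 0 < ε → ∃ C : ℝ, 0 < C ∧ ∀ R : ℕ, R ≠ 0 →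
    (R.divisors.card : ℝ) ≤ C * (R : ℝ) ^ ε ∧ (R : ℝ) ^ (-ε) ≤ C * PR R ∧ PR R ≤ 1

def MZStmt : Prop := ∀ ε : ℝ, 0 < ε → ∃ C : ℝ, ∀ (R : ℕ) (A : ℝ), 3 ∣ R → R ≠ 0 → 0 < A →
  |∑' a : ℤ, (if IsCoprime a R then mm a.natAbs * gA A a else 0) - c2 * PR R * A ^ (2 / 3 : ℝ)| ≤
    C * (R : ℝ) ^ ε * A ^ (3 / 5 : ℝ)

/-- rational arguments -/
def RATStmt : Prop := (∀ n, 0 ≤ mm n ∧ mm n ≤ 1) ∧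
  ∀ a : ℤ, Prim (a : O) → conj (cc a) * ((N (a : O) ^ (-1 / 6 : ℝ) : ℝ) : ℂ) = mm a.natAbs

/-- transfer from Gaussian weights to log-normal weights -/
def TRStmt : Prop := ∀ σ : ℝ, 0 < σ → σ < 1 → ∃ C : ℝ, 0 ≤ C ∧ ∀ (P : O → ℂ) (α : ℂ) (B X : ℝ) (w : ℂ),
  P 0 = 0 → (∀ l, ‖P l‖ ≤ 1) → 0 < X → |w.re| ≤ 2 →
  (∀ y : ℝ, 0 < y → ‖∑' l, P l * cexp (-(y * N l : ℝ)) - α / y‖ ≤ B * min 1 y⁻¹) →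
  ‖∑' l, P l * (N l : ℂ) ^ w * VV X (N l) -
      α * (Real.sqrt Real.pi : ℂ) * cexp ((1 + w) ^ 2 / 4) * (X : ℂ) ^ (1 + w)‖ ≤
    C * B * Real.exp (4 * |w.im|) * X ^ (σ + w.re)

/-- Polya-Vinogradov with a Gaussian weight -/
def GBStmt : Prop := ∀ ε : ℝ, 0 < ε → ∃ C : ℝ, 0 ≤ C ∧ ∀ (m1 m2 f : ℤ) (y : ℝ), f ≠ 0 →
  ¬ IsCb (m1 * m2 ^ 2) → 0 < y →
  ‖∑' l, (if Prim l then cub ((m1 * m2 ^ 2 * f ^ 3 : ℤ) : O) l else 0) * cexp (-(y * N l : ℝ))‖ ≤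
    C * |((m1 * m2 : ℤ) : ℝ)| * |((m1 * m2 * f : ℤ) : ℝ)| ^ ε * min 1 y⁻¹

def SQStmt : Prop := ∀ ε : ℝ, 0 < ε → ε ≤ 1 / 2 → ∃ C : ℝ, 0 ≤ C ∧ ∀ (m1 m2 : ℤ) (X : ℝ) (w : ℂ),
  ¬ IsCb (m1 * m2 ^ 2) → 0 < X → w.re = 19 / 18 →
  ‖∑' n, if Prim n ∧ Squarefree (Nn n) then
      cub ((m1 * m2 ^ 2 : ℤ) : O) n * (N n : ℂ) ^ w * VV X (N n) else 0‖ ≤
    C * Real.exp (4 * |w.im|) * X ^ (14 / 9 + ε) * |((m1 * m2 : ℤ) : ℝ)| ^ (1 / 2 + ε)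

def W0Stmt : Prop := ∃ C : ℝ, 0 ≤ C ∧ ∀ X : ℝ, 0 < X →
  |∑' l, (if Prim l then N l ^ (-1 / 6 : ℝ) * VV X (N l) else 0) - rho0 * X ^ (5 / 6 : ℝ)| ≤
    C * X ^ (11 / 20 : ℝ)

def W8Stmt : Prop := ∀ ε : ℝ, 0 < ε → ∃ C : ℝ, 0 ≤ C ∧ ∀ (s : O) (Y : ℝ), Prim s → 0 < Y →
  |∑' k, (if Prim k ∧ IsCoprime k s then ww k * VV Y (N k) else 0) - rho0 * EP s * Y ^ (5 / 6 : ℝ)| ≤
    C * N s ^ ε * Y ^ (11 / 20 : ℝ)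

/-- triples `(u, d, n)`, `k = d n u^3` -/
def Tr (τ : O × ℤ × O) : Prop := Prim τ.1 ∧ Squarefree τ.2.1 ∧ Prim (τ.2.1 : O) ∧ Prim τ.2.2 ∧
  Squarefree (Nn τ.2.2) ∧ IsCoprime (τ.2.1 : O) τ.2.2
def kq (τ : O × ℤ × O) : O := (τ.2.1 : O) * τ.2.2 * τ.1 ^ 3
def RR (τ : O × ℤ × O) : ℕ := 3 * τ.2.1.natAbs * Nn τ.1
def pref (τ : O × ℤ × O) (e : ℕ) : ℝ :=
  Real.sqrt (N τ.1) * (ArithmeticFunction.moebius e : ℤ) / (e * Real.sqrt (N τ.2.2))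
def tm (τ : O × ℤ × O) (A : ℝ) (e : ℕ) (h : ℤ) : ℂ :=
  cub ((τ.2.1 * e * h ^ 2 : ℤ) : O) τ.2.2 *
    ((A * Real.exp (-(Real.pi * (h * A / (e * N τ.2.2)) ^ 2)) : ℝ) : ℂ)
def CP (τ : O × ℤ × O) (A : ℝ) : ℂ := ∑ e ∈ (RR τ).divisors, (pref τ e : ℂ) *
  ∑' h : ℤ, if IsCb (τ.2.1 * e * h ^ 2) then tm τ A e h else 0
def NP (τ : O × ℤ × O) (A : ℝ) : ℂ := ∑ e ∈ (RR τ).divisors, (pref τ e : ℂ) *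
  ∑' h : ℤ, if IsCb (τ.2.1 * e * h ^ 2) then 0 else tm τ A e h
def NCs (A Y : ℝ) : ℂ := ∑' τ, if Tr τ then (VV Y (N (kq τ)) : ℂ) * NP τ A else 0

def DECStmt : Prop :=
  (∀ τ, Tr τ → Prim (kq τ) ∧ Squarefree ((τ.2.1 : O) * τ.2.2) ∧
    N (kq τ) = (τ.2.1 : ℝ) ^ 2 * N τ.2.2 * N τ.1 ^ 3 ∧
    ww (kq τ) = Real.sqrt (N τ.1) * ((τ.2.1 : ℝ) ^ 2 * N τ.2.2) ^ (-1 / 6 : ℝ)) ∧
  ∀ (F : O → ℂ) (z : ℂ), (∀ k, bb k = 0 → F k = 0) →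
    (HasSum (fun τ => if Tr τ then F (kq τ) else 0) z ↔ HasSum F z)

/-- Gauss sums over `ℤ` for a modulus of squarefree norm -/
def GZStmt : Prop := ∀ n, Prim n → Squarefree (Nn n) → ∀ h : ℤ,
  ∑ r ∈ Finset.range (Nn n), cub (r : O) n * cexp (2 * Real.pi * I * (r * h / Nn n)) =
    cub ((h ^ 2 : ℤ) : O) n * conj (cub lam n * gs n)

/-- one-dimensional Poisson summation -/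
def P1Stmt : Prop := ∀ (P : ℤ → ℂ) (q : ℕ) (A : ℝ), q ≠ 0 → 0 < A → (∀ a, P (a + q) = P a) →
  ∑' a : ℤ, P a * gA A a = ∑' h : ℤ,
    (∑ r ∈ Finset.range q, P r * cexp (2 * Real.pi * I * (r * h / q))) *
      ((A / q * Real.exp (-(Real.pi * (h * A / q) ^ 2)) : ℝ) : ℂ)

def POIStmt : Prop := ∀ τ (A : ℝ), Tr τ → 0 < A →
  cc (kq τ) * ∑' a : ℤ, (if IsCoprime a 3 then (gA A a : ℂ) * cub (a : O) (kq τ) else 0) =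
    CP τ A + NP τ A

def CUBStmt : Prop := ∀ τ (A : ℝ), Tr τ → 0 < A →
  ‖CP τ A - ((c1 * A ^ (2 / 3 : ℝ) * (PR (3 * Nn (kq τ)) * ww (kq τ)) : ℝ) : ℂ)‖ ≤
    3 * A * Real.sqrt (N τ.1) / Real.sqrt (N τ.2.2) * (RR τ).divisors.card * (Nn τ.2.2).divisors.card

def KRStmt : Prop := ∀ ε : ℝ, 0 < ε → ∃ C : ℝ, ∀ A Y : ℝ, 0 < A → 1 ≤ Y →
  ‖LL A Y - ((c1 * A ^ (2 / 3 : ℝ) * SS Y : ℝ) : ℂ) - NCs A Y‖ ≤ C * A * Y ^ (1 / 2 + ε)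

def KLStmt : Prop := ∀ ρ : ℂ, TI ρ → ∀ ε : ℝ, 0 < ε → ∃ C : ℝ, ∀ A Y : ℝ, 0 < A → 1 ≤ Y →
  ‖LL A Y - ρ / rho0 * ((c2 * A ^ (2 / 3 : ℝ) * SS Y : ℝ) : ℂ)‖ ≤
    C * (A ^ (2 + ε) * Y ^ ε + A ^ (1 + ε) * Y ^ (11 / 20 : ℝ) + A ^ (3 / 5 : ℝ) * Y ^ (5 / 6 + ε))

/-- the averaged kernel -/
def Kv (A0 β : ℝ) : ℝ := ∫ A in Set.Ioi (0 : ℝ), VV A0 A * Real.exp (-(Real.pi * (β * A) ^ 2))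

def KERStmt : Prop := ∀ A0 β : ℝ, 0 < A0 → β ≠ 0 → (Kv A0 β : ℂ) = (2 * Real.pi : ℝ)⁻¹ * ∫ u : ℝ,
  Gamma (7 / 9 + u * I) * ((Real.pi * β ^ 2 : ℝ) : ℂ) ^ (-(7 / 9 + u * I)) * (Real.sqrt Real.pi : ℂ) *
    cexp ((1 - 2 * (7 / 9 + u * I)) ^ 2 / 4) * (A0 : ℂ) ^ (1 - 2 * (7 / 9 + u * I))

def NC1Stmt : Prop := ∀ ε : ℝ, 0 < ε → ε ≤ 1 / 2 → ∃ C : ℝ, 0 ≤ C ∧ ∀ (m h : ℤ) (e : ℕ) (A0 X : ℝ),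
  ¬ IsCb (m * h ^ 2) → e ≠ 0 → 0 < A0 → 0 < X →
  ‖∑' n, if Prim n ∧ Squarefree (Nn n) then cub ((m * h ^ 2 : ℤ) : O) n *
      ((VV X (N n) / Real.sqrt (N n) * Kv A0 (h / (e * N n)) : ℝ) : ℂ) else 0‖ ≤
    C * (|(h : ℝ)| / e) ^ (-14 / 9 : ℝ) * A0 ^ (-5 / 9 : ℝ) * X ^ (14 / 9 + ε) *
      |((m * h : ℤ) : ℝ)| ^ (1 / 2 + ε)

def NCStmt : Prop := ∀ ε : ℝ, 0 < ε → ∃ C : ℝ, ∀ A0 Y : ℝ, 0 < A0 → 1 ≤ Y →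
  IntegrableOn (fun A => ((VV A0 A / A : ℝ) : ℂ) * NCs A Y) (Set.Ioi 0) ∧
  ‖∫ A in Set.Ioi (0 : ℝ), ((VV A0 A / A : ℝ) : ℂ) * NCs A Y‖ ≤ C * A0 ^ (-5 / 9 : ℝ) * Y ^ (14 / 9 + ε)

end Vale.Agent.P006.K
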