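import Vale.Agent.P026.M.GPO

/-! P006: the classical large sieve over the Eisenstein integers, with a constant loss. -/

noncomputable section
open Complex MeasureTheory Filter Topology
open scoped Classical ComplexConjugate

namespace Vale.Agent.P006.CLS

open Vale.Agent.P026

/-- duality for finite bilinear forms -/
theorem dual {ι κ : Type*} (S : Finset ι) (T : Finset κ) (φ : ι → κ → ℂ) {Δ : ℝ} (hΔ : 0 ≤ Δ)
    (h : ∀ c : ι → ℂ, ∑ n ∈ T, ‖∑ i ∈ S, c i * φ i n‖ ^ 2 ≤ Δ * ∑ i ∈ S, ‖c i‖ ^ 2) (a : κ → ℂ) :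
    ∑ i ∈ S, ‖∑ n ∈ T, a n * φ i n‖ ^ 2 ≤ Δ * ∑ n ∈ T, ‖a n‖ ^ 2 := by
  set c : ι → ℂ := fun i => conj (∑ n ∈ T, a n * φ i n) with hc
  set L := ∑ i ∈ S, ‖∑ n ∈ T, a n * φ i n‖ ^ 2 with hL
  have L0 : 0 ≤ L := Finset.sum_nonneg fun _ _ => by positivity
  have A0 : 0 ≤ ∑ n ∈ T, ‖a n‖ ^ 2 := Finset.sum_nonneg fun _ _ => by positivity
  have e : (L : ℂ) = ∑ n ∈ T, a n * ∑ i ∈ S, c i * φ i n := by
    simp only [hL, Finset.mul_sum]
    rw [Finset.sum_comm]
    push_cast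
    refine Finset.sum_congr rfl fun i _ => ?_
    rw [← Complex.mul_conj', Finset.sum_mul]
    exact Finset.sum_congr rfl fun n _ => by simp only [hc]; ring
  have h1 : L ≤ ∑ n ∈ T, ‖a n‖ * ‖∑ i ∈ S, c i * φ i n‖ := by
    have := congrArg norm e
    rw [norm_real, Real.norm_of_nonneg L0] at this
    rw [this]
    exact (norm_sum_le _ _).trans (Finset.sum_le_sum fun n _ => (norm_mul _ _).le)
  have h2 := Finset.sum_mul_sq_le_sq_mul_sq T (fun n => ‖a n‖) fun n => ‖∑ i ∈ S, c i * φ i n‖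
  have h3 := h c
  simp only [hc, Complex.norm_conj] at h3
  have h4 : L ^ 2 ≤ (∑ n ∈ T, ‖a n‖ ^ 2) * (Δ * L) :=
    ((pow_le_pow_left₀ L0 h1 2).trans h2).trans (mul_le_mul_of_nonneg_left h3 A0)
  rcases L0.eq_or_lt with h0 | h0
  · rw [← h0]; positivity
  · nlinarith

theorem sumZ : Summable fun k : ℤ => Real.exp (-|(k : ℝ)|) := by
  refine Summable.of_nat_of_neg ?_ ?_ <;> simpa using Real.summable_exp_neg_nat

theorem cell (x : ℝ) : Real.exp (-(8 * x ^ 2)) ≤ Real.exp 2 * Real.exp (-|(⌊2 * x⌋ : ℝ)|) := by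
  rw [← Real.exp_add, Real.exp_le_exp]
  have h1 := Int.floor_le (2 * x)
  have h2 := Int.lt_floor_add_one (2 * x)
  rcases abs_cases (⌊2 * x⌋ : ℝ) with h | h <;> rw [h.1] <;> nlinarith [sq_nonneg (4 * x - 1),
    sq_nonneg (4 * x + 1)]

/-- Gaussian sums over separated points -/
theorem sep : ∃ C : ℝ, 0 ≤ C ∧ ∀ (ι : Type) (T : Finset ι) (p : ι → ℂ),
    (∀ i ∈ T, ∀ j ∈ T, i ≠ j → 1 ≤ ‖p i - p j‖) → ∑ i ∈ T, Real.exp (-(8 * ‖p i‖ ^ 2)) ≤ C := by
  have hs := sumZ.mul_of_nonneg sumZ (fun _ => (Real.exp_pos _).le) (fun _ => (Real.exp_pos _).le)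
  set g : ℤ × ℤ → ℝ := fun k => Real.exp (-|(k.1 : ℝ)|) * Real.exp (-|(k.2 : ℝ)|) with hg
  have g0 : ∀ k, 0 ≤ g k := fun k => by simp only [hg]; positivity
  refine ⟨Real.exp 2 * Real.exp 2 * ∑' k, g k, mul_nonneg (by positivity) (tsum_nonneg g0),
    fun ι T p hp => ?_⟩
  set f : ι → ℤ × ℤ := fun i => (⌊2 * (p i).re⌋, ⌊2 * (p i).im⌋) with hf
  have inj : Set.InjOn f T := fun i hi j hj hij => by
    by_contra hne
    have h := hp i hi j hj hne
    simp only [hf, Prod.mk.injEq] at hij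
    have a1 := Int.abs_sub_lt_one_of_floor_eq_floor hij.1
    have a2 := Int.abs_sub_lt_one_of_floor_eq_floor hij.2
    rw [abs_lt] at a1 a2
    have h2 : 1 ≤ ‖p i - p j‖ ^ 2 := one_le_pow₀ h
    rw [Complex.sq_norm, normSq_apply, sub_re, sub_im] at h2
    nlinarith
  calc _ ≤ ∑ i ∈ T, Real.exp 2 * Real.exp 2 * g (f i) := Finset.sum_le_sum fun i _ => by
        rw [Complex.sq_norm, normSq_apply, show -(8 * ((p i).re * (p i).re + (p i).im * (p i).im)) =
          -(8 * (p i).re ^ 2) + -(8 * (p i).im ^ 2) by ring, Real.exp_add]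
        calc _ ≤ _ := mul_le_mul (cell _) (cell _) (Real.exp_pos _).le (by positivity)
          _ = _ := by simp only [hg, hf]; ring
    _ = Real.exp 2 * Real.exp 2 * ∑ k ∈ T.image f, g k := by
        rw [← Finset.mul_sum, Finset.sum_image inj]
    _ ≤ _ := by
        gcongr
        exact hs.sum_le_tsum _ fun k _ => g0 k

theorem cn (x : ℝ) : ‖cexp (-(x : ℂ))‖ = Real.exp (-x) := by
  rw [← ofReal_neg, norm_exp_ofReal]

/-- Gaussian Poisson at an arbitrary frequency -/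
theorem poi (hB : Bas) (h1 : PO1Stmt) (hG : GFStmt) {M : ℝ} (hM : 0 < M) (z : ℂ)
    (hs : Summable fun b : O => Real.exp (-(sg * M * ‖toC b - z‖ ^ 2))) :
    ‖∑' n : O, cexp (-(N n / M : ℝ)) * psi (toC n * z)‖ ≤
      Real.pi * M / ‖kap‖ * ∑' b : O, Real.exp (-(sg * M * ‖toC b - z‖ ^ 2)) := by
  obtain ⟨K, hK⟩ := GPOM.gdec hM 0
  have hF : ∀ ξ, F1 (fun x => cexp (-(‖x‖ ^ 2 / M : ℝ)) * psi (x * z)) ξ =
      (Real.pi * M : ℝ) * cexp (-(sg * M * ‖ξ - z‖ ^ 2 : ℝ)) := fun ξ => by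
    rw [← hG M _ hM, F1, F1]
    congr 1
    ext x
    rw [mul_assoc, ← hB.b1.psi_add]
    congr 2
    ring
  have hc := hB.b1.cont_psi
  have h := h1 (fun x => cexp (-(‖x‖ ^ 2 / M : ℝ)) * psi (x * z)) K (by fun_prop) (fun x => by
    rw [norm_mul, hB.b1.norm_psi, mul_one]; simpa only [add_zero] using hK x) (by
    simp only [hF, norm_mul, cn]; exact hs.mul_left _)
  simp only [hF, ← hB.b1.N_eq] at h
  rw [h, tsum_mul_left, norm_mul, norm_mul, norm_inv, norm_real,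
    Real.norm_of_nonneg (by positivity), ← mul_assoc, ← div_eq_inv_mul]
  gcongr
  exact tsum_of_norm_bounded hs.hasSum fun b => (cn _).le

theorem addDual (hB : Bas) (h1 : PO1Stmt) (hG : GFStmt) : ∃ C : ℝ, 0 ≤ C ∧
    ∀ (ι : Type) (S : Finset ι) (z : ι → ℂ) (δ M : ℝ) (T : Finset O) (c : ι → ℂ), 0 < δ → δ ≤ 1 →
    0 ≤ M → (∀ i ∈ S, ∀ j ∈ S, i ≠ j → ∀ b : O, δ ≤ ‖z i - z j - toC b‖) → (∀ n ∈ T, N n ≤ M) →
    ∑ n ∈ T, ‖∑ i ∈ S, c i * psi (toC n * z i)‖ ^ 2 ≤ C * (M + δ⁻¹ ^ 2) * ∑ i ∈ S, ‖c i‖ ^ 2 := by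
  obtain ⟨C, C0, hC⟩ := sep
  refine ⟨Real.exp 1 * (Real.pi / ‖kap‖ * C), by positivity,
    fun ι S z δ M T c δ0 δ1 M0 hz hT => ?_⟩
  set R := M + δ⁻¹ ^ 2 with hR
  have R0 : 0 < R := by positivity
  have r1 : 1 ≤ √R * δ := by
    have : δ⁻¹ ≤ √R := Real.le_sqrt_of_sq_le (by linarith)
    calc 1 = δ⁻¹ * δ := (inv_mul_cancel₀ δ0.ne').symm
      _ ≤ _ := by gcongr
  have s8 : 8 ≤ sg := by unfold sg; nlinarith [Real.pi_gt_three]
  set K : ι → ι → O → ℝ := fun i j b => Real.exp (-(sg * R * ‖toC b - (z i - z j)‖ ^ 2)) with hK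
  have K0 : ∀ i j b, 0 ≤ K i j b := fun _ _ _ => (Real.exp_pos _).le
  have fin : ∀ i, ∀ s : Finset O, ∑ b ∈ s, ∑ j ∈ S, K i j b ≤ C := fun i s => by
    rw [← Finset.sum_product' s S fun b j => K i j b]
    refine le_trans (Finset.sum_le_sum fun q _ => ?_) (hC (O × ι) (s ×ˢ S)
      (fun q => (√R : ℝ) * (toC q.1 - (z i - z q.2))) fun q hq q' hq' hne => ?_)
    · simp only [hK, Real.exp_le_exp, norm_mul, norm_real, Real.norm_eq_abs, mul_pow, sq_abs,
        Real.sq_sqrt R0.le]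
      have : 0 ≤ R * ‖toC q.1 - (z i - z q.2)‖ ^ 2 := by positivity
      nlinarith
    · rw [← mul_sub, norm_mul, norm_real, Real.norm_of_nonneg (Real.sqrt_nonneg _)]
      refine r1.trans (mul_le_mul_of_nonneg_left ?_ (Real.sqrt_nonneg _))
      by_cases e : q.2 = q'.2
      · have hb : q.1 - q'.1 ≠ 0 := fun h => hne (Prod.ext (sub_eq_zero.1 h) e)
        have := hB.b1.N_one_le _ hb
        rw [hB.b1.N_eq, map_sub] at this
        rw [e, sub_sub_sub_cancel_right]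
        exact δ1.trans (by nlinarith [norm_nonneg (toC q.1 - toC q'.1)])
      · have := hz _ (Finset.mem_product.1 hq).2 _ (Finset.mem_product.1 hq').2 e (q'.1 - q.1)
        rw [map_sub] at this
        rwa [show toC q.1 - (z i - z q.2) - (toC q'.1 - (z i - z q'.2)) =
          z q.2 - z q'.2 - (toC q'.1 - toC q.1) by ring]
  have sK : ∀ i, ∀ j ∈ S, Summable (K i j) := fun i j hj =>
    summable_of_sum_le (K0 i j) fun s => le_trans (Finset.sum_le_sum fun b _ =>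
      Finset.single_le_sum (f := fun j => K i j b) (fun _ _ => K0 _ _ _) hj) (fin i s)
  have row : ∀ i, ∑ j ∈ S, ∑' b, K i j b ≤ C := fun i => by
    rw [← Summable.tsum_finsetSum (sK i)]
    exact Real.tsum_le_of_sum_le (fun b => Finset.sum_nonneg fun _ _ => K0 _ _ _) (fin i)
  have sym : ∀ i j, ∑' b, K i j b = ∑' b, K j i b := fun i j => by
    rw [← (Equiv.neg O).tsum_eq]
    refine tsum_congr fun b => ?_
    simp only [hK, Equiv.neg_apply, map_neg]
    rw [← norm_neg]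
    congr 5
    ring
  have sw := GPOM.gsum hB R0
  simp only [cn] at sw
  set F : O → ℂ := fun n => ∑ i ∈ S, c i * psi (toC n * z i) with hF
  have sp : ∀ w : ℂ, Summable fun n : O => cexp (-(N n / R : ℝ)) * psi (toC n * w) := fun w =>
    Summable.of_norm (by simpa only [norm_mul, hB.b1.norm_psi, mul_one, cn] using sw)
  have e1 : ∀ n, ((Real.exp (-(N n / R)) * ‖F n‖ ^ 2 : ℝ) : ℂ) = ∑ i ∈ S, ∑ j ∈ S,
      c i * conj (c j) * (cexp (-(N n / R : ℝ)) * psi (toC n * (z i - z j))) := fun n => by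
    rw [ofReal_mul, ofReal_pow, ← Complex.mul_conj', hF]
    simp only [map_sum]
    rw [Finset.sum_mul_sum]
    simp only [Finset.mul_sum, map_mul, ← hB.b1.psi_neg]
    refine Finset.sum_congr rfl fun i _ => Finset.sum_congr rfl fun j _ => ?_
    rw [show toC n * (z i - z j) = toC n * z i + -(toC n * z j) by ring, hB.b1.psi_add,
      ofReal_exp, ofReal_neg]
    ring
  have sF : Summable fun n => Real.exp (-(N n / R)) * ‖F n‖ ^ 2 := by
    rw [← Complex.summable_ofReal]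
    simp only [e1]
    exact summable_sum fun i _ => summable_sum fun j _ => (sp _).mul_left _
  have e2 : ∑' n, Real.exp (-(N n / R)) * ‖F n‖ ^ 2 ≤
      Real.pi / ‖kap‖ * C * R * ∑ i ∈ S, ‖c i‖ ^ 2 := by
    have h : ((∑' n, Real.exp (-(N n / R)) * ‖F n‖ ^ 2 : ℝ) : ℂ) = _ := Complex.ofReal_tsum _
    simp only [e1] at h
    rw [Summable.tsum_finsetSum fun i _ => summable_sum fun j _ => (sp _).mul_left _] at h
    simp only [Summable.tsum_finsetSum fun j (_ : j ∈ S) => (sp _).mul_left _,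
      tsum_mul_left] at h
    have h' := congrArg norm h
    rw [norm_real, Real.norm_of_nonneg (tsum_nonneg fun _ => by positivity)] at h'
    rw [h']
    have t0 : ∀ i j, 0 ≤ ∑' b, K i j b := fun i j => tsum_nonneg (K0 i j)
    calc _ ≤ ∑ i ∈ S, ∑ j ∈ S, Real.pi * R / ‖kap‖ / 2 *
          (‖c i‖ ^ 2 * ∑' b, K i j b + ‖c j‖ ^ 2 * ∑' b, K j i b) := by
          refine (norm_sum_le _ _).trans (Finset.sum_le_sum fun i _ => (norm_sum_le _ _).trans
            (Finset.sum_le_sum fun j hj => ?_))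
          rw [norm_mul, norm_mul, Complex.norm_conj, ← sym i j]
          refine (mul_le_mul_of_nonneg_left (poi hB h1 hG R0 _ (sK i j hj)) (by positivity)).trans ?_
          have : 0 ≤ Real.pi * R / ‖kap‖ * ∑' b, K i j b := by have := t0 i j; positivity
          nlinarith [mul_nonneg this (sq_nonneg (‖c i‖ - ‖c j‖))]
      _ = Real.pi * R / ‖kap‖ * ∑ i ∈ S, ‖c i‖ ^ 2 * ∑ j ∈ S, ∑' b, K i j b := by
          simp only [mul_add, Finset.sum_add_distrib, Finset.mul_sum]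
          rw [Finset.sum_comm (f := fun i j => Real.pi * R / ‖kap‖ / 2 * (‖c j‖ ^ 2 * ∑' b, K j i b)),
            ← Finset.sum_add_distrib]
          refine Finset.sum_congr rfl fun i _ => ?_
          rw [← Finset.sum_add_distrib]
          exact Finset.sum_congr rfl fun j _ => by ring
      _ ≤ Real.pi * R / ‖kap‖ * ∑ i ∈ S, ‖c i‖ ^ 2 * C := by
          gcongr with i
          exact row i
      _ = _ := by rw [← Finset.sum_mul]; ring
  calc _ ≤ ∑ n ∈ T, Real.exp 1 * (Real.exp (-(N n / R)) * ‖F n‖ ^ 2) :=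
        Finset.sum_le_sum fun n hn => by
          rw [← mul_assoc, ← Real.exp_add]
          refine le_mul_of_one_le_left (by positivity) (Real.one_le_exp ?_)
          have : N n / R ≤ 1 := (div_le_one R0).2 ((hT n hn).trans (by simp only [hR]; nlinarith [sq_nonneg δ⁻¹]))
          linarith
    _ ≤ Real.exp 1 * ∑' n, Real.exp (-(N n / R)) * ‖F n‖ ^ 2 := by
        rw [← Finset.mul_sum]
        gcongr
        exact sF.sum_le_tsum _ fun _ _ => by positivity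
    _ ≤ _ := by
        refine (mul_le_mul_of_nonneg_left e2 (Real.exp_pos _).le).trans_eq ?_
        ring

/-- additive large sieve -/
theorem add (hB : Bas) (h1 : PO1Stmt) (hG : GFStmt) : ∃ C : ℝ, 0 ≤ C ∧
    ∀ (ι : Type) (S : Finset ι) (z : ι → ℂ) (δ M : ℝ) (T : Finset O) (a : O → ℂ), 0 < δ → δ ≤ 1 →
    0 ≤ M → (∀ i ∈ S, ∀ j ∈ S, i ≠ j → ∀ b : O, δ ≤ ‖z i - z j - toC b‖) → (∀ n ∈ T, N n ≤ M) →
    ∑ i ∈ S, ‖∑ n ∈ T, a n * psi (toC n * z i)‖ ^ 2 ≤ C * (M + δ⁻¹ ^ 2) * ∑ n ∈ T, ‖a n‖ ^ 2 := by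
  obtain ⟨C, C0, hC⟩ := addDual hB h1 hG
  exact ⟨C, C0, fun ι S z δ M T a δ0 δ1 M0 hz hT => dual S T (fun i n => psi (toC n * z i))
    (by positivity) (fun c => hC ι S z δ M T c δ0 δ1 M0 hz hT) a⟩

/-- Farey fractions -/
theorem far (hB : Bas) (h1 : PO1Stmt) (hG : GFStmt) : ∃ C : ℝ, 0 ≤ C ∧
    ∀ (D : Finset O) (T : Finset O) (a : O → ℂ) (M Q : ℝ), 0 ≤ M → (∀ q ∈ D, Prim q ∧ N q ≤ Q) →
    (∀ n ∈ T, N n ≤ M) → ∑ q ∈ D, ∑ r ∈ (Rs q).filter (fun r => IsCoprime r q),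
      ‖∑ n ∈ T, a n * eQ (r * n) q‖ ^ 2 ≤ C * (M + Q ^ 2) * ∑ n ∈ T, ‖a n‖ ^ 2 := by
  obtain ⟨C, C0, hC⟩ := add hB h1 hG
  refine ⟨C, C0, fun D T a M Q M0 hD hT => ?_⟩
  rcases D.eq_empty_or_nonempty with rfl | ⟨q0, hq0⟩
  · have : 0 ≤ ∑ n ∈ T, ‖a n‖ ^ 2 := Finset.sum_nonneg fun _ _ => by positivity
    rw [Finset.sum_empty]
    positivity
  have Q1 : 1 ≤ Q := (hB.b1.N_one_le _ (hB.b2.ne _ (hD q0 hq0).1)).trans (hD q0 hq0).2
  have h := hC (Σ _ : O, O) (D.sigma fun q => (Rs q).filter (fun r => IsCoprime r q))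
    (fun x => toC x.2 / toC x.1) Q⁻¹ M T a (by positivity) (inv_le_one_of_one_le₀ Q1) M0
    (fun x hx y hy hne b => ?_) hT
  · rw [Finset.sum_sigma, inv_inv] at h
    simpa only [eQ, map_mul, ← mul_div_assoc, mul_comm] using h
  obtain ⟨q, r⟩ := x
  obtain ⟨q', r'⟩ := y
  simp only [Finset.mem_sigma, Finset.mem_filter] at hx hy ⊢
  obtain ⟨p1, n1⟩ := hD q hx.1
  obtain ⟨p2, n2⟩ := hD q' hy.1
  have z1 := hB.b2.ne _ p1
  have z2 := hB.b2.ne _ p2
  have c1 : toC q ≠ 0 := fun h => z1 (hB.b1.inj (h.trans (map_zero toC).symm))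
  have c2 : toC q' ≠ 0 := fun h => z2 (hB.b1.inj (h.trans (map_zero toC).symm))
  have nz : r * q' - r' * q - b * q * q' ≠ 0 := fun h => by
    have d1 : q ∣ q' := hx.2.2.symm.dvd_of_dvd_mul_left ⟨r' + b * q', by linear_combination h⟩
    have d2 : q' ∣ q := hy.2.2.symm.dvd_of_dvd_mul_left ⟨r - b * q, by linear_combination -h⟩
    obtain rfl := hB.b2.uniq _ _ p1 p2 (associated_of_dvd_dvd d1 d2)
    obtain rfl := hB.b4.uniq q r r' z1 hx.2.1 hy.2.1
      ⟨b, mul_right_cancel₀ z1 (by linear_combination h)⟩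
    exact hne rfl
  have a1 := hB.b1.N_one_le _ nz
  rw [hB.b1.N_eq] at a1 n1 n2
  rw [show toC r / toC q - toC r' / toC q' - toC b =
    toC (r * q' - r' * q - b * q * q') / (toC q * toC q') by
      simp only [map_sub, map_mul]; field_simp, norm_div, norm_mul, inv_eq_one_div]
  have := norm_pos_iff.2 c1
  have := norm_pos_iff.2 c2
  refine div_le_div₀ (norm_nonneg _) ?_ (by positivity) ?_
  · nlinarith [norm_nonneg (toC (r * q' - r' * q - b * q * q'))]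
  · nlinarith [sq_nonneg (‖toC q‖ - ‖toC q'‖)]

/-- large sieve for a family of primitive characters -/
theorem chr (hB : Bas) (h1 : PO1Stmt) (hG : GFStmt) : ∃ C : ℝ, 0 ≤ C ∧
    ∀ (ι : Type) (S : Finset ι) (q : ι → O) (χ : ι → O → ℂ) (τ : ι → ℂ) (T : Finset O) (a : O → ℂ)
    (M Q : ℝ), 0 ≤ M → (∀ i ∈ S, Prim (q i) ∧ N (q i) ≤ Q ∧ ‖τ i‖ ^ 2 = N (q i) ∧
      (∀ r, ‖χ i r‖ ≤ 1) ∧ (∀ r, ¬ IsCoprime r (q i) → χ i r = 0) ∧
      ∀ n, ∑ r ∈ Rs (q i), conj (χ i r) * eQ (r * n) (q i) = χ i n * τ i) →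
    (∀ i ∈ S, ∀ j ∈ S, i ≠ j → q i = q j → ∑ r ∈ Rs (q i), χ i r * conj (χ j r) = 0) →
    (∀ n ∈ T, N n ≤ M) →
    ∑ i ∈ S, ‖∑ n ∈ T, a n * χ i n‖ ^ 2 ≤ C * (M + Q ^ 2) * ∑ n ∈ T, ‖a n‖ ^ 2 := by
  obtain ⟨C, C0, hC⟩ := far hB h1 hG
  refine ⟨C, C0, fun ι S q χ τ T a M Q M0 hS ho hT => le_trans ?_ (hC (S.image q) T a M Q M0
    (fun x hx => ?_) hT)⟩
  swap
  · obtain ⟨i, hi, rfl⟩ := Finset.mem_image.1 hx
    exact ⟨(hS i hi).1, (hS i hi).2.1⟩
  rw [← Finset.sum_fiberwise_of_maps_to (g := q) (t := S.image q)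
    fun i hi => Finset.mem_image_of_mem q hi]
  refine Finset.sum_le_sum fun m hm => ?_
  obtain ⟨i0, hi0, e0⟩ := Finset.mem_image.1 hm
  have m0 : m ≠ 0 := e0 ▸ hB.b2.ne _ (hS i0 hi0).1
  have N0 : 0 < N m := lt_of_lt_of_le one_pos (hB.b1.N_one_le _ m0)
  set U := S.filter (fun i => q i = m) with hU
  set V := (Rs m).filter (fun r => IsCoprime r m) with hV
  have hUq : ∀ i ∈ U, i ∈ S ∧ q i = m := fun i hi => Finset.mem_filter.1 hi
  have sv : ∀ i ∈ U, ∀ f : O → ℂ, ∑ r ∈ V, f r * conj (χ i r) = ∑ r ∈ Rs m, f r * conj (χ i r) :=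
    fun i hi f => Finset.sum_filter_of_ne fun r _ h => by
      by_contra hc
      rw [(hS i (hUq i hi).1).2.2.2.2.1 r (by rwa [(hUq i hi).2]), map_zero, mul_zero] at h
      exact h rfl
  have h := dual U V (fun i r => conj (χ i r)) N0.le (fun c => ?_)
    (fun r => ∑ n ∈ T, a n * eQ (r * n) m)
  · refine le_of_mul_le_mul_left (le_trans (le_of_eq ?_) h) N0
    rw [Finset.mul_sum]
    refine Finset.sum_congr rfl fun i hi => ?_
    obtain ⟨-, -, a1, -, -, a2⟩ := hS i (hUq i hi).1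
    rw [(hUq i hi).2] at a1 a2
    rw [sv i hi, ← a1, ← mul_pow, ← norm_mul]
    congr 2
    simp only [Finset.sum_mul, Finset.mul_sum]
    rw [Finset.sum_comm]
    refine Finset.sum_congr rfl fun n _ => ?_
    rw [mul_comm (τ i), mul_assoc, ← a2, Finset.mul_sum]
    exact Finset.sum_congr rfl fun r _ => by ring
  · have e : ((∑ r ∈ V, ‖∑ i ∈ U, c i * conj (χ i r)‖ ^ 2 : ℝ) : ℂ) =
        ∑ j ∈ U, c j * conj (c j) * ∑ r ∈ Rs m, χ j r * conj (χ j r) := by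
      push_cast
      simp only [← Complex.mul_conj', map_sum]
      simp only [Finset.sum_mul_sum, map_mul, conj_conj]
      rw [Finset.sum_comm]
      refine Finset.sum_congr rfl fun i hi => ?_
      rw [Finset.sum_comm, Finset.sum_eq_single_of_mem i hi fun j hj hne => ?_]
      · rw [← sv i hi, Finset.mul_sum]
        exact Finset.sum_congr rfl fun r _ => by ring
      · have := ho j (hUq j hj).1 i (hUq i hi).1 hne ((hUq j hj).2.trans (hUq i hi).2.symm)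
        rw [(hUq j hj).2, ← sv i hi] at this
        rw [← mul_zero (c i * conj (c j)), ← this, Finset.mul_sum]
        exact Finset.sum_congr rfl fun r _ => by ring
    have e' := congrArg norm e
    rw [norm_real, Real.norm_of_nonneg (Finset.sum_nonneg fun _ _ => by positivity)] at e'
    rw [e', Finset.mul_sum]
    refine (norm_sum_le _ _).trans (Finset.sum_le_sum fun j hj => ?_)
    rw [norm_mul, norm_mul, Complex.norm_conj, mul_comm, ← sq]
    gcongr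
    refine (norm_sum_le _ _).trans ((Finset.sum_le_card_nsmul _ _ 1 fun r _ => ?_).trans ?_)
    · have := (hS j (hUq j hj).1).2.2.2.1 r
      rw [norm_mul, Complex.norm_conj]
      exact mul_le_one₀ this (norm_nonneg _) this
    · rw [hB.b4.card m m0, nsmul_eq_mul, mul_one, N]

theorem peD (hB : Bas) {c m : O} (h : c ∣ m) (a k : O) : cub (a + m * k) c = cub a c :=
  hB.b4.pe_congr c _ _ _ (hB.b6.pe c) (by rw [add_sub_cancel_left]; exact h.mul_right _)

/-- Gauss sum of the pair character -/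
theorem gauss (hB : Bas) (hH : HD) {a b : O} (ha : Prim a) (hb : Prim b) (hs : Squarefree (a * b))
    (n : O) : ∑ r ∈ Rs (a * b), conj (cub r a * conj (cub r b)) * eQ (r * n) (a * b) =
      cub n a * conj (cub n b) * (conj (cub b a) * cub a b * gs a * conj (gs b)) := by
  have a0 := hB.b2.ne _ ha
  have b0 := hB.b2.ne _ hb
  have a3 := hB.b2.cop _ ha
  have b3 := hB.b2.cop _ hb
  have hc : IsCoprime a b := (IsRelPrime.of_squarefree_mul hs).isCoprime
  have t1 := hH.tw3 a n a3 hs.of_mul_left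
  have t2 := congrArg conj (hH.tw3 b (-n) b3 hs.of_mul_right)
  simp only [map_sum, map_mul, conj_conj, hB.b6.neg_l n b b3, mul_neg, hB.b1.eQ_neg] at t2
  rw [hB.b4.crt a b _ a0 b0 hc fun x m => by
    rw [peD hB (dvd_mul_right a b), peD hB (dvd_mul_left b a), add_mul, hB.b1.eQ_add,
      hB.b1.eQ_dvd (a * b * m * n) _ ⟨m * n, by ring⟩, mul_one]]
  rw [show cub n a * conj (cub n b) * (conj (cub b a) * cub a b * gs a * conj (gs b)) =
    conj (cub b a) * cub a b * ((cub n a * gs a) * (conj (cub n b) * conj (gs b))) by ring,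
    ← t1, ← t2, Finset.sum_mul_sum, Finset.mul_sum]
  refine Finset.sum_congr rfl fun r1 _ => ?_
  rw [Finset.mul_sum]
  refine Finset.sum_congr rfl fun r2 _ => ?_
  have e1 : cub (r1 * b + r2 * a) a = cub r1 a * cub b a := by
    rw [mul_comm r2, peD hB (dvd_refl a), hB.b6.mul_l _ _ _ a3]
  have e2 : cub (r1 * b + r2 * a) b = cub r2 b * cub a b := by
    rw [add_comm, mul_comm r1, peD hB (dvd_refl b), hB.b6.mul_l _ _ _ b3]
  rw [e1, e2, show (r1 * b + r2 * a) * n = b * (r1 * n) + a * (r2 * n) by ring, hB.b1.eQ_add,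
    hB.b1.eQ_mul a _ _ a0, mul_comm a b, hB.b1.eQ_mul b _ _ b0]
  simp only [map_mul, conj_conj]
  ring

theorem orth1 (hB : Bas) {a b a' b' : O} (ha : Prim a) (hb : Prim b) (hb' : Prim b')
    (hs : Squarefree (a * b)) (e : a * b = a' * b') (hc : ¬ IsCoprime a b') :
    ∑ r ∈ Rs (a * b), cub r a * conj (cub r b) * conj (cub r a' * conj (cub r b')) = 0 := by
  have a0 := hB.b2.ne _ ha
  have b0 := hB.b2.ne _ hb
  have b0' := hB.b2.ne _ hb'
  obtain ⟨p, pp, ⟨k, rfl⟩, ⟨k', rfl⟩⟩ : ∃ p, Prime p ∧ p ∣ a ∧ p ∣ b' := by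
    by_contra h
    push Not at h
    exact hc (isCoprime_of_prime_dvd (fun h => a0 h.1) h)
  have p0 := pp.ne_zero
  have k0 := right_ne_zero_of_mul a0
  have k0' := right_ne_zero_of_mul b0'
  have p3 : IsCoprime p 3 := (hB.b2.cop _ ha).of_mul_left_left
  have e' : k * b = a' * k' := mul_left_cancel₀ p0 (by linear_combination e)
  rw [mul_assoc p] at hs
  have cop : IsCoprime p (k * b) := (IsRelPrime.of_squarefree_mul hs).isCoprime
  set G : O → ℂ := fun r => cub r k * conj (cub r b) * conj (cub r a') * cub r k' with hG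
  have pG : Pe (k * b) G := fun x m => by
    simp only [hG]
    rw [peD hB (dvd_mul_right k b), peD hB (dvd_mul_left b k), e', peD hB (dvd_mul_right a' k'),
      peD hB (dvd_mul_left k' a')]
  have z : ∑ r ∈ Rs p, conj (cub (k * b * r + 0) p) = 0 := by
    rw [hB.b4.affine p (fun r => conj (cub r p)) _ _ p0 (fun x m => by
      simp only [peD hB (dvd_refl p)]) cop.symm, ← map_sum, hB.b6.sum_zero p pp p3, map_zero]
  have f : ∀ r, cub r (p * k) * conj (cub r b) * conj (cub r a' * conj (cub r (p * k'))) =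
      conj (cub r p) * G r := fun r => by
    rw [hB.b6.mul_r _ _ _ p0 k0, hB.b6.mul_r _ _ _ p0 k0', hB.b6.conj_eq r p]
    simp only [hG, map_mul, conj_conj]
    ring
  simp only [f]
  rw [mul_assoc p, hB.b4.crt p (k * b) _ p0 (mul_ne_zero k0 b0) cop fun x m => by
    rw [peD hB (dvd_mul_right p _), mul_comm p, mul_assoc (k * b), pG], Finset.sum_comm]
  refine Finset.sum_eq_zero fun r2 _ => ?_
  rw [← zero_mul (G (r2 * p)), ← z, Finset.sum_mul]
  refine Finset.sum_congr rfl fun r1 _ => ?_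
  rw [mul_comm r2 p, peD hB (dvd_refl p), add_comm, mul_comm r1, pG, add_zero]

/-- classical large sieve for the cubic characters of squarefree conductor `h1 h2` -/
theorem cubic (hB : Bas) (hH : HD) (h1 : PO1Stmt) (hG : GFStmt) : ∃ C : ℝ, 0 ≤ C ∧
    ∀ (S : Finset (O × O)) (T : Finset O) (a : O → ℂ) (M Q : ℝ), 0 ≤ M →
    (∀ h ∈ S, Prim h.1 ∧ Prim h.2 ∧ Squarefree (h.1 * h.2) ∧ N (h.1 * h.2) ≤ Q) →
    (∀ n ∈ T, N n ≤ M) → ∑ h ∈ S, ‖∑ n ∈ T, a n * (cub n h.1 * conj (cub n h.2))‖ ^ 2 ≤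
      C * (M + Q ^ 2) * ∑ n ∈ T, ‖a n‖ ^ 2 := by
  obtain ⟨C, C0, hC⟩ := chr hB h1 hG
  refine ⟨C, C0, fun S T a M Q M0 hS hT => hC _ S (fun h => h.1 * h.2)
    (fun h n => cub n h.1 * conj (cub n h.2))
    (fun h => conj (cub h.2 h.1) * cub h.1 h.2 * gs h.1 * conj (gs h.2)) T a M Q M0
    (fun h hh => ?_) (fun h hh k hk hne e => ?_) hT⟩
  · obtain ⟨p1, p2, sq, nq⟩ := hS h hh
    have hc : IsCoprime h.1 h.2 := (IsRelPrime.of_squarefree_mul sq).isCoprime
    refine ⟨hB.b2.mul _ _ p1 p2, nq, ?_, fun r => ?_, fun r hr => ?_, gauss hB hH p1 p2 sq⟩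
    · simp only [norm_mul, Complex.norm_conj, hB.b6.norm _ _ hc, hB.b6.norm _ _ hc.symm, one_mul,
        mul_pow, hH.n3 _ (hB.b2.cop _ p1) sq.of_mul_left, hH.n3 _ (hB.b2.cop _ p2) sq.of_mul_right,
        hB.b1.N_mul]
    · rw [norm_mul, Complex.norm_conj]
      exact mul_le_one₀ (hB.b6.norm_le _ _) (norm_nonneg _) (hB.b6.norm_le _ _)
    · by_cases c1 : IsCoprime r h.1
      · rw [hB.b6.zero r h.2 (hB.b2.ne _ p2) fun c2 => hr (c1.mul_right c2), map_zero, mul_zero]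
      · rw [hB.b6.zero r h.1 (hB.b2.ne _ p1) c1, zero_mul]
  · obtain ⟨p1, p2, sq, -⟩ := hS h hh
    obtain ⟨q1, q2, sq', -⟩ := hS k hk
    by_cases c1 : IsCoprime h.1 k.2
    · by_cases c2 : IsCoprime k.1 h.2
      · have e1 := hB.b2.uniq _ _ p1 q1 (associated_of_dvd_dvd
          (c1.dvd_of_dvd_mul_right (e ▸ dvd_mul_right _ _))
          (c2.dvd_of_dvd_mul_right (e ▸ dvd_mul_right _ _)))
        exact absurd (Prod.ext e1 (mul_left_cancel₀ (hB.b2.ne _ p1) (by rw [e, e1]))) hne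
      · have := congrArg conj (orth1 hB q1 q2 p2 sq' e.symm c2)
        rw [map_sum, map_zero, ← e] at this
        rw [← this]
        exact Finset.sum_congr rfl fun r _ => by simp only [map_mul, conj_conj]; ring
    · exact orth1 hB p1 p2 q2 sq e c1

/-- the reciprocal form: `n` primary, character `n ↦ (h1 h2² / n)₃` -/
theorem cubic' (hB : Bas) (hC : CRStmt) (hH : HD) (h1 : PO1Stmt) (hG : GFStmt) : ∃ C : ℝ, 0 ≤ C ∧
    ∀ (S : Finset (O × O)) (T : Finset O) (a : O → ℂ) (M Q : ℝ), 0 ≤ M →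
    (∀ h ∈ S, Prim h.1 ∧ Prim h.2 ∧ Squarefree (h.1 * h.2) ∧ N (h.1 * h.2) ≤ Q) →
    (∀ n ∈ T, Prim n ∧ N n ≤ M) → ∑ h ∈ S, ‖∑ n ∈ T, a n * cub (h.1 * h.2 ^ 2) n‖ ^ 2 ≤
      C * (M + Q ^ 2) * ∑ n ∈ T, ‖a n‖ ^ 2 := by
  obtain ⟨C, C0, h⟩ := cubic hB hH h1 hG
  refine ⟨C, C0, fun S T a M Q M0 hS hT => le_trans (le_of_eq ?_)
    (h S T a M Q M0 hS fun n hn => (hT n hn).2)⟩
  refine Finset.sum_congr rfl fun k hk => ?_
  congr 2
  refine Finset.sum_congr rfl fun n hn => ?_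
  have n3 := hB.b2.cop _ (hT n hn).1
  rw [hB.b6.mul_l _ _ _ n3, hB.b6.pow_l _ _ _ n3, hB.b6.conj_eq, hC _ _ (hS k hk).1 (hT n hn).1,
    hC _ _ (hS k hk).2.1 (hT n hn).1]

end Vale.Agent.P006.CLS
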