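import Vale.Agent.P026.Stm3

/-! P006 branch B: cubic large sieve inequalities. -/

noncomputable section
open Complex
open scoped Classical ComplexConjugate

namespace Vale.Agent.P006
open Vale.Agent.P026

/-- cubic character polynomial -/
def cp (T : Finset O) (a : O → ℂ) (m : O) : ℂ := ∑ n ∈ T, a n * cub m n
/-- squared norm of the coefficients -/
def nq (T : Finset O) (a : O → ℂ) : ℝ := ∑ n ∈ T, ‖a n‖ ^ 2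
/-- primary elements of norm at most `K` -/
def PT (K : ℝ) (T : Finset O) : Prop := ∀ n ∈ T, Prim n ∧ N n ≤ K
/-- odd primary squarefree elements of norm at most `K` -/
def QT (K : ℝ) (T : Finset O) : Prop := ∀ n ∈ T, OP n ∧ Squarefree n ∧ N n ≤ K
/-- large sieve bound (same body as helper23's `LB`) -/
def LBB (P : O → Prop) (H K R B : ℝ) : Prop := ∀ (S T : Finset O) (a : O → ℂ),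
  (∀ m ∈ S, P m ∧ N m ≤ H) → (∀ n ∈ T, OP n ∧ Squarefree n ∧ N n ≤ K) → (T.card : ℝ) ≤ R →
  ∑ m ∈ S, ‖∑ n ∈ T, a n * cub m n‖ ^ 2 ≤ B * ∑ n ∈ T, ‖a n‖ ^ 2
/-- norm of the conductor (away from 6) of `n ↦ cub h n` -/
def cd (h : O) : ℝ := ∏ p ∈ (pf h).filter (fun p => OP p ∧ ¬ 3 ∣ vl p h), N p
def U54 : Finset O :=
  (U6 ×ˢ Finset.range 3 ×ˢ Finset.range 3).image fun x => x.1 * lam ^ x.2.1 * 2 ^ x.2.2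
/-- pairs `(h1, h2)` in a dyadic block -/
def Blk (i j : ℕ) (T : Finset (O × O)) : Prop := ∀ x ∈ T, OP x.1 ∧ OP x.2 ∧ Squarefree (x.1 * x.2) ∧
  2 ^ i ≤ N x.1 ∧ N x.1 < 2 ^ (i + 1) ∧ 2 ^ j ≤ N x.2 ∧ N x.2 < 2 ^ (j + 1)

/-! inputs -/

/-- Poisson step (helper23) -/
def POISStmt : Prop := ∀ ε : ℝ, 0 < ε → ∃ C : ℝ, 0 ≤ C ∧ ∀ (Φ : ℝ → ℝ → ℝ) (M K R Ψ : ℝ), 1 ≤ M → 1 ≤ K →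
  0 ≤ Ψ → (∀ H k, 0 < H → 0 < k → k ≤ K → LBB (· ≠ 0) H k R (Φ H k)) →
  (∀ t H k, 1 ≤ t → 0 < H → 0 < k → Φ (t * H) k ≤ t ^ 3 * Φ H k) →
  (∀ k, 0 < k → k ≤ K → M / k * Φ (k ^ 2 / M) k ≤ Ψ) → LBB (fun _ => True) M K R (C * K ^ ε * (M + Ψ))

/-- Heath-Brown's cubic large sieve, sum over all `m` (helper23) -/
def HBAStmt : Prop := ∀ ε : ℝ, 0 < ε → ∃ C : ℝ, 0 ≤ C ∧ ∀ M K R : ℝ, 1 ≤ M → 1 ≤ K →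
  LBB (fun _ => True) M K R (C * (M * K) ^ ε * (M + (M * K) ^ (2 / 3 : ℝ) + M ^ (1 / 3 : ℝ) * K))

/-- classical large sieve for pairs (helper22) -/
def CLSStmt : Prop := ∃ C : ℝ, 0 ≤ C ∧ ∀ (S : Finset (O × O)) (T : Finset O) (a : O → ℂ) (M Q : ℝ),
  1 ≤ M → 1 ≤ Q → (∀ x ∈ S, Prim x.1 ∧ Prim x.2 ∧ Squarefree (x.1 * x.2) ∧ N (x.1 * x.2) ≤ Q) → PT M T →
  ∑ x ∈ S, ‖cp T a (x.1 * x.2 ^ 2)‖ ^ 2 ≤ C * (M + Q ^ 2) * nq T a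

/-! rows -/

/-- duality together with cubic reciprocity -/
def DUAStmt : Prop := ∀ (M K R B : ℝ), 0 ≤ B → LBB (fun _ => True) M K R B →
  ∀ (S T : Finset O) (a : O → ℂ), QT K S → (S.card : ℝ) ≤ R → PT M T →
    ∑ h ∈ S, ‖cp T a h‖ ^ 2 ≤ B * nq T a

def DECStmt3 : Prop := (∀ h : O, h ≠ 0 → ∃ u ∈ U54, ∃ h1 h2 h3 : O, OP h1 ∧ OP h2 ∧ Squarefree (h1 * h2) ∧
    h3 ≠ 0 ∧ h = u * (h1 * h2 ^ 2) * h3 ^ 3) ∧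
  (∀ u ∈ U54, ∀ h1 h2 h3 : O, OP h1 → OP h2 → Squarefree (h1 * h2) → h3 ≠ 0 →
    cd (u * (h1 * h2 ^ 2) * h3 ^ 3) = N h1 * N h2) ∧
  (∀ u ∈ U54, u ≠ 0) ∧
  (∀ x y : O × O, OP x.1 → OP x.2 → Squarefree (x.1 * x.2) → OP y.1 → OP y.2 → Squarefree (y.1 * y.2) →
    x.1 * x.2 ^ 2 = y.1 * y.2 ^ 2 → x = y)

/-- summation over blocks -/
def BLKStmt : Prop := ∀ ε : ℝ, 0 < ε → ∃ C : ℝ, 0 ≤ C ∧ ∀ (G : O → ℝ) (H D : ℝ) (S : Finset O), 1 ≤ H → 0 ≤ D →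
  (∀ h, 0 ≤ G h) → (∀ h ∈ S, h ≠ 0 ∧ N h ≤ H) →
  (∀ u ∈ U54, ∀ h3 : O, h3 ≠ 0 → ∀ (i j : ℕ) (T : Finset (O × O)), Blk i j T → (2 : ℝ) ^ (i + 2 * j) ≤ H →
    ∑ x ∈ T, G (u * (x.1 * x.2 ^ 2) * h3 ^ 3) ≤ D * ((2 : ℝ) ^ (i + 2 * j) / H) ^ (1 / 3 : ℝ)) →
  ∑ h ∈ S, G h ≤ C * H ^ ε * D

/-- products of polynomials -/
def CONVStmt : Prop := ∀ ε : ℝ, 0 < ε → ∃ C : ℝ, 1 ≤ C ∧ ∀ (T1 T2 : Finset O) (a1 a2 : O → ℂ)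
  (Y1 Y2 A1 A2 : ℝ), 1 ≤ Y1 → 1 ≤ Y2 → 0 ≤ A1 → 0 ≤ A2 → PT Y1 T1 → PT Y2 T2 → (∀ n, ‖a1 n‖ ≤ A1) →
  (∀ n, ‖a2 n‖ ≤ A2) → ∃ (T : Finset O) (c : O → ℂ), PT (Y1 * Y2) T ∧
    (∀ n, ‖c n‖ ≤ C * (Y1 * Y2) ^ ε * A1 * A2) ∧ ∀ m, cp T c m = cp T1 a1 m * cp T2 a2 m

/-- restricted large sieve -/
def RLSStmt : Prop := ∀ ε : ℝ, 0 < ε → ∃ C : ℝ, 0 ≤ C ∧ ∀ M K R : ℝ, 1 ≤ M → 1 ≤ K → 0 ≤ R →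
  LBB (fun _ => True) M K R
    (C * K ^ ε * (M + K ^ 3 / M + M ^ (2 / 3 : ℝ) * K ^ (1 / 3 : ℝ) * R ^ (1 / 3 : ℝ)))

/-- operator bound on one block -/
def BK1Stmt : Prop := ∀ ε : ℝ, 0 < ε → ∃ C : ℝ, 0 ≤ C ∧ ∀ (i j : ℕ) (S : Finset (O × O)) (T : Finset O)
  (a : O → ℂ) (K L : ℝ), Blk i j S → (2 : ℝ) ^ (i + 2 * j) ≤ L → 1 ≤ K → PT K T →
  ∑ x ∈ S, ‖cp T a (x.1 * x.2 ^ 2)‖ ^ 2 ≤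
    C * (L * K) ^ ε * (K + (L * K) ^ (2 / 3 : ℝ) + K ^ (1 / 3 : ℝ) * L) * nq T a

/-- frequencies of large conductor, arbitrary coefficients -/
def NC1Stmt : Prop := ∀ ε : ℝ, 0 < ε → ∃ C : ℝ, 0 ≤ C ∧ ∀ (S T : Finset O) (a : O → ℂ) (H K Q : ℝ),
  1 ≤ H → 1 ≤ K → 1 ≤ Q → (∀ m ∈ S, m ≠ 0 ∧ N m ≤ H ∧ Q ≤ cd m) → PT K T →
  ∑ m ∈ S, ‖cp T a m‖ ^ 2 ≤ C * (H * K) ^ ε *
    (H ^ (1 / 3 : ℝ) * K * Q ^ (-1 / 3 : ℝ) + (H * K) ^ (2 / 3 : ℝ) + K ^ (1 / 3 : ℝ) * H) * nq T a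

/-- number of large values in one block -/
def CNTStmt : Prop := ∃ C : ℝ, 0 ≤ C ∧ ∀ (i j : ℕ) (S : Finset (O × O)) (T : Finset O) (a : O → ℂ) (Y : ℝ),
  Blk i j S → 1 ≤ Y → (2 : ℝ) ^ (i + 2 * j) ≤ Y ^ 2 → QT Y T → (∀ n, ‖a n‖ ≤ 1) →
  (∀ x ∈ S, Y ^ (33 / 40 : ℝ) ≤ ‖cp T a (x.1 * x.2 ^ 2)‖) → (S.card : ℝ) ≤ C * Y ^ (129 / 100 : ℝ)

/-- product of two polynomials on one block -/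
def BK2Stmt : Prop := ∃ C : ℝ, 0 ≤ C ∧ ∀ (i j : ℕ) (S : Finset (O × O)) (T1 T2 : Finset O) (a1 a2 : O → ℂ)
  (Y : ℝ), Blk i j S → 1 ≤ Y → (2 : ℝ) ^ (i + 2 * j) ≤ Y ^ 2 → QT Y T1 → QT Y T2 → (∀ n, ‖a1 n‖ ≤ 1) →
  (∀ n, ‖a2 n‖ ≤ 1) →
  ∑ x ∈ S, ‖cp T1 a1 (x.1 * x.2 ^ 2) * cp T2 a2 (x.1 * x.2 ^ 2)‖ ^ 2 ≤ C * Y ^ (4651 / 1000 : ℝ)

/-- frequencies of large conductor, product of two polynomials of length `Y` -/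
def NC2Stmt : Prop := ∀ ε : ℝ, 0 < ε → ∃ C : ℝ, 0 ≤ C ∧ ∀ (S T1 T2 : Finset O) (a1 a2 : O → ℂ) (Y Q : ℝ),
  1 ≤ Y → 1 ≤ Q → (∀ m ∈ S, m ≠ 0 ∧ N m ≤ Y ^ 2 ∧ Q ≤ cd m) → QT Y T1 → QT Y T2 → (∀ n, ‖a1 n‖ ≤ 1) →
  (∀ n, ‖a2 n‖ ≤ 1) → ∑ m ∈ S, ‖cp T1 a1 m * cp T2 a2 m‖ ^ 2 ≤
    C * Y ^ (14 / 3 + ε) * (Q ^ (-1 / 3 : ℝ) + Y ^ (-1 / 130 : ℝ))

end Vale.Agent.P006
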