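import Vale.Agent.P026.M.W1

/-! P006 branch C: continuation of Dirichlet series with periodic mean zero coefficients. -/

noncomputable section
open Complex Set
open scoped Classical

namespace Vale.Agent.P006.QG

open Vale.Agent.P026

theorem mvt {s : ℂ} (hs : 3 / 4 < s.re) {A u v : ℝ} (hA : 1 ≤ A) (hu : A ≤ u) (hv : A ≤ v) :
    ‖(u : ℂ) ^ (-(2 * s)) - (v : ℂ) ^ (-(2 * s))‖ ≤ 2 * ‖s‖ * A ^ (-(5 / 2) : ℝ) * ‖u - v‖ := by
  have s0 : -(2 * s) ≠ 0 := fun h => by
    have := congrArg re h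
    simp at this; linarith
  refine (convex_Ici A).norm_image_sub_le_of_norm_hasDerivWithin_le (f := fun x : ℝ => (x : ℂ) ^ (-(2 * s)))
    (fun x hx => (hasDerivAt_ofReal_cpow_const (by linarith [mem_Ici.1 hx]) s0).hasDerivWithinAt)
    (fun x hx => ?_) hv hu
  have hx : A ≤ x := hx
  rw [norm_mul, norm_neg, norm_mul, norm_ofNat, norm_cpow_eq_rpow_re_of_pos (by linarith)]
  refine mul_le_mul_of_nonneg_left ((Real.rpow_le_rpow_of_exponent_le (by linarith) ?_).trans
    (Real.rpow_le_rpow_of_nonpos (by linarith) hx (by norm_num))) (by positivity)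
  simp; linarith

theorem ncp (n : O) {s : ℂ} (hs : s.re ≠ 0) : ‖(N n : ℂ) ^ (-s)‖ = N n ^ (-s.re) := by
  rw [norm_cpow_eq_rpow_re_of_nonneg (show 0 ≤ N n from Nat.cast_nonneg _) (by simpa using hs), neg_re]

theorem summF {χ : O → ℂ} (h1 : ∀ n, ‖χ n‖ ≤ 1) {s : ℂ} (hs : 1 < s.re) :
    Summable fun n => ‖χ n * (N n : ℂ) ^ (-s)‖ := by
  refine (W1.bas.b3.summ s.re hs).of_nonneg_of_le (fun _ => norm_nonneg _) fun n => ?_
  rw [norm_mul, ncp n (by linarith)]
  exact mul_le_of_le_one_left (Real.rpow_nonneg (Nat.cast_nonneg _) _) (h1 n)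

theorem contL : ∃ K : ℝ, 0 < K ∧ ∀ (χ : O → ℂ) (c : O), c ≠ 0 → Pe c χ → (∀ n, ‖χ n‖ ≤ 1) →
    χ 0 = 0 → ∑ r ∈ Rs c, χ r = 0 → ∃ L : ℂ → ℂ, DifferentiableOn ℂ L {s | 3 / 4 < s.re} ∧
      (∀ s : ℂ, 1 < s.re → L s = ∑' n, χ n * (N n : ℂ) ^ (-s)) ∧
      ∀ s : ℂ, 3 / 4 < s.re → ‖L s‖ ≤ K * N c ^ 2 * ‖s‖ := by
  have hB := W1.bas
  have sm := (hB.b3.summ' (5 / 2) (by norm_num)).mul_left (2 * 3 ^ (5 / 2 : ℝ))
  refine ⟨∑' m : O, 2 * 3 ^ (5 / 2 : ℝ) * (1 + ‖toC m‖) ^ (-(5 / 2) : ℝ) + 1, by positivity,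
    fun χ c hc hp h1 h0 hz => ?_⟩
  set P : O → ℂ → ℂ := fun n s => ((max 1 ‖toC n‖ : ℝ) : ℂ) ^ (-(2 * s)) with hP
  set g : O → ℂ → ℂ := fun m s => s⁻¹ * ∑ r ∈ Rs c, χ r * (P (r % c + c * m) s - P (c * m) s) with hg
  have c1 := hB.b1.N_one_le c hc
  have n1 : 1 ≤ ‖toC c‖ := by
    rw [hB.b1.N_eq] at c1; nlinarith [norm_nonneg (toC c)]
  have s0 : ∀ s : ℂ, 3 / 4 < s.re → s ≠ 0 := fun s hs h => by rw [h] at hs; norm_num at hs
  have bd : ∀ m (s : ℂ), 3 / 4 < s.re → ‖g m s‖ ≤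
      N c ^ 2 * (2 * 3 ^ (5 / 2 : ℝ) * (1 + ‖toC m‖) ^ (-(5 / 2) : ℝ)) := fun m s hs => by
    have p := norm_pos_iff.2 (s0 s hs)
    rw [hg]
    simp only
    rw [norm_mul, norm_inv, inv_mul_le_iff₀ p]
    refine (norm_sum_le_of_le _ (n := fun _ => ‖s‖ * (N c * (2 * 3 ^ (5 / 2 : ℝ) *
      (1 + ‖toC m‖) ^ (-(5 / 2) : ℝ)))) fun r _ => ?_).trans (le_of_eq ?_)
    · have r1 : ‖toC (r % c)‖ ≤ ‖toC c‖ := by
        have : N (r % c) ≤ N c := Nat.cast_le.2 (le_of_lt (EuclideanDomain.mod_lt r hc))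
        rw [hB.b1.N_eq, hB.b1.N_eq] at this
        exact le_of_sq_le_sq this (norm_nonneg _)
      have r2 : |‖toC (r % c + c * m)‖ - ‖toC (c * m)‖| ≤ ‖toC c‖ :=
        (abs_norm_sub_norm_le _ _).trans (by rw [map_add, add_sub_cancel_right]; exact r1)
      have r3 : ‖toC (c * m)‖ = ‖toC c‖ * ‖toC m‖ := by rw [map_mul, norm_mul]
      have m0 := norm_nonneg (toC m)
      have r4 := abs_le.1 r2
      have a := mvt hs (A := max 1 (‖toC m‖ - 1)) (u := max 1 ‖toC (r % c + c * m)‖)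
        (v := max 1 ‖toC (c * m)‖) (le_max_left _ _)
        (max_le (le_max_left _ _) (by
          rcases le_total ‖toC m‖ 1 with k | k
          · exact le_max_of_le_left (by linarith)
          · exact le_max_of_le_right (by nlinarith)))
        (max_le_max le_rfl (by nlinarith))
      have b1 : ‖max 1 ‖toC (r % c + c * m)‖ - max 1 ‖toC (c * m)‖‖ ≤ N c := by
        rw [max_comm 1, max_comm 1]
        refine (abs_max_sub_max_le_abs _ _ _).trans (r2.trans ?_)
        rw [hB.b1.N_eq]; nlinarith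
      have b2 : (max 1 (‖toC m‖ - 1)) ^ (-(5 / 2) : ℝ) ≤
          3 ^ (5 / 2 : ℝ) * (1 + ‖toC m‖) ^ (-(5 / 2) : ℝ) := by
        refine (Real.rpow_le_rpow_of_nonpos (x := (1 + ‖toC m‖) / 3) (by positivity) ?_
          (by norm_num)).trans (le_of_eq ?_)
        · rcases le_total ‖toC m‖ 2 with k | k
          · exact le_max_of_le_left (by linarith)
          · exact le_max_of_le_right (by linarith)
        · rw [Real.div_rpow (by positivity) (by positivity), Real.rpow_neg (x := 3) (by norm_num),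
            div_inv_eq_mul, mul_comm]
      rw [norm_mul]
      refine (mul_le_of_le_one_left (norm_nonneg _) (h1 r)).trans (a.trans ?_)
      calc _ ≤ 2 * ‖s‖ * (3 ^ (5 / 2 : ℝ) * (1 + ‖toC m‖) ^ (-(5 / 2) : ℝ)) * N c := by gcongr
        _ = _ := by ring
    · rw [Finset.sum_const, hB.b4.card c hc, nsmul_eq_mul]
      simp only [N]; ring
  have op : IsOpen {s : ℂ | 3 / 4 < s.re} := isOpen_lt continuous_const continuous_re
  have dP : ∀ n, Differentiable ℂ (P n) := fun n s =>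
    DifferentiableAt.const_cpow (by fun_prop) (Or.inl (by
      exact_mod_cast (one_pos.trans_le (le_max_left _ _)).ne'))
  refine ⟨fun s => s * ∑' m, g m s, differentiableOn_id.mul
    (differentiableOn_tsum_of_summable_norm (sm.mul_left (N c ^ 2)) (fun m => ?_) op
      fun m s hs => bd m s hs), fun s hs => ?_, fun s hs => ?_⟩
  · exact (differentiableOn_id.inv s0).mul (DifferentiableOn.fun_sum fun r _ =>
      (((dP _).sub (dP _)).const_mul _).differentiableOn)
  · have sF := (summF h1 hs).of_norm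
    have e1 : ∀ r m, χ r * P (r % c + c * m) s = χ (r % c + c * m) * (N (r % c + c * m) : ℂ) ^ (-s) :=
      fun r m => by
        have : χ r = χ (r % c + c * m) := hB.b4.pe_congr c χ _ _ hp
          ⟨r / c - m, by linear_combination -EuclideanDomain.div_add_mod r c⟩
        rw [this]
        generalize r % c + c * m = n
        by_cases k : n = 0
        · simp [k, h0]
        · have a := hB.b1.N_one_le n k
          have z := norm_nonneg (toC n)
          rw [hB.b1.N_eq] at a ⊢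
          rw [hP]
          simp only
          rw [max_eq_right (by nlinarith), sq, ofReal_mul, mul_cpow_ofReal_nonneg z z,
            ← cpow_add _ _ (by exact_mod_cast (show ‖toC n‖ ≠ 0 by nlinarith))]
          congr 2; ring
    have inj : ∀ a : O, Function.Injective fun m => a + c * m := fun a x y h =>
      mul_left_cancel₀ hc (add_left_cancel h)
    simp only [hg, mul_sub, Finset.sum_sub_distrib, ← Finset.sum_mul, hz, zero_mul, sub_zero, e1]
    rw [tsum_mul_left, mul_inv_cancel_left₀ (s0 s (by linarith)),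
      Summable.tsum_finsetSum (f := fun r m => χ (r % c + c * m) * (N (r % c + c * m) : ℂ) ^ (-s))
        fun r _ => sF.comp_injective (inj _), hB.b4.tsum_cls c _ hc sF]
    refine Finset.sum_congr rfl fun r _ => ?_
    rw [← (Equiv.addRight (r / c)).tsum_eq]
    refine tsum_congr fun m => ?_
    rw [show r % c + c * (Equiv.addRight (r / c)) m = r + c * m by
      simp only [Equiv.coe_addRight]; linear_combination EuclideanDomain.div_add_mod r c]
  · rw [norm_mul, mul_comm]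
    refine mul_le_mul_of_nonneg_right ((tsum_of_norm_bounded (sm.mul_left (N c ^ 2)).hasSum
      fun m => bd m s hs).trans ?_) (norm_nonneg _)
    rw [tsum_mul_left]
    nlinarith

end Vale.Agent.P006.QG
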