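import Vale.Agent.P006.C1
import Vale.Agent.P006.Vau
import Vale.Agent.P319.Small
import Vale.Agent.P319.Amp
import Vale.Agent.P026.Main

/-! P006 branch C: zero free half plane and logarithmic derivative for the sextic family. -/

noncomputable section
open Complex Set Metric Filter Topology
open scoped Classical

namespace Vale.Agent.P006.QG

open Vale.Agent.P026 W1 Vau

/-- the character `n ↦ (w/n)_6` on odd primary `n` -/
def XX (w n : O) : ℂ := if OP n then sx w n else 0

/-- the character is not principal -/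
def NT (w : O) : Prop := ∃ n, OP n ∧ IsCoprime w n ∧ sx w n ≠ 1

theorem XX_le (w n : O) : ‖XX w n‖ ≤ 1 := by
  unfold XX
  split_ifs
  · exact W3.sxx.norm_le _ _
  · simp

theorem XX_ne {w n : O} (h : XX w n ≠ 0) : OP n := by_contra fun k => h (if_neg k)

theorem XX_one (w : O) : XX w 1 = 1 := by
  rw [XX, if_pos ⟨bas.b2.one, isCoprime_one_left⟩, W3.sxx.one_r]

theorem XX_mul (w : O) {a : O} (ha : Prim a) (b : O) : XX w (a * b) = XX w a * XX w b := by
  unfold XX
  by_cases k : OP a ∧ OP b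
  · rw [if_pos k.1, if_pos k.2, if_pos ⟨bas.b2.mul _ _ ha k.2.1, k.1.2.mul_left k.2.2⟩,
      W3.sxx.mul_r _ _ _ (bas.b2.ne _ ha) (bas.b2.ne _ k.2.1)]
  · rw [if_neg fun h => k ⟨⟨ha, h.2.of_mul_left_left⟩, bas.b2.cancel _ _ ha h.1,
      h.2.of_mul_left_right⟩]
    rcases not_and_or.1 k with k | k <;> simp [k]

theorem XX_pe {w : O} (hw : w ≠ 0) : Pe (36 * w) (XX w) := fun a m => by
  have e : OP (a + 36 * w * m) ↔ OP a := and_congr
    (by rw [Prim, Prim, show a + 36 * w * m - 1 = a - 1 + 3 * (12 * w * m) by ring]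
        exact dvd_add_left (dvd_mul_right _ _))
    (by rw [show a + 36 * w * m = a + 2 * (18 * w * m) by ring, IsCoprime.add_mul_left_left_iff])
  unfold XX
  rw [e]
  split_ifs with k
  · rw [sx, sx, qr.qp w _ a hw (e.2 k).2 ⟨9 * m, by ring⟩, p9 w _ a hw (e.2 k).1 k.1 ⟨4 * m, by ring⟩]
  · rfl

theorem XX_sum {w : O} (hw : w ≠ 0) (h : NT w) : ∑ r ∈ Rs (36 * w), XX w r = 0 := by
  obtain ⟨n, h1, h2, h3⟩ := h
  have c : IsCoprime n (36 * w) := by
    rw [show (36 : O) = (2 * 3) ^ 2 by norm_num]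
    exact ((h1.2.mul_right (bas.b2.cop n h1.1)).pow_right).mul_right h2.symm
  have e := bas.b4.affine _ (XX w) n 0 (mul_ne_zero (by decide) hw) (XX_pe hw) c
  simp only [add_zero, XX_mul w h1.1, ← Finset.mul_sum] at e
  rw [XX, if_pos h1] at e
  exact (mul_left_eq_self₀.1 e).resolve_left h3

theorem tconv (u H : O → ℂ) (h0 : ∀ n, H n ≠ 0 → Prim n)
    (hm : ∀ a b, Prim a → Prim b → H (a * b) = H a * H b)
    (s1 : Summable fun a => ‖u a * H a‖) (s2 : Summable fun a => ‖H a‖) :
    (∑' a, u a * H a) * ∑' b, H b = ∑' n, (∑ d ∈ dv n, u d) * H n := by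
  rw [tsum_mul_tsum_of_summable_norm s1 s2,
    ← ((summable_mul_of_summable_norm s1 s2).hasSum.tsum_fiberwise fun p => p.1 * p.2).tsum_eq]
  refine tsum_congr fun n => ?_
  have z : ∀ p : O × O, u p.1 * H p.1 * H p.2 ≠ 0 → Prim p.1 ∧ Prim p.2 := fun p hp =>
    ⟨h0 _ (right_ne_zero_of_mul (left_ne_zero_of_mul hp)), h0 _ (right_ne_zero_of_mul hp)⟩
  rw [tsum_subtype _ fun p : O × O => u p.1 * H p.1 * H p.2]
  by_cases k : Prim n
  · have n0 := bas.b2.ne n k
    rw [tsum_eq_sum (s := (dv n).image fun d => (d, n / d)) fun p hp => ?_,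
      Finset.sum_image fun x _ y _ e => (Prod.ext_iff.1 e).1, Finset.sum_mul]
    · refine Finset.sum_congr rfl fun d hd => ?_
      obtain ⟨d1, e, rfl⟩ := (mem_dv n0).1 hd
      rw [mul_div_cancel_left₀ _ (bas.b2.ne d d1), indicator_of_mem (by simp),
        hm _ _ d1 (bas.b2.cancel _ _ d1 k), mul_assoc]
    · by_contra c
      have c0 := mem_of_indicator_ne_zero c
      have c1 : p.1 * p.2 = n := c0
      have c2 := z p fun e => c (by rw [indicator_of_mem (by exact c1), e])
      refine hp (Finset.mem_image.2 ⟨p.1, (mem_dv n0).2 ⟨c2.1, Dvd.intro _ c1⟩, ?_⟩)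
      rw [← c1, mul_div_cancel_left₀ _ (bas.b2.ne _ c2.1)]
  · rw [by_contra fun e => k (h0 n e), mul_zero]
    refine (tsum_congr fun p => ?_).trans tsum_zero
    by_contra c
    have c0 := mem_of_indicator_ne_zero c
    have c1 : p.1 * p.2 = n := c0
    have c2 := z p fun e => c (by rw [indicator_of_mem (by exact c1), e])
    exact k (c1 ▸ bas.b2.mul _ _ c2.1 c2.2)

theorem HH_mul (w : O) (s : ℂ) (a b : O) (ha : Prim a) (_ : Prim b) :
    XX w (a * b) * (N (a * b) : ℂ) ^ (-s) = XX w a * (N a : ℂ) ^ (-s) * (XX w b * (N b : ℂ) ^ (-s)) := by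
  rw [XX_mul w ha, bas.b1.N_mul, ofReal_mul, mul_cpow_ofReal_nonneg (N0 a) (N0 b)]; ring

theorem HH_ne (w : O) (s : ℂ) (n : O) (h : XX w n * (N n : ℂ) ^ (-s) ≠ 0) : Prim n :=
  (XX_ne (left_ne_zero_of_mul h)).1

theorem summ_mu (w : O) {s : ℂ} (hs : 1 < s.re) :
    Summable fun n => ‖mu n * (XX w n * (N n : ℂ) ^ (-s))‖ :=
  (summF (XX_le w) hs).of_nonneg_of_le (fun _ => norm_nonneg _) fun n => by
    rw [norm_mul]; exact mul_le_of_le_one_left (norm_nonneg _) (ZKM.norm_mu n)

theorem summ_Lam (w : O) {s : ℂ} (hs : 1 < s.re) :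
    Summable fun n => ‖(Lam n : ℂ) * (XX w n * (N n : ℂ) ^ (-s))‖ := by
  have e : 0 < (s.re - 1) / 2 := by linarith
  refine ((bas.b3.summ ((s.re + 1) / 2) (by linarith)).div_const ((s.re - 1) / 2)).of_nonneg_of_le
    (fun _ => norm_nonneg _) fun n => ?_
  by_cases k : XX w n = 0
  · rw [k, zero_mul, mul_zero, norm_zero]
    exact div_nonneg (Real.rpow_nonneg (N0 n) _) e.le
  have p := (XX_ne k).1
  have p1 := N1 p
  rw [norm_mul, norm_mul, ncp n (by linarith), norm_real, Real.norm_of_nonneg (Lam_nonneg n)]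
  calc _ ≤ N n ^ ((s.re - 1) / 2) / ((s.re - 1) / 2) * (1 * N n ^ (-s.re)) := by
        gcongr
        · exact (Lam_le p).trans (Real.log_le_rpow_div (N0 n) e)
        · exact XX_le w n
    _ = _ := by
        rw [one_mul, div_mul_eq_mul_div, ← Real.rpow_add (by linarith)]; congr 2; ring

theorem mu_inv (w : O) {s : ℂ} (hs : 1 < s.re) :
    (∑' n, mu n * (XX w n * (N n : ℂ) ^ (-s))) * ∑' n, XX w n * (N n : ℂ) ^ (-s) = 1 := by
  rw [tconv _ _ (HH_ne w s) (HH_mul w s) (summ_mu w hs) (summF (XX_le w) hs), tsum_eq_single 1]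
  · simp [sum_mu bas.b2.one, XX_one, N_one]
  · intro n hn
    by_contra c
    exact c (by rw [sum_mu (HH_ne w s n (right_ne_zero_of_mul c)), if_neg hn, zero_mul])

theorem Lam_deriv (w : O) {s : ℂ} (hs : 1 < s.re) :
    (∑' n, (Lam n : ℂ) * (XX w n * (N n : ℂ) ^ (-s))) * ∑' n, XX w n * (N n : ℂ) ^ (-s) =
      -deriv (fun z => ∑' n, XX w n * (N n : ℂ) ^ (-z)) s := by
  have d : ∀ n (z : ℂ), HasDerivAt (fun z => XX w n * (N n : ℂ) ^ (-z))
      (-((∑ d ∈ dv n, (Lam d : ℂ)) * (XX w n * (N n : ℂ) ^ (-z)))) z := fun n z => by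
    by_cases k : XX w n = 0
    · simpa [k] using hasDerivAt_const z (0 : ℂ)
    have p := (XX_ne k).1
    have p1 := N1 p
    rw [← ofReal_sum, sum_Lam p, ofReal_log (N0 n)]
    exact (((hasDerivAt_neg' z).const_cpow (c := (N n : ℂ)) (Or.inl (by
      exact_mod_cast (by linarith : N n ≠ 0)))).const_mul (XX w n)).congr_deriv (by ring)
  rw [tconv _ _ (HH_ne w s) (HH_mul w s) (summ_Lam w hs) (summF (XX_le w) hs),
    ← (hasSum_deriv_of_summable_norm (U := {z | (s.re + 1) / 2 < z.re})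
      (bas.b3.summ ((s.re + 1) / 2) (by linarith))
      (fun n z _ => (d n z).differentiableAt.differentiableWithinAt)
      (isOpen_lt continuous_const continuous_re) (fun n z hz => ?_)
      (show (s.re + 1) / 2 < s.re by linarith)).tsum_eq, ← tsum_neg]
  · exact tsum_congr fun n => by rw [(d n s).deriv, neg_neg]
  · have hz : (s.re + 1) / 2 < z.re := hz
    by_cases k : XX w n = 0
    · rw [k, zero_mul, norm_zero]
      exact Real.rpow_nonneg (N0 n) _
    rw [norm_mul, ncp n (by linarith)]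
    exact (mul_le_of_le_one_left (Real.rpow_nonneg (N0 n) _) (XX_le w n)).trans
      (Real.rpow_le_rpow_of_exponent_le (N1 (XX_ne k).1) (by linarith))

theorem zf {w : O} (hw : w ≠ 0) {L : ℂ → ℂ} (hd : DifferentiableOn ℂ L {s | 3 / 4 < s.re})
    (he : ∀ s : ℂ, 1 < s.re → L s = ∑' n, XX w n * (N n : ℂ) ^ (-s)) (s : ℂ)
    (hs : 26 / 27 < s.re) : L s ≠ 0 := by
  set β : ℝ := (s.re - 1 / 2 + 25 / 54) / 2 with hβ
  obtain ⟨C, hC⟩ := P319.ampW bas W3.sxx W2.ln (W3.l1 Main.ps) w hw β (by linarith)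
  have : Countable O := (QuadraticAlgebra.equivProd (-1 : ℤ) (-1)).injective.countable
  have r2 : (1 / 2 : ℂ).re = 1 / 2 := by norm_num
  have pos : ∀ n, XX w n ≠ 0 → 0 < N n := fun n k => one_pos.trans_le (N1 (XX_ne k).1)
  obtain ⟨G, g1, g2⟩ := ENDM.cont W2.ln (fun n => mu n * (XX w n * (N n : ℂ) ^ (-(1 / 2 : ℂ)))) N
    (fun n hn => pos n (left_ne_zero_of_mul (right_ne_zero_of_mul hn))) (a := 1 / 2) (σ := β) (C := C)
    (fun b hb => (summ_mu w (s := (1 / 2 + b : ℝ)) (by rw [ofReal_re]; linarith)).congr fun n => by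
      by_cases k : XX w n = 0
      · simp [k]
      · rw [norm_mul, norm_mul, norm_mul, norm_mul, ncp n (by rw [ofReal_re]; linarith),
          ncp n (by norm_num), ofReal_re, r2, neg_add, Real.rpow_add (pos n k)]
        ring)
    fun Y hY => by
      refine le_of_eq_of_le (congrArg norm (tsum_congr fun n => ?_)) (hC Y hY)
      simp only [XX, P319.TW.tm, isCoprime_one_right, and_true]
      split_ifs <;> ring
  have op : IsOpen {z : ℂ | β + 1 / 2 < z.re} := isOpen_lt continuous_const continuous_re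
  have key := AnalyticOnNhd.eqOn_of_preconnected_of_eventuallyEq (𝕜 := ℂ)
    (f := fun z => G (z - 1 / 2) * L z)
    (g := fun z => Real.sqrt Real.pi * cexp ((z - 1 / 2) ^ 2 / 4))
    (((g1.comp (differentiable_id.sub_const _).differentiableOn fun z hz => by
      have : β + 1 / 2 < z.re := hz
      show β < (z - 1 / 2).re
      rw [sub_re, r2]; linarith).mul (hd.mono fun z hz => by
      have : β + 1 / 2 < z.re := hz
      show 3 / 4 < z.re
      linarith)).analyticOnNhd op)
    ((by fun_prop : Differentiable ℂ _).differentiableOn.analyticOnNhd op)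
    (convex_halfSpace_re_gt _).isPreconnected (z₀ := ((|β| + 2 : ℝ) : ℂ))
    (by show β + 1 / 2 < _; rw [ofReal_re]; linarith [le_abs_self β]) (by
      filter_upwards [(isOpen_lt continuous_const continuous_re).mem_nhds
        (show ((|β| + 2 : ℝ) : ℂ) ∈ {s : ℂ | 1 < s.re} by
          rw [Set.mem_ofPred_eq, ofReal_re]; linarith [abs_nonneg β])] with z hz
      have hz : 1 < z.re := hz
      have e : ∑' n, mu n * (XX w n * (N n : ℂ) ^ (-(1 / 2 : ℂ))) * (N n : ℂ) ^ (-(z - 1 / 2)) =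
          ∑' n, mu n * (XX w n * (N n : ℂ) ^ (-z)) := tsum_congr fun n => by
        by_cases k : XX w n = 0
        · simp [k]
        · rw [mul_assoc, mul_assoc, ← cpow_add _ _ (by exact_mod_cast (pos n k).ne')]
          congr 3; ring
      rw [g2 _ (by rw [sub_re, r2]; linarith), e, mul_assoc, he z hz, mu_inv w hz, mul_one])
    (show s ∈ {z : ℂ | β + 1 / 2 < z.re} by show β + 1 / 2 < s.re; linarith)
  intro hz
  simp only [hz, mul_zero] at key
  exact mul_ne_zero (by exact_mod_cast (Real.sqrt_pos.2 Real.pi_pos).ne') (exp_ne_zero _) key.symm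

theorem log1 {w : O} (hw : w ≠ 0) (t : ℝ) : 1 ≤ Real.log (N w * (|t| + 3)) := by
  have := bas.b1.N_one_le w hw
  rw [Real.le_log_iff_exp_le (by positivity)]
  nlinarith [Real.exp_one_lt_three, abs_nonneg t]

/-- continuation and bound for the logarithmic derivative -/
theorem logder : ∃ C : ℝ, 0 < C ∧ ∀ w : O, w ≠ 0 → NT w → ∃ F : ℂ → ℂ,
    DifferentiableOn ℂ F {s | 26 / 27 < s.re} ∧
    (∀ s : ℂ, 1 < s.re → F s = ∑' n, (Lam n : ℂ) * (XX w n * (N n : ℂ) ^ (-s))) ∧
    ∀ s : ℂ, 27 / 28 ≤ s.re → s.re ≤ 2 → ‖F s‖ ≤ C * Real.log (N w * (|s.im| + 3)) := by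
  obtain ⟨K, K0, hK⟩ := contL
  set K1 : ℝ := ∑' n : O, N n ^ (-2 : ℝ) with hK1
  have K10 : 0 ≤ K1 := tsum_nonneg fun n => Real.rpow_nonneg (N0 n) _
  set D : ℝ := K * N 36 ^ 2 * K1 + 1 with hD
  have D1 : 1 ≤ D := by rw [hD]; have := N0 36; nlinarith [show 0 ≤ K * N 36 ^ 2 * K1 by positivity]
  have l0 := Real.log_nonneg D1
  refine ⟨2 * (Real.log D + 2) * (29 / 28 + 1 / 1512) / (1 / 1512) / (1 / 1512), by positivity,
    fun w hw hN => ?_⟩
  obtain ⟨L, hd, he, hb⟩ := hK (XX w) _ (mul_ne_zero (by decide) hw) (XX_pe hw) (XX_le w)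
    (if_neg fun h => bas.b2.ne 0 h.1 rfl) (XX_sum hw hN)
  have hz := zf hw hd he
  have op : IsOpen {s : ℂ | 26 / 27 < s.re} := isOpen_lt continuous_const continuous_re
  have hd' : DifferentiableOn ℂ L {s | 26 / 27 < s.re} := hd.mono fun z hz => by
    have : 26 / 27 < z.re := hz
    show 3 / 4 < z.re
    linarith
  refine ⟨fun s => -(deriv L s / L s), ((hd'.deriv op).div hd' hz).neg, fun s hs => ?_,
    fun s h1 h2 => ?_⟩
  · have : deriv L s = deriv (fun z => ∑' n, XX w n * (N n : ℂ) ^ (-z)) s :=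
      EventuallyEq.deriv_eq (by
        filter_upwards [(isOpen_lt continuous_const continuous_re).mem_nhds
          (show s ∈ {s : ℂ | 1 < s.re} from hs)] with z hz using he z hz)
    simp only
    rw [this, ← neg_div, ← Lam_deriv w hs, ← he s hs, mul_div_cancel_right₀ _ (hz s (by linarith))]
  · have l1 := log1 hw s.im
    have w1 := bas.b1.N_one_le w hw
    have re1 : ∀ z ∈ ball (0 : ℂ) (29 / 28 + 2 * (1 / 1512)), 26 / 27 < (2 + s.im * I + z).re :=
      fun z hz => by
        have := (abs_lt.1 ((abs_re_le_norm z).trans_lt (mem_ball_zero_iff.1 hz))).1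
        simp; linarith
    have lo : 1 ≤ K1 * ‖L (2 + s.im * I)‖ := by
      have r : 1 < (2 + s.im * I).re := by simp
      have e := congrArg norm (mu_inv w r)
      rw [norm_mul, norm_one, ← he _ r] at e
      rw [← e]
      refine mul_le_mul_of_nonneg_right (tsum_of_norm_bounded (bas.b3.summ 2 one_lt_two).hasSum
        fun n => ?_) (norm_nonneg _)
      rw [norm_mul, norm_mul, ncp n (by simp), ← mul_assoc]
      simpa using mul_le_of_le_one_left (Real.rpow_nonneg (N0 n) (-2))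
        (mul_le_one₀ (ZKM.norm_mu n) (norm_nonneg _) (XX_le w n))
    have key := P319.logd (h := fun z => L (2 + s.im * I + z)) (R := 29 / 28) (δ := 1 / 1512)
      (M := (Real.log D + 2) * Real.log (N w * (|s.im| + 3))) (by norm_num) (by norm_num)
      (by positivity) (hd'.comp (by fun_prop) re1) (fun z h => hz _ (re1 z h)) (fun z h => ?_)
      (z := (s.re - 2 : ℝ)) (by rw [norm_real, Real.norm_eq_abs, abs_le]; constructor <;> linarith)
    · rw [deriv_comp_const_add, show 2 + s.im * I + ((s.re - 2 : ℝ) : ℂ) = s by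
        apply Complex.ext <;> simp] at key
      rw [norm_neg]
      refine key.trans (le_of_eq ?_)
      ring
    · have a1 : ‖2 + s.im * I + z‖ ≤ (|s.im| + 3) ^ 2 := by
        have b1 := norm_add₃_le (a := (2 : ℂ)) (b := s.im * I) (c := z)
        have b2 := mem_ball_zero_iff.1 h
        rw [norm_mul, norm_I, norm_real, norm_ofNat, Real.norm_eq_abs] at b1
        nlinarith [abs_nonneg s.im]
      have a2 : D * (N w * (|s.im| + 3)) ^ 2 ≤
          Real.exp ((Real.log D + 2) * Real.log (N w * (|s.im| + 3))) := by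
        rw [add_mul (Real.log D), Real.exp_add, mul_comm 2, Real.exp_mul _ 2, Real.exp_log (by positivity),
          Real.rpow_two]
        refine mul_le_mul_of_nonneg_right ?_ (by positivity)
        exact (Real.exp_log (by linarith)).symm.trans_le (Real.exp_le_exp.2 (by nlinarith))
      simp only [add_zero]
      refine (hb _ (by linarith [re1 z h])).trans ?_
      rw [bas.b1.N_mul]
      have := N0 36
      calc _ ≤ K * (N 36 * N w) ^ 2 * (|s.im| + 3) ^ 2 * (K1 * ‖L (2 + s.im * I)‖) :=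
            (mul_le_mul_of_nonneg_left a1 (by positivity)).trans
              (le_mul_of_one_le_right (by positivity) lo)
        _ = (D - 1) * (N w * (|s.im| + 3)) ^ 2 * ‖L (2 + s.im * I)‖ := by rw [hD]; ring
        _ ≤ _ := mul_le_mul_of_nonneg_right (le_trans (by nlinarith [sq_nonneg (N w * (|s.im| + 3))]) a2)
            (norm_nonneg _)

end Vale.Agent.P006.QG
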