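import Vale.Agent.P006.C2

/-! P006 branch C: sums of the von Mangoldt function against sextic characters. -/

noncomputable section
open Complex Set MeasureTheory Filter Topology
open scoped Classical

namespace Vale.Agent.P006.QG

open Vale.Agent.P026 W1 Vau

theorem int32 : Integrable fun t : ℝ => (1 + |t|) ^ (-(3 / 2) : ℝ) :=
  integrable_one_add_norm (E := ℝ) (by simp; norm_num)

theorem shift (f : ℂ → ℂ) {a b C : ℝ} (hab : a ≤ b)
    (hd : DifferentiableOn ℂ f {s | a ≤ s.re ∧ s.re ≤ b})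
    (hb : ∀ s : ℂ, a ≤ s.re → s.re ≤ b → ‖f s‖ ≤ C * (1 + |s.im|) ^ (-(3 / 2) : ℝ)) :
    ∫ t : ℝ, f (a + t * I) = ∫ t : ℝ, f (b + t * I) := by
  have il : ∀ σ : ℝ, a ≤ σ → σ ≤ b → Integrable fun t : ℝ => f (σ + t * I) := fun σ h1 h2 => by
    have hcont : Continuous fun t : ℝ => f (σ + t * I) :=
      hd.continuousOn.comp_continuous (by fun_prop) (fun t => by simp [h1, h2])
    refine (int32.const_mul C).mono' hcont.aestronglyMeasurable (ae_of_all _ fun t => ?_)
    simpa using hb (σ + t * I) (by simpa using h1) (by simpa using h2)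
  have hz : ∀ e : ℝ, |e| = 1 →
      Tendsto (fun T : ℝ => ∫ x in a..b, f (x + ((e * T : ℝ) : ℂ) * I)) atTop (𝓝 0) := fun e he => by
    have h0 : Tendsto (fun T : ℝ => C * (1 + T) ^ (-(3 / 2) : ℝ) * |b - a|) atTop (𝓝 0) := by
      have := (((tendsto_rpow_neg_atTop (y := 3 / 2) (by norm_num)).comp
        (tendsto_atTop_add_const_left _ 1 tendsto_id)).const_mul C).mul_const |b - a|
      simpa using this
    refine squeeze_zero_norm' ?_ h0
    filter_upwards [eventually_ge_atTop 0] with T hT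
    refine intervalIntegral.norm_integral_le_of_norm_le_const fun x hx => ?_
    rw [Set.uIoc_of_le hab] at hx
    have := hb (x + ((e * T : ℝ) : ℂ) * I) (by simpa using hx.1.le) (by simpa using hx.2)
    simpa [abs_mul, he, abs_of_nonneg hT] using this
  have ia := intervalIntegral_tendsto_integral (il a le_rfl hab) tendsto_neg_atTop_atBot tendsto_id
  have ib := intervalIntegral_tendsto_integral (il b hab le_rfl) tendsto_neg_atTop_atBot tendsto_id
  have h3 := (((hz (-1) (by simp)).sub (hz 1 (by simp))).add (ib.const_smul I)).sub (ia.const_smul I)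
  have h4 : ∀ T : ℝ, (∫ x in a..b, f (x + ((-1 * T : ℝ) : ℂ) * I)) -
      (∫ x in a..b, f (x + ((1 * T : ℝ) : ℂ) * I)) +
      I • (∫ y in (-T)..(id T), f (b + y * I)) - I • (∫ y in (-T)..(id T), f (a + y * I)) = 0 := by
    intro T
    have := integral_boundary_rect_eq_zero_of_differentiableOn f ⟨a, -T⟩ ⟨b, T⟩ (hd.mono fun s hs => by
      have := hs.1
      simp only [Set.uIcc_of_le hab] at this
      exact this)
    simpa using this
  have h5 := tendsto_nhds_unique (h3.congr h4) tendsto_const_nhds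
  simp only [sub_zero, zero_add, smul_eq_mul, ← mul_sub, mul_eq_zero, I_ne_zero, false_or] at h5
  exact (sub_eq_zero.mp h5).symm

theorem kbd {s : ℂ} (hs : 1 / 2 ≤ s.re) : ‖(s * (s + 1))⁻¹‖ ≤ 9 * (1 + |s.im|) ^ (-2 : ℝ) := by
  have a1 := re_le_norm s
  have a2 := abs_im_le_norm s
  have a3 := re_le_norm (s + 1)
  have a4 := abs_im_le_norm (s + 1)
  simp only [add_re, one_re, add_im, one_im, add_zero] at a3 a4
  have := abs_nonneg s.im
  rw [norm_inv, norm_mul, Real.rpow_neg (by linarith), Real.rpow_two, ← div_eq_mul_inv,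
    inv_eq_one_div, div_le_div_iff₀ (mul_pos (by linarith) (by linarith)) (by positivity)]
  nlinarith [mul_le_mul (show 1 + |s.im| ≤ 3 * ‖s‖ by linarith)
    (show 1 + |s.im| ≤ 3 * ‖s + 1‖ by linarith) (by linarith) (by linarith)]

theorem kint : Integrable fun y : ℝ => (((2 : ℝ) + y * I) * ((2 : ℝ) + y * I + 1))⁻¹ := by
  refine (int32.const_mul 9).mono' (by fun_prop) (ae_of_all _ fun y => (kbd (by simp; norm_num)).trans ?_)
  have := abs_nonneg y
  simpa using Real.rpow_le_rpow_of_exponent_le (x := 1 + |y|) (y := -2) (z := -(3 / 2))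
    (by linarith) (by norm_num)

theorem riesz {u : ℝ} (hu : 0 < u) : ((max (1 - u) 0 : ℝ) : ℂ) = (1 / (2 * Real.pi) : ℝ) *
    ∫ y : ℝ, (u : ℂ) ^ (-((2 : ℝ) + y * I)) * (((2 : ℝ) + y * I) * ((2 : ℝ) + y * I + 1))⁻¹ := by
  have hm : ∀ s : ℂ, 0 < s.re → HasMellin (fun t : ℝ => ((max (1 - t) 0 : ℝ) : ℂ)) s (s * (s + 1))⁻¹ :=
    fun s hs => by
      have a := hasMellin_one_Ioc hs
      have b := hasMellin_cpow_Ioc 1 (s := s) (by simp; linarith)
      have c := hasMellin_sub a.1 b.1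
      have e : ∀ t ∈ Ioi (0 : ℝ), (t : ℂ) ^ (s - 1) • (indicator (Ioc 0 1) (fun _ => 1 : ℝ → ℂ) t -
          indicator (Ioc 0 1) (fun t => ↑t ^ (1 : ℂ) : ℝ → ℂ) t) =
          (t : ℂ) ^ (s - 1) • ((max (1 - t) 0 : ℝ) : ℂ) := fun t ht => by
        congr 1
        by_cases k : t ≤ 1
        · simp [indicator_of_mem (show t ∈ Ioc (0 : ℝ) 1 from ⟨ht, k⟩), max_eq_left (sub_nonneg.2 k)]
        · simp [indicator_of_notMem (show t ∉ Ioc (0 : ℝ) 1 from fun h => k h.2),
            max_eq_right (sub_nonpos.2 (not_le.1 k).le)]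
      have s0 : s ≠ 0 := fun h => by simp [h] at hs
      have s1 : s + 1 ≠ 0 := fun h => by
        have := congrArg re h
        simp at this; linarith
      refine ⟨(integrableOn_congr_fun e measurableSet_Ioi).1 c.1,
        (setIntegral_congr_fun measurableSet_Ioi e).symm.trans (c.2.trans ?_)⟩
      rw [a.2, b.2]; field_simp; ring
  have e : ∀ y : ℝ, mellin (fun t : ℝ => ((max (1 - t) 0 : ℝ) : ℂ)) ((2 : ℝ) + y * I) = _ :=
    fun y => (hm _ (by simp)).2
  have := mellinInv_mellin_eq 2 (fun t : ℝ => ((max (1 - t) 0 : ℝ) : ℂ)) hu (hm _ (by simp)).1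
    (kint.congr (ae_of_all _ fun y => (e y).symm)) (by fun_prop)
  rw [← this, mellinInv]
  simp only [e, smul_eq_mul, real_smul]

/-- the twisted coefficients -/
def cf (w : O) (t : ℝ) (n : O) : ℂ := (Lam n : ℂ) * XX w n * (N n : ℂ) ^ (t * I)

theorem rmean : ∃ C : ℝ, 0 < C ∧ ∀ w : O, w ≠ 0 → NT w → ∀ t x : ℝ, 1 ≤ x →
    ‖∑' n, cf w t n * (max (1 - N n / x) 0 : ℝ)‖ ≤
      C * x ^ (27 / 28 : ℝ) * Real.log (N w * (|t| + 3)) := by
  obtain ⟨C, C0, hC⟩ := logder
  have J0 : 0 ≤ ∫ t : ℝ, (1 + |t|) ^ (-(3 / 2) : ℝ) := integral_nonneg fun t => by positivity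
  refine ⟨27 * C * (∫ t : ℝ, (1 + |t|) ^ (-(3 / 2) : ℝ)) + 1, by positivity,
    fun w hw hN t x hx => ?_⟩
  obtain ⟨F, hd, he, hb⟩ := hC w hw hN
  have l1 := log1 hw t
  have w1 := bas.b1.N_one_le w hw
  have x0 : (x : ℂ) ≠ 0 := by exact_mod_cast (by linarith : x ≠ 0)
  set l := Real.log (N w * (|t| + 3)) with hl
  set f : ℂ → ℂ := fun s => (x : ℂ) ^ s * F (s - t * I) * (s * (s + 1))⁻¹ with hf
  have fb : ∀ s : ℂ, 27 / 28 ≤ s.re → s.re ≤ 2 →
      ‖f s‖ ≤ 27 * C * l * x ^ s.re * (1 + |s.im|) ^ (-(3 / 2) : ℝ) := fun s h1 h2 => by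
    have y0 := abs_nonneg s.im
    have t0 := abs_nonneg t
    have a1 := hb (s - t * I) (by simpa using h1) (by simpa using h2)
    have a2 : Real.log (N w * (|(s - t * I).im| + 3)) ≤ 3 * l * (1 + |s.im|) ^ (1 / 2 : ℝ) := by
      have b1 : |(s - t * I).im| ≤ |s.im| + |t| := by simpa using abs_sub s.im t
      have b2 := Real.log_le_rpow_div (x := 1 + |s.im|) (by linarith) (show (0 : ℝ) < 1 / 2 by norm_num)
      have b3 := Real.one_le_rpow (x := 1 + |s.im|) (z := 1 / 2) (by linarith) (by norm_num)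
      calc _ ≤ Real.log (N w * (|t| + 3) * (1 + |s.im|)) :=
            Real.log_le_log (by positivity) (by rw [mul_assoc]; gcongr; nlinarith)
        _ = l + Real.log (1 + |s.im|) := Real.log_mul (by positivity) (by positivity)
        _ ≤ _ := by nlinarith
    have a3 : (1 + |s.im|) ^ (-(3 / 2) : ℝ) = (1 + |s.im|) ^ (1 / 2 : ℝ) * (1 + |s.im|) ^ (-2 : ℝ) := by
      rw [← Real.rpow_add (by linarith)]; norm_num
    rw [hf]
    simp only
    rw [norm_mul, norm_mul, norm_cpow_eq_rpow_re_of_pos (by linarith), a3]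
    calc _ ≤ x ^ s.re * (C * (3 * l * (1 + |s.im|) ^ (1 / 2 : ℝ))) * (9 * (1 + |s.im|) ^ (-2 : ℝ)) := by
          gcongr
          · exact a1.trans (by gcongr)
          · exact kbd (by linarith)
      _ = _ := by ring
  have sh := shift f (a := 27 / 28) (b := 2) (C := 27 * C * l * x ^ (2 : ℝ)) (by norm_num)
    (((differentiableOn_id.const_cpow (Or.inl x0)).mul (hd.comp (by fun_prop) fun s hs => by
      show 26 / 27 < (s - t * I).re
      simp; linarith [hs.1])).mul (DifferentiableOn.inv (by fun_prop) fun s hs => mul_ne_zero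
        (fun h => by have := hs.1; rw [h] at this; norm_num at this)
        fun h => by have := congrArg re h; simp at this; linarith [hs.1]))
    fun s h1 h2 => (fb s h1 h2).trans (by gcongr)
  have sm := summ_Lam w (s := 2) (by simp)
  have tm : ∀ (n : O) (y : ℝ), cf w t n * (((N n / x : ℝ) : ℂ) ^ (-((2 : ℝ) + y * I)) *
      (((2 : ℝ) + y * I) * ((2 : ℝ) + y * I + 1))⁻¹) = (x : ℂ) ^ ((2 : ℝ) + y * I) *
      ((Lam n : ℂ) * (XX w n * (N n : ℂ) ^ (-((2 : ℝ) + y * I - t * I)))) *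
      (((2 : ℝ) + y * I) * ((2 : ℝ) + y * I + 1))⁻¹ := fun n y => by
    by_cases k : XX w n = 0
    · simp [cf, k]
    have p := N1 (XX_ne k).1
    rw [div_eq_mul_inv, ofReal_mul, mul_cpow_ofReal_nonneg (N0 n) (by positivity), ofReal_inv,
      inv_cpow _ _ (by rw [arg_ofReal_of_nonneg (by linarith)]; exact Real.pi_pos.ne), cpow_neg (x : ℂ),
      inv_inv, neg_sub, sub_eq_add_neg, cpow_add (t * I) _ (by exact_mod_cast (by linarith : N n ≠ 0)), cf]
    ring
  have nm : ∀ (n : O) (y : ℝ), ‖(x : ℂ) ^ ((2 : ℝ) + y * I) *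
      ((Lam n : ℂ) * (XX w n * (N n : ℂ) ^ (-((2 : ℝ) + y * I - t * I)))) *
      (((2 : ℝ) + y * I) * ((2 : ℝ) + y * I + 1))⁻¹‖ = ‖(Lam n : ℂ) * (XX w n * (N n : ℂ) ^ (-2 : ℂ))‖ *
      (x ^ (2 : ℝ) * ‖(((2 : ℝ) + y * I) * ((2 : ℝ) + y * I + 1))⁻¹‖) := fun n y => by
    simp only [norm_mul]
    rw [ncp n (by simp), ncp n (by simp), norm_cpow_eq_rpow_re_of_pos (by linarith)]
    simp; ring
  have : Countable O := (QuadraticAlgebra.equivProd (-1 : ℤ) (-1)).injective.countable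
  have e := integral_tsum_of_summable_integral_norm (μ := volume)
    (F := fun (n : O) (y : ℝ) => (x : ℂ) ^ ((2 : ℝ) + y * I) *
      ((Lam n : ℂ) * (XX w n * (N n : ℂ) ^ (-((2 : ℝ) + y * I - t * I)))) *
      (((2 : ℝ) + y * I) * ((2 : ℝ) + y * I + 1))⁻¹)
    (fun n => ((kint.norm.const_mul _).const_mul _).mono' (by
      by_cases k : XX w n = 0
      · simp only [k, zero_mul, mul_zero]; fun_prop
      have p := N1 (XX_ne k).1
      refine AEStronglyMeasurable.mul (Continuous.aestronglyMeasurable (Continuous.mul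
        (Continuous.const_cpow (by fun_prop) (Or.inl x0)) (continuous_const.mul (continuous_const.mul
        (Continuous.const_cpow (by fun_prop) (Or.inl (by
          exact_mod_cast (by linarith : N n ≠ 0)))))))) kint.aestronglyMeasurable)
      (ae_of_all _ fun y => (nm n y).le))
    (by simp only [nm, integral_const_mul]; exact sm.mul_right _)
  have e2 : ∑' n, cf w t n * (max (1 - N n / x) 0 : ℝ) =
      (1 / (2 * Real.pi) : ℝ) * ∫ y : ℝ, f ((2 : ℝ) + y * I) := by
    have : ∀ y : ℝ, f ((2 : ℝ) + y * I) = ∑' n, (x : ℂ) ^ ((2 : ℝ) + y * I) *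
        ((Lam n : ℂ) * (XX w n * (N n : ℂ) ^ (-((2 : ℝ) + y * I - t * I)))) *
        (((2 : ℝ) + y * I) * ((2 : ℝ) + y * I + 1))⁻¹ := fun y => by
      rw [hf]
      simp only
      rw [he _ (by simp), ← tsum_mul_left, ← tsum_mul_right]
    simp only [this]
    rw [← e, ← tsum_mul_left]
    refine tsum_congr fun n => ?_
    simp only [← tm]
    by_cases k : XX w n = 0
    · simp [cf, k]
    have p := N1 (XX_ne k).1
    rw [integral_const_mul, riesz (by positivity), mul_left_comm]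
  rw [e2, ← sh, norm_mul, norm_real, Real.norm_of_nonneg (by positivity)]
  have b := norm_integral_le_of_norm_le (f := fun y : ℝ => f ((27 / 28 : ℝ) + y * I))
    (int32.const_mul (27 * C * l * x ^ (27 / 28 : ℝ))) (ae_of_all _ fun y => by
      simpa using fb ((27 / 28 : ℝ) + y * I) (by simp) (by simp; norm_num))
  rw [integral_const_mul] at b
  refine (mul_le_of_le_one_left (norm_nonneg _) ?_).trans (b.trans ?_)
  · rw [div_le_one (by positivity)]; linarith [Real.pi_gt_three]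
  · have : 0 ≤ x ^ (27 / 28 : ℝ) * l := by positivity
    nlinarith

theorem cf_le (w : O) (t : ℝ) {n : O} (hn : Prim n) : ‖cf w t n‖ ≤ Real.log (N n) := by
  have := N1 hn
  rw [cf, norm_mul, norm_mul, norm_cpow_eq_rpow_re_of_pos (by linarith), norm_real,
    Real.norm_of_nonneg (Lam_nonneg n)]
  simpa using (mul_le_of_le_one_right (Lam_nonneg n) (XX_le w n)).trans (Lam_le hn)

/-- number of elements in an annulus -/
theorem ann (ε : ℝ) (hε : 0 < ε) : ∃ C : ℝ, 0 ≤ C ∧ ∀ (x h : ℝ) (s : Finset O), 1 ≤ x → 0 ≤ h →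
    (∀ n ∈ s, x < N n ∧ N n ≤ x + h) → (s.card : ℝ) ≤ C * (h + 1) * (x + h) ^ ε := by
  obtain ⟨C, hC⟩ := bas.b3.div (ε / 2) (by linarith)
  refine ⟨|C|, abs_nonneg _, fun x h s hx hh hs => ?_⟩
  have m : ∀ n ∈ s, Nn n ∈ Finset.Ioc ⌊x⌋₊ ⌊x + h⌋₊ := fun n hn => Finset.mem_Ioc.2
    ⟨(Nat.floor_lt (by linarith)).2 (hs n hn).1, Nat.le_floor (hs n hn).2⟩
  rw [Finset.card_eq_sum_card_fiberwise m, Nat.cast_sum]
  refine (Finset.sum_le_card_nsmul _ _ (|C| * (x + h) ^ ε) fun k hk => ?_).trans ?_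
  · obtain ⟨k1, k2⟩ := Finset.mem_Ioc.1 hk
    have k3 : (k : ℝ) ≤ x + h := (Nat.le_floor_iff (by linarith)).1 k2
    have k4 : N (k : O) = (k : ℝ) ^ (2 : ℝ) := by simp [N, ZKM.Nn_nat]
    have k0 : (0 : ℝ) < k := by exact_mod_cast (by omega : 0 < k)
    refine (hC k (fun e => ?_) _ fun d hd => ?_).trans ?_
    · rw [e, bas.b1.N_zero] at k4
      exact (Real.rpow_pos_of_pos k0 2).ne k4
    · exact ⟨cj d, by rw [bas.b1.cj_mul, (Finset.mem_filter.1 hd).2]⟩
    · rw [k4, ← Real.rpow_mul k0.le, show 2 * (ε / 2) = ε by ring]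
      exact mul_le_mul (le_abs_self _) (Real.rpow_le_rpow k0.le k3 hε.le) (by positivity)
        (abs_nonneg _)
  · rw [Nat.card_Ioc, nsmul_eq_mul, Nat.cast_sub (Nat.floor_le_floor (by linarith)), mul_comm |C|
      (h + 1), mul_assoc]
    refine mul_le_mul_of_nonneg_right ?_ (by positivity)
    linarith [Nat.floor_le (show 0 ≤ x + h by linarith), Nat.lt_floor_add_one x]

/-- sharp cutoff bound, uniform in the character and in `t` -/
theorem sharp : ∃ C : ℝ, 0 < C ∧ ∀ w : O, w ≠ 0 → NT w → ∀ t x : ℝ, 1 ≤ x →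
    ‖∑ n ∈ PS x, cf w t n‖ ≤ C * x ^ (99 / 100 : ℝ) * Real.log (N w * (|t| + 3)) := by
  obtain ⟨C, C0, hC⟩ := rmean
  obtain ⟨A, A0, hA⟩ := ann (1 / 400) (by norm_num)
  refine ⟨5 * C + 3200 * A, by positivity, fun w hw hN t x hx => ?_⟩
  have l1 := log1 hw t
  set l := Real.log (N w * (|t| + 3)) with hl
  set h := x ^ (55 / 56 : ℝ) with hh
  have h1 : 1 ≤ h := Real.one_le_rpow hx (by norm_num)
  have h2 : h ≤ x := Real.rpow_le_self_of_one_le hx (by norm_num)
  have fin : ∀ y : ℝ, 1 ≤ y → y ≤ x + h → y * ∑' n, cf w t n * (max (1 - N n / y) 0 : ℝ) =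
      ∑ n ∈ PS (x + h), cf w t n * (max (y - N n) 0 : ℝ) := fun y hy hy' => by
    rw [tsum_eq_sum (s := PS (x + h)) fun n hn => ?_, Finset.mul_sum]
    · refine Finset.sum_congr rfl fun n _ => ?_
      rw [mul_left_comm, ← ofReal_mul, mul_max_of_nonneg _ _ (by linarith), mul_zero, mul_sub,
        mul_one, mul_div_cancel₀ _ (by linarith)]
    · by_cases k : XX w n = 0
      · simp [cf, k]
      have : x + h < N n := not_le.1 fun e => hn (mem_PS.2 ⟨(XX_ne k).1, e⟩)
      rw [max_eq_right (sub_nonpos.2 ((one_le_div (by linarith)).2 (by linarith))), ofReal_zero,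
        mul_zero]
  have e : h * ∑ n ∈ PS x, cf w t n =
      (x + h : ℝ) * ∑' n, cf w t n * (max (1 - N n / (x + h)) 0 : ℝ) -
      x * ∑' n, cf w t n * (max (1 - N n / x) 0 : ℝ) -
      ∑ n ∈ (PS (x + h)).filter (fun n => ¬ N n ≤ x), cf w t n * (x + h - N n : ℝ) := by
    have : PS x = (PS (x + h)).filter fun n => N n ≤ x := by
      ext n
      simp only [Finset.mem_filter, mem_PS]
      exact ⟨fun k => ⟨⟨k.1, by linarith [k.2]⟩, k.2⟩, fun k => ⟨k.1.1, k.2⟩⟩
    rw [fin _ (by linarith) le_rfl, fin x hx (by linarith), this, Finset.mul_sum, Finset.sum_filter,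
      Finset.sum_filter, ← Finset.sum_sub_distrib, ← Finset.sum_sub_distrib]
    refine Finset.sum_congr rfl fun n hn => ?_
    rw [max_eq_left (sub_nonneg.2 (mem_PS.1 hn).2)]
    by_cases k : N n ≤ x
    · rw [if_pos k, if_neg (not_not.2 k), max_eq_left (sub_nonneg.2 k)]; push_cast; ring
    · rw [if_neg k, if_pos k, max_eq_right (by linarith)]; simp
  have p : ∀ a : ℝ, 0 ≤ a → a ≤ 1 → (x + h) ^ a ≤ 2 * x ^ a := fun a a0 a1 =>
    (Real.rpow_le_rpow (by linarith) (show x + h ≤ 2 * x by linarith) a0).trans (by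
      rw [Real.mul_rpow (by norm_num) (by linarith)]
      exact mul_le_mul_of_nonneg_right (Real.rpow_le_self_of_one_le one_le_two a1) (by positivity))
  have b1 := hC w hw hN t (x + h) (by linarith)
  have b2 := hC w hw hN t x hx
  have b3 := norm_sum_le_of_le ((PS (x + h)).filter fun n => ¬ N n ≤ x)
    (f := fun n => cf w t n * (x + h - N n : ℝ)) (n := fun _ => 800 * x ^ (1 / 400 : ℝ) * h)
    fun n hn => by
      obtain ⟨k1, k2⟩ := Finset.mem_filter.1 hn
      obtain ⟨k3, k4⟩ := mem_PS.1 k1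
      rw [norm_mul, norm_real, Real.norm_of_nonneg (by linarith)]
      refine mul_le_mul ((cf_le w t k3).trans ((Real.log_le_rpow_div (N0 n)
        (show (0 : ℝ) < 1 / 400 by norm_num)).trans ?_)) (by linarith) (by linarith) (by positivity)
      linarith [Real.rpow_le_rpow (N0 n) k4 (show (0 : ℝ) ≤ 1 / 400 by norm_num),
        p (1 / 400) (by norm_num) (by norm_num)]
  rw [Finset.sum_const, nsmul_eq_mul] at b3
  have b4 := hA x h ((PS (x + h)).filter fun n => ¬ N n ≤ x) hx (by linarith) fun n hn =>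
    ⟨not_le.1 (Finset.mem_filter.1 hn).2, (mem_PS.1 (Finset.mem_filter.1 hn).1).2⟩
  have x0 : 0 < x := by linarith
  have q1 : x * x ^ (27 / 28 : ℝ) ≤ h * x ^ (99 / 100 : ℝ) := by
    rw [hh, ← Real.rpow_add x0, ← Real.rpow_one_add' x0.le (by norm_num)]
    exact Real.rpow_le_rpow_of_exponent_le hx (by norm_num)
  have q2 : h * x ^ (1 / 400 : ℝ) * x ^ (1 / 400 : ℝ) ≤ x ^ (99 / 100 : ℝ) := by
    rw [hh, ← Real.rpow_add x0, ← Real.rpow_add x0]
    exact Real.rpow_le_rpow_of_exponent_le hx (by norm_num)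
  refine le_of_mul_le_mul_left ?_ (show 0 < h by linarith)
  have := congrArg norm e
  rw [norm_mul, norm_real, Real.norm_of_nonneg (by linarith)] at this
  rw [this]
  refine (norm_sub_le _ _).trans ((add_le_add (norm_sub_le _ _) b3).trans ?_)
  rw [norm_mul, norm_mul, norm_real, norm_real, Real.norm_of_nonneg (by linarith),
    Real.norm_of_nonneg x0.le, ← hl] at *
  have p1 := p (27 / 28) (by norm_num) (by norm_num)
  have p2 := p (1 / 400) (by norm_num) (by norm_num)
  calc _ ≤ (2 * x) * (C * (2 * x ^ (27 / 28 : ℝ)) * l) + x * (C * x ^ (27 / 28 : ℝ) * l) +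
        A * (2 * h) * (2 * x ^ (1 / 400 : ℝ)) * (800 * x ^ (1 / 400 : ℝ) * h) := by
        gcongr
        · linarith
        · exact b1.trans (by gcongr)
        · exact b4.trans (by gcongr; linarith)
    _ = 5 * C * l * (x * x ^ (27 / 28 : ℝ)) +
        3200 * A * h * (h * x ^ (1 / 400 : ℝ) * x ^ (1 / 400 : ℝ)) * 1 := by ring
    _ ≤ 5 * C * l * (h * x ^ (99 / 100 : ℝ)) + 3200 * A * h * x ^ (99 / 100 : ℝ) * l := by gcongr
    _ = _ := by ring

end Vale.Agent.P006.QG
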