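import Vale.Agent.P006.C3

/-! P006 branch C: prime sums, partial summation, non principal cubic characters. -/

noncomputable section
open Complex Finset
open scoped Classical

namespace Vale.Agent.P006.QG

open Vale.Agent.P026 W1 Vau

/-- partial summation -/
theorem abel (b : O → ℂ) (φ : ℕ → ℂ) {x B : ℝ} (hx : 1 ≤ x)
    (h : ∀ y, 1 ≤ y → y ≤ x → ‖∑ n ∈ PS y, b n‖ ≤ B) :
    ‖∑ n ∈ PS x, b n * φ (Nn n)‖ ≤ B * (‖φ ⌊x⌋₊‖ + ∑ k ∈ Ico 1 ⌊x⌋₊, ‖φ (k + 1) - φ k‖) := by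
  have e : ∑ n ∈ PS x, b n * φ (Nn n) = (∑ n ∈ PS x, b n) * φ ⌊x⌋₊ -
      ∑ k ∈ Ico 1 ⌊x⌋₊, (∑ n ∈ PS k, b n) * (φ (k + 1) - φ k) := by
    have e1 : ∀ k ∈ Ico 1 ⌊x⌋₊, (∑ n ∈ PS k, b n) * (φ (k + 1) - φ k) =
        ∑ n ∈ PS x, if Nn n ≤ k then b n * (φ (k + 1) - φ k) else 0 := fun k hk => by
      have : (k : ℝ) ≤ x := (Nat.le_floor_iff (by linarith)).1 (mem_Ico.1 hk).2.le
      rw [sum_mul, ← sum_filter]
      refine sum_congr ?_ fun _ _ => rfl
      ext n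
      simp only [mem_filter, mem_PS, N, Nat.cast_le]
      exact ⟨fun k => ⟨⟨k.1, (Nat.cast_le.2 k.2).trans this⟩, k.2⟩, fun k => ⟨k.1.1, k.2⟩⟩
    rw [sum_congr rfl e1, sum_comm, sum_mul, ← sum_sub_distrib]
    refine sum_congr rfl fun n hn => ?_
    obtain ⟨h1, h2⟩ := mem_PS.1 hn
    have h3 : Nn n ≤ ⌊x⌋₊ := Nat.le_floor h2
    have h4 := ZKM.Nn_pos bas h1
    rw [← sum_filter, ← mul_sum, show (Ico 1 ⌊x⌋₊).filter (Nn n ≤ ·) = Ico (Nn n) ⌊x⌋₊ by
      ext k; simp only [mem_filter, mem_Ico]; omega, sum_Ico_sub _ h3]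
    ring
  rw [e, mul_add, mul_sum]
  refine (norm_sub_le _ _).trans (add_le_add ?_ (norm_sum_le_of_le _ fun k hk => ?_))
  · rw [norm_mul]
    exact mul_le_mul_of_nonneg_right (h x hx le_rfl) (norm_nonneg _)
  · rw [norm_mul]
    exact mul_le_mul_of_nonneg_right (h k (by exact_mod_cast (mem_Ico.1 hk).1)
      ((Nat.le_floor_iff (by linarith)).1 (mem_Ico.1 hk).2.le)) (norm_nonneg _)

/-- partial summation with a decreasing weight -/
theorem abel_anti (b : O → ℂ) (φ : ℕ → ℝ) (h0 : ∀ k, 0 ≤ φ k) (h1 : Antitone φ) {x B : ℝ}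
    (hx : 1 ≤ x) (h : ∀ y, 1 ≤ y → y ≤ x → ‖∑ n ∈ PS y, b n‖ ≤ B) :
    ‖∑ n ∈ PS x, b n * φ (Nn n)‖ ≤ B * φ 1 := by
  refine (abel b (fun k => φ k) hx h).trans (le_of_eq ?_)
  rw [sum_congr rfl fun k _ => (by
    rw [← ofReal_sub, norm_real, Real.norm_of_nonpos (sub_nonpos.2 (h1 k.le_succ))] :
      ‖(φ (k + 1) : ℂ) - φ k‖ = -(φ (k + 1) - φ k)), sum_neg_distrib,
    sum_Ico_sub _ (Nat.le_floor (by simpa using hx)), norm_real, Real.norm_of_nonneg (h0 _)]
  ring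

theorem N2 {p : O} (hp : Prime p) : 2 ≤ N p := by
  have a := bas.b1.N_one_le p hp.ne_zero
  have b := mt (bas.b1.unit_iff p).2 hp.not_isUnit
  have c : 1 ≤ Nn p := by simpa [N] using a
  exact Nat.ofNat_le_cast.2 (show 2 ≤ Nn p by omega)

/-- primes with logarithmic weight -/
theorem primeLog : ∃ C : ℝ, 0 < C ∧ ∀ w : O, w ≠ 0 → NT w → ∀ t x : ℝ, 1 ≤ x →
    ‖∑ n ∈ PS x, if Prime n then cf w t n else 0‖ ≤
      C * x ^ (99 / 100 : ℝ) * Real.log (N w * (|t| + 3)) := by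
  obtain ⟨C, C0, hC⟩ := sharp
  refine ⟨C + 880, by positivity, fun w hw hN t x hx => ?_⟩
  have l1 := log1 hw t
  have x0 : 0 < x := by linarith
  have lg : Real.log x ≤ 5 * x ^ (1 / 5 : ℝ) := by
    linarith [Real.log_le_rpow_div x0.le (show (0 : ℝ) < 1 / 5 by norm_num)]
  have y1 := Real.one_le_rpow hx (show (0 : ℝ) ≤ 1 / 5 by norm_num)
  set S := (PS x).filter fun n => ¬ Prime n ∧ Lam n ≠ 0 with hS
  have e : (∑ n ∈ PS x, if Prime n then cf w t n else 0) =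
      ∑ n ∈ PS x, cf w t n - ∑ n ∈ S, cf w t n := by
    rw [hS, sum_filter, ← sum_sub_distrib]
    refine sum_congr rfl fun n _ => ?_
    by_cases k : Prime n <;> by_cases k' : Lam n = 0 <;> simp [k, k', cf]
  have sub : S ⊆ (PS (x ^ (1 / 2 : ℝ)) ×ˢ range (⌊10 * x ^ (1 / 5 : ℝ)⌋₊ + 1)).image
      fun q => q.1 ^ q.2 := fun n hn => by
    obtain ⟨h1, h2, h3⟩ := mem_filter.1 hn
    obtain ⟨h4, h5⟩ := mem_PS.1 h1
    obtain ⟨p, k, p1, p2, k0, rfl⟩ := Lam_ne h4 h3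
    have k1 : k ≠ 1 := by rintro rfl; exact h2 (by simpa using p1)
    have n2 := N2 p1
    rw [bas.b1.N_pow] at h5
    refine mem_image.2 ⟨(p, k), mem_product.2 ⟨mem_PS.2 ⟨p2, ?_⟩, mem_range.2
      (Nat.lt_succ_of_le (Nat.le_floor ?_))⟩, rfl⟩
    · rw [← Real.sqrt_eq_rpow]
      exact Real.le_sqrt_of_sq_le ((pow_le_pow_right₀ (by linarith) (by omega)).trans h5)
    · have := Real.log_le_log (by positivity) ((pow_le_pow_left₀ zero_le_two n2 k).trans h5)
      rw [Real.log_pow] at this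
      nlinarith [Real.log_two_gt_d9, (k.cast_nonneg : (0 : ℝ) ≤ k)]
  have cd : (S.card : ℝ) ≤ 16 * x ^ (1 / 2 : ℝ) * (11 * x ^ (1 / 5 : ℝ)) := by
    refine (Nat.cast_le.2 ((card_le_card sub).trans card_image_le)).trans ?_
    rw [card_product, card_range]
    push_cast
    refine mul_le_mul (bas.b3.card_le _ _ (by positivity) fun a ha =>
      ⟨bas.b2.ne a (mem_PS.1 ha).1, (mem_PS.1 ha).2⟩) ?_ (by positivity) (by positivity)
    linarith [Nat.floor_le (show 0 ≤ 10 * x ^ (1 / 5 : ℝ) by positivity)]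
  have b := norm_sum_le_of_le S (f := cf w t) (n := fun _ => 5 * x ^ (1 / 5 : ℝ)) fun n hn => by
    obtain ⟨h4, h5⟩ := mem_PS.1 (mem_filter.1 hn).1
    exact (cf_le w t h4).trans ((Real.log_le_log (by linarith [N1 h4]) h5).trans lg)
  rw [sum_const, nsmul_eq_mul] at b
  have q : x ^ (1 / 2 : ℝ) * x ^ (1 / 5 : ℝ) * x ^ (1 / 5 : ℝ) ≤ x ^ (99 / 100 : ℝ) := by
    rw [← Real.rpow_add x0, ← Real.rpow_add x0]
    exact Real.rpow_le_rpow_of_exponent_le hx (by norm_num)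
  rw [e]
  refine (norm_sub_le _ _).trans ((add_le_add (hC w hw hN t x hx) b).trans ?_)
  have := mul_le_mul_of_nonneg_right cd (show 0 ≤ 5 * x ^ (1 / 5 : ℝ) by positivity)
  nlinarith [mul_le_mul_of_nonneg_left l1 (show 0 ≤ x ^ (99 / 100 : ℝ) by positivity)]

/-- sums over primes, uniform in the character and in `t` -/
theorem primes : ∃ C : ℝ, 0 < C ∧ ∀ w : O, w ≠ 0 → NT w → ∀ t x : ℝ, 1 ≤ x →
    ‖∑ n ∈ PS x, if Prime n then XX w n * (N n : ℂ) ^ (t * I) else 0‖ ≤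
      C * x ^ (99 / 100 : ℝ) * Real.log (N w * (|t| + 3)) := by
  obtain ⟨C, C0, hC⟩ := primeLog
  refine ⟨C * 2, by positivity, fun w hw hN t x hx => ?_⟩
  have l1 := log1 hw t
  have p : ∀ k : ℕ, 0 < Real.log (max (k : ℝ) 2) := fun k =>
    Real.log_pos (one_lt_two.trans_le (le_max_right _ _))
  have := abel_anti (fun n => if Prime n then cf w t n else 0) (fun k => (Real.log (max (k : ℝ) 2))⁻¹)
    (fun k => (inv_pos.2 (p k)).le) (fun a b h => inv_anti₀ (p a) (Real.log_le_log (by positivity)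
      (max_le_max (Nat.cast_le.2 h) le_rfl))) hx
    (B := C * x ^ (99 / 100 : ℝ) * Real.log (N w * (|t| + 3))) fun y y1 y2 =>
      (hC w hw hN t y y1).trans (by gcongr)
  refine le_of_eq_of_le (congrArg norm (sum_congr rfl fun n hn => ?_)) (this.trans ?_)
  · split_ifs with k
    · have n2 := N2 k
      have : (Real.log (N n) : ℂ) ≠ 0 := by exact_mod_cast (Real.log_pos (by linarith)).ne'
      rw [cf, Lam_prime k (mem_PS.1 hn).1, show max (Nn n : ℝ) 2 = N n from max_eq_left n2, ofReal_inv]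
      field_simp
    · simp
  · rw [Nat.cast_one, max_eq_right one_le_two]
    refine (mul_le_mul_of_nonneg_left (inv_le_of_inv_le₀ two_pos ?_) (by positivity)).trans
      (le_of_eq (by ring))
    linarith [Real.log_two_gt_d9]

theorem XX_sq (m : O) {n : O} (hn : OP n) : XX (m ^ 2) n = cub m n := by
  rw [XX, if_pos hn, W3.sxx.pow_l _ _ _ hn, W3.sxx.two _ _ (bas.b2.ne n hn.1)]

theorem NT_of {m n : O} (hm : m ≠ 0) (hn : Prim n) (hc : IsCoprime m n) (h : cub m n ≠ 1) :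
    NT (m ^ 2) := by
  have key : ∀ n, OP n → IsCoprime m n → cub m n ≠ 1 → NT (m ^ 2) := fun n h1 h2 h3 =>
    ⟨n, h1, h2.pow_left, by rwa [← XX_sq m h1, XX, if_pos h1] at h3⟩
  have two := bas.b1.prime_two
  have c2 : ∀ a : O, IsCoprime a 2 ↔ ¬ 2 ∣ a := fun a => by
    rw [isCoprime_comm, two.irreducible.coprime_iff_not_dvd]
  by_cases k : 2 ∣ n
  · have p : Prim (n + m * 9) := by
      rw [Prim, show n + m * 9 - 1 = n - 1 + 3 * (m * 3) by ring]
      exact dvd_add hn (dvd_mul_right _ _)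
    refine key (n + m * 9) ⟨p, (c2 _).2 fun d => ?_⟩ (hc.add_mul_left_right 9) ?_
    · rcases two.dvd_or_dvd ((dvd_add_right k).1 d) with d | d
      · exact two.not_isUnit (hc.isUnit_of_dvd' d k)
      · exact two.not_dvd_one ((dvd_add_right (show (2 : O) ∣ 8 from ⟨4, by norm_num⟩)).1
          (by norm_num; exact d))
    · rwa [p9 m _ n hm p hn ⟨1, by ring⟩]
  · exact key n ⟨hn, (c2 n).2 k⟩ hc h

theorem crt {a b : O} (h : IsCoprime a b) (r : O) : ∃ n, a ∣ n - r ∧ b ∣ n - 1 := by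
  obtain ⟨u, v, e⟩ := h
  exact ⟨r * v * b + u * a, ⟨u - r * u, by linear_combination r * e⟩,
    ⟨r * v - v, by linear_combination e⟩⟩

theorem om_ne {k : ℕ} (hk : ¬ 3 ∣ k) : om ^ k ≠ 1 := fun h => by
  have h3 : om ^ 3 = 1 := by linear_combination (om - 1) * om_sq
  have h1 : om ≠ 1 := fun e => by
    have := congrArg re e
    simp [om] at this; linarith
  have := (orderOf_eq_prime (hp := ⟨Nat.prime_three⟩) h3 h1) ▸ orderOf_dvd_of_pow_eq_one h
  exact hk this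

theorem unit_cop {e : O} (he : IsUnit e) (n : O) : IsCoprime e n := by
  obtain ⟨u, hu⟩ := he.exists_left_inv
  exact ⟨u, 0, by rw [hu, zero_mul, add_zero]⟩

/-- the cubic character of a non cube is not principal -/
theorem NT_cub {m : O} (hm : m ≠ 0) (h : ¬ ∃ c, m = c ^ 3) : NT (m ^ 2) := by
  obtain ⟨e, v, D, he, hD, rfl⟩ := bas.b2.dec m hm
  have D0 := bas.b2.ne D hD
  by_cases k : ∀ p ∈ pf D, 3 ∣ vl p D
  · obtain ⟨c, hc, rfl⟩ : ∃ c, Prim c ∧ D = c ^ 3 := by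
      refine ⟨∏ p ∈ pf D, p ^ (vl p D / 3), prod_induction _ Prim bas.b2.mul bas.b2.one fun p hp =>
        bas.b2.pow _ _ ((b8.mem D p D0).1 hp).2.1, (b8.prod D hD).trans ?_⟩
      rw [← prod_pow]
      exact prod_congr rfl fun p hp => by rw [← pow_mul, Nat.div_mul_cancel (k p hp)]
    have l3 : lam ∣ 3 := ⟨-lam, by linear_combination bas.b1.lam_sq⟩
    have fin : ∀ p, Prim p → cub (e * lam ^ (v % 3)) p ≠ 1 → NT ((e * lam ^ v * c ^ 3) ^ 2) := by
      intro p hp hne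
      obtain ⟨n, n1, n2⟩ := crt (a := 3 ^ 4) (b := c) (bas.b2.cop c hc).symm.pow_left p
      have pn : Prim n := by
        rw [Prim, show n - 1 = n - p + (p - 1) by ring]
        exact dvd_add ((dvd_pow_self 3 (by norm_num)).trans n1) hp
      have n3 := bas.b2.cop n pn
      have c1 : IsCoprime lam n := n3.symm.of_isCoprime_of_dvd_left l3
      have c2 : IsCoprime c n := by
        obtain ⟨z, hz⟩ := n2
        exact ⟨-z, 1, by linear_combination hz⟩
      have c3 : IsCoprime e n := unit_cop he n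
      refine NT_of hm pn ((c3.mul_left c1.pow_left).mul_left c2.pow_left) ?_
      rw [show e * lam ^ v * c ^ 3 = e * lam ^ (v % 3) * (lam ^ (v / 3) * c) ^ 3 by
          rw [mul_pow, ← pow_mul, mul_assoc, mul_assoc, ← mul_assoc (lam ^ _), ← pow_add]
          congr 3; omega, bas.b6.mul_l _ _ _ n3, bas.b6.pow_l _ _ _ n3,
        bas.b6.cube _ _ (c1.pow_left.mul_left c2), mul_one,
        p9 _ n p (mul_ne_zero he.ne_zero (pow_ne_zero _ bas.b1.prime_lam.ne_zero)) pn hp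
          (Dvd.dvd.trans ?_ n1)]
      · exact hne
      · rw [show (3 : O) ^ 4 = 9 * (1 * 3 ^ 2) by norm_num]
        exact mul_dvd_mul_left _ (mul_dvd_mul he.dvd (pow_dvd_pow_of_dvd_of_le l3 (by omega)))
    have p2 : Prim (-2) := ⟨-1, by norm_num⟩
    have p7 : Prim ⟨-2, -3⟩ := ⟨⟨-1, -1⟩, by decide⟩
    have q7 : Prime (⟨-2, -3⟩ : O) := by
      refine Irreducible.prime ⟨mt (bas.b1.unit_iff _).1 (by decide), fun a b e => ?_⟩
      have := bas.b1.Nn_mul a b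
      rw [← e, show Nn ⟨-2, -3⟩ = 7 by decide] at this
      rw [bas.b1.unit_iff, bas.b1.unit_iff]
      exact (Nat.prime_iff.1 (by norm_num : Nat.Prime 7)).irreducible.isUnit_or_isUnit this |>.imp
        Nat.isUnit_iff.1 Nat.isUnit_iff.1
    have s2 := fun a k => bas.b6.spec' a _ k bas.b1.prime_two.neg (bas.b2.cop _ p2)
    have s7 := fun a k => bas.b6.spec' a _ k q7 (bas.b2.cop _ p7)
    rw [show (Nn (-2) - 1) / 3 = 1 by decide] at s2
    rw [show (Nn ⟨-2, -3⟩ - 1) / 3 = 2 by decide] at s7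
    have f2 : ∀ k, ¬ 3 ∣ k → -2 ∣ (e * lam ^ (v % 3)) ^ 1 - wO ^ k →
        NT ((e * lam ^ v * c ^ 3) ^ 2) := fun k h1 h2 => fin _ p2 (by rw [s2 _ k h2]; exact om_ne h1)
    have f7 : ∀ k, ¬ 3 ∣ k → ⟨-2, -3⟩ ∣ (e * lam ^ (v % 3)) ^ 2 - wO ^ k →
        NT ((e * lam ^ v * c ^ 3) ^ 2) := fun k h1 h2 => fin _ p7 (by rw [s7 _ k h2]; exact om_ne h1)
    have d : ∀ x : O, x.re % 2 = 0 → x.im % 2 = 0 → -2 ∣ x := fun x h1 h2 =>
      neg_dvd.2 ⟨⟨x.re / 2, x.im / 2⟩, by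
        ext <;> simp [QuadraticAlgebra.re_ofNat, QuadraticAlgebra.im_ofNat] <;> omega⟩
    have cu : v % 3 = 0 → e = 1 ∨ e = -1 → False := fun h1 h2 => h ⟨e * lam ^ (v / 3) * c, by
      rw [mul_pow, mul_pow, ← pow_mul, show v / 3 * 3 = v by omega]
      rcases h2 with rfl | rfl <;> ring⟩
    have hv : v % 3 = 0 ∨ v % 3 = 1 ∨ v % 3 = 2 := by omega
    have hu := (bas.b1.units e).1 he
    simp only [mem_insert, mem_singleton] at hu
    rcases hu with u | u | u | u | u | u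
    iterate 2
      rcases hv with hv | hv | hv
      · exact (cu hv (by simp [u])).elim
      · exact f7 1 (by decide) ⟨⟨0, -1⟩, by rw [hv, u]; decide⟩
      · exact f7 2 (by decide) ⟨⟨1, 4⟩, by rw [hv, u]; decide⟩
    iterate 2
      refine f2 1 (by decide) (d _ ?_ ?_) <;> rcases hv with hv | hv | hv <;> rw [hv, u] <;> decide
    iterate 2
      refine f2 2 (by decide) (d _ ?_ ?_) <;> rcases hv with hv | hv | hv <;> rw [hv, u] <;> decide
  · push Not at k
    obtain ⟨p, hp, hk⟩ := k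
    obtain ⟨p1, p2, -⟩ := (b8.mem D p D0).1 hp
    have p3 := bas.b2.cop p p2
    obtain ⟨D', hD'⟩ := (b8.vl_dvd p D _ p1 D0).2 le_rfl
    have nd : ¬ p ∣ D' := fun ⟨z, hz⟩ => by
      have := (b8.vl_dvd p D (vl p D + 1) p1 D0).1 ⟨z, by rw [pow_succ, mul_assoc, ← hz, ← hD']⟩
      omega
    generalize vl p D = k at *
    have c1 : IsCoprime p (9 * (e * lam ^ v * D')) := by
      refine IsCoprime.mul_right ?_ (((unit_cop he p).symm.mul_right
        (IsCoprime.pow_right ?_)).mul_right (p1.irreducible.coprime_iff_not_dvd.2 nd))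
      · rw [show (9 : O) = 3 ^ 2 by norm_num]; exact p3.pow_right
      · exact p3.of_isCoprime_of_dvd_right ⟨-lam, by linear_combination bas.b1.lam_sq⟩
    obtain ⟨a, ha⟩ := bas.b6.nontriv p p1 p3
    obtain ⟨n, n1, n2⟩ := crt c1 a
    have pn : Prim n := Dvd.dvd.trans ⟨3 * (e * lam ^ v * D'), by ring⟩ n2
    have n3 := bas.b2.cop n pn
    have e1 : cub n p = om := (bas.b4.pe_congr p _ _ _ (bas.b6.pe p) n1).trans ha
    have m0 : e * lam ^ v * D' ≠ 0 := fun z => hm (by rw [hD']; linear_combination p ^ k * z)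
    have c2 : IsCoprime p n := by
      by_contra c
      rw [bas.b6.zero n p p1.ne_zero fun z => c z.symm] at e1
      have := congrArg re e1
      simp [om] at this; linarith
    have c3 : IsCoprime (e * lam ^ v * D') n := by
      obtain ⟨z, hz⟩ := n2
      exact ⟨-9 * z, 1, by linear_combination hz⟩
    rw [hD', show e * lam ^ v * (p ^ k * D') = e * lam ^ v * D' * p ^ k by ring] at hm ⊢
    refine NT_of hm pn (c3.mul_left c2.pow_left) ?_
    rw [bas.b6.mul_l _ _ _ n3, bas.b6.pow_l _ _ _ n3, cr p n p2 pn, e1,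
      p9 _ n 1 m0 pn bas.b2.one n2, bas.b6.unit_r _ _ isUnit_one, one_mul]
    exact om_ne hk

/-- prime sums of the cubic character of a non cube -/
theorem primes_cub : ∃ C : ℝ, 0 < C ∧ ∀ m : O, m ≠ 0 → (¬ ∃ c, m = c ^ 3) → ∀ t x : ℝ, 1 ≤ x →
    ‖∑ n ∈ PS x, if Prime n then cub m n * (N n : ℂ) ^ (t * I) else 0‖ ≤
      C * x ^ (99 / 100 : ℝ) * Real.log (N m * (|t| + 3)) := by
  obtain ⟨C, C0, hC⟩ := primes
  refine ⟨2 * C + 1, by positivity, fun m hm h t x hx => ?_⟩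
  have l1 := log1 hm t
  have m1 := bas.b1.N_one_le m hm
  have y1 := Real.one_le_rpow hx (show (0 : ℝ) ≤ 99 / 100 by norm_num)
  have e : (∑ n ∈ PS x, if Prime n then cub m n * (N n : ℂ) ^ (t * I) else 0) =
      (∑ n ∈ PS x, if Prime n then XX (m ^ 2) n * (N n : ℂ) ^ (t * I) else 0) +
      ∑ n ∈ PS x, if n = -2 then cub m n * (N n : ℂ) ^ (t * I) else 0 := by
    rw [← sum_add_distrib]
    refine sum_congr rfl fun n hn => ?_
    have p := (mem_PS.1 hn).1
    by_cases k : n = -2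
    · rw [if_pos k, if_pos (k ▸ bas.b1.prime_two.neg), if_pos (k ▸ bas.b1.prime_two.neg), XX,
        if_neg fun z => bas.b1.prime_two.not_isUnit (z.2.isUnit_of_dvd' (by simp [k]) dvd_rfl)]
      simp
    rw [if_neg k, add_zero]
    split_ifs with q
    · rw [XX_sq m ⟨p, q.irreducible.coprime_iff_not_dvd.2 fun d => k (bas.b2.uniq _ _ p
        ⟨-1, by norm_num⟩ (q.associated_of_dvd bas.b1.prime_two.neg (dvd_neg.2 d)))⟩]
    · rfl
  have b : ‖∑ n ∈ PS x, if n = -2 then cub m n * (N n : ℂ) ^ (t * I) else 0‖ ≤ 1 := by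
    rw [sum_ite_eq']
    split_ifs with k
    · rw [norm_mul, norm_cpow_eq_rpow_re_of_pos (by linarith [N1 (mem_PS.1 k).1])]
      simpa using bas.b6.norm_le m (-2)
    · simp
  have c : Real.log (N (m ^ 2) * (|t| + 3)) ≤ 2 * Real.log (N m * (|t| + 3)) := by
    have := abs_nonneg t
    rw [bas.b1.N_pow, two_mul, ← Real.log_mul (by positivity) (by positivity)]
    exact Real.log_le_log (by positivity) (by nlinarith [mul_nonneg (sq_nonneg (N m)) this])
  rw [e]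
  refine (norm_add_le _ _).trans ((add_le_add ((hC _ (pow_ne_zero 2 hm) (NT_cub hm h) t x hx).trans
    (mul_le_mul_of_nonneg_left c (by positivity))) b).trans ?_)
  nlinarith [mul_le_mul y1 l1 zero_le_one (by linarith)]

end Vale.Agent.P006.QG
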