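import Vale.Agent.P006.C4

/-! P006 branch C: character sums over rough squarefree numbers. -/

noncomputable section
open Complex Finset
open scoped Classical

namespace Vale.Agent.P006.QG

open Vale.Agent.P026 W1 Vau

/-- lattice sums of negative powers of the norm -/
theorem lat {σ : ℝ} (hσ : σ < 1) : ∃ C : ℝ, 0 < C ∧ ∀ (z : ℝ) (s : Finset O), 0 ≤ z →
    (∀ m ∈ s, m ≠ 0 ∧ N m ≤ z) → ∑ m ∈ s, (z / N m) ^ σ ≤ C * z := by
  obtain ⟨r, r0, r1, hr⟩ : ∃ r : ℝ, 0 ≤ r ∧ r < 1 ∧ ∀ j : ℕ, ((2 : ℝ) ^ j) ^ σ / 2 ^ j ≤ r ^ j := by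
    refine ⟨2 ^ (σ - 1), by positivity, Real.rpow_lt_one_of_one_lt_of_neg one_lt_two (by linarith),
      fun j => le_of_eq ?_⟩
    rw [← Real.rpow_natCast, ← Real.rpow_natCast, ← Real.rpow_mul zero_le_two,
      ← Real.rpow_mul zero_le_two, ← Real.rpow_sub two_pos]
    congr 1; ring
  have : 0 < 1 - r := by linarith
  refine ⟨16 * (2 ^ σ + 1) * (1 - r)⁻¹, by positivity, fun z s hz hs => ?_⟩
  rw [← sum_fiberwise_of_maps_to (g := fun m => Nat.log 2 ⌊z / N m⌋₊)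
    (t := s.image fun m => Nat.log 2 ⌊z / N m⌋₊) fun m hm => mem_image_of_mem _ hm]
  refine (sum_le_sum (g := fun j => 16 * (2 ^ σ + 1) * z * r ^ j) fun j _ => ?_).trans ?_
  · have key : ∀ m ∈ s.filter fun m => Nat.log 2 ⌊z / N m⌋₊ = j,
        2 ^ j ≤ z / N m ∧ z / N m ≤ 2 * 2 ^ j := fun m hm => by
      obtain ⟨h1, rfl⟩ := mem_filter.1 hm
      have n1 := bas.b1.N_one_le m (hs m h1).1
      have q : 1 ≤ z / N m := (one_le_div (by linarith)).2 (hs m h1).2
      have q' : ⌊z / N m⌋₊ ≠ 0 := (Nat.floor_pos.2 q).ne'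
      constructor
      · exact_mod_cast (Nat.le_floor_iff (by linarith)).1 (Nat.pow_log_le_self 2 q')
      · have := (Nat.floor_lt (by linarith)).1 (Nat.lt_pow_succ_log_self one_lt_two ⌊z / N m⌋₊)
        push_cast at this
        rw [pow_succ] at this
        linarith
    have c := bas.b3.card_le (z / 2 ^ j) (s.filter fun m => Nat.log 2 ⌊z / N m⌋₊ = j) (by positivity)
      fun m hm => ⟨(hs m (mem_filter.1 hm).1).1, by
        have n1 := bas.b1.N_one_le m (hs m (mem_filter.1 hm).1).1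
        have := (key m hm).1
        rw [le_div_iff₀ (by linarith)] at this
        rw [le_div_iff₀ (by positivity)]
        linarith⟩
    refine (sum_le_card_nsmul _ _ ((2 ^ σ + 1) * ((2 : ℝ) ^ j) ^ σ) fun m hm => ?_).trans ?_
    · have p : (0 : ℝ) < ((2 : ℝ) ^ j) ^ σ := by positivity
      have p2 : (0 : ℝ) < 2 ^ σ := by positivity
      rcases le_total 0 σ with k | k
      · refine (Real.rpow_le_rpow (by linarith [(key m hm).1, show (0 : ℝ) < 2 ^ j by positivity])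
          (key m hm).2 k).trans ?_
        rw [Real.mul_rpow zero_le_two (by positivity)]
        nlinarith
      · refine (Real.rpow_le_rpow_of_nonpos (by positivity) (key m hm).1 k).trans ?_
        nlinarith
    · rw [nsmul_eq_mul]
      calc _ ≤ 16 * (z / 2 ^ j) * ((2 ^ σ + 1) * ((2 : ℝ) ^ j) ^ σ) := by gcongr
        _ = 16 * (2 ^ σ + 1) * z * (((2 : ℝ) ^ j) ^ σ / 2 ^ j) := by ring
        _ ≤ _ := by gcongr; exact hr j
  · rw [← mul_sum, mul_right_comm _ (1 - r)⁻¹ z, ← tsum_geometric_of_lt_one r0 r1]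
    exact mul_le_mul_of_nonneg_left ((summable_geometric_of_lt_one r0 r1).sum_le_tsum _
      fun _ _ => by positivity) (by positivity)

/-- squarefree numbers without small prime factors -/
def RS (w y : ℝ) : Finset O := (PS y).filter fun a => Squarefree a ∧ ∀ p ∈ pf a, w < N p

theorem cub_cube (h : O) {m p : O} (hp : Prim p) :
    cub (h * m ^ 3) p = if IsCoprime m p then cub h p else 0 := by
  have p3 := bas.b2.cop p hp
  rw [bas.b6.mul_l _ _ _ p3, bas.b6.pow_l _ _ _ p3]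
  split_ifs with k
  · rw [bas.b6.cube _ _ k, mul_one]
  · rw [bas.b6.zero _ _ (bas.b2.ne p hp) k]; simp

theorem not_cube {h m : O} (hm : m ≠ 0) (hh : ¬ ∃ c, h = c ^ 3) : ¬ ∃ c, h * m ^ 3 = c ^ 3 := by
  rintro ⟨c, hc⟩
  obtain ⟨d, rfl⟩ := (IsIntegrallyClosed.pow_dvd_pow_iff (n := 3) (by norm_num)).1 (Dvd.intro_left _ hc)
  exact hh ⟨d, mul_right_cancel₀ (pow_ne_zero 3 hm) (by rw [hc]; ring)⟩

/-- identity of Ramare -/
theorem ram (w y : ℝ) (F : O → ℂ) : ∑ a ∈ (RS w y).erase 1, F a = ∑ m ∈ RS w y,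
    ∑ p ∈ (PS (y / N m)).filter fun p => Prime p ∧ w < N p ∧ IsCoprime m p,
      (((pf m).card + 1 : ℕ) : ℂ)⁻¹ * F (m * p) := by
  have e : ∀ a ∈ (RS w y).erase 1, F a = ∑ _p ∈ pf a, ((pf a).card : ℂ)⁻¹ * F a := fun a ha => by
    obtain ⟨h1, h2⟩ := mem_erase.1 ha
    have h3 := (mem_PS.1 (mem_filter.1 h2).1).1
    have : (pf a).card ≠ 0 := fun z => h1 ((b8.prod a h3).trans (by rw [card_eq_zero.1 z, prod_empty]))
    rw [sum_const, nsmul_eq_mul, mul_inv_cancel_left₀ (by exact_mod_cast this)]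
  rw [sum_congr rfl e, sum_sigma', sum_sigma']
  refine (sum_bij (fun x _ => ⟨x.1 * x.2, x.2⟩) (fun x hx => ?_) (fun x hx y hy e => ?_)
    (fun x hx => ?_) fun x hx => ?_).symm
  any_goals
    obtain ⟨h1, h2⟩ := mem_sigma.1 hx
  · obtain ⟨h3, h4, h5⟩ := mem_filter.1 h1
    obtain ⟨h6, h7, h8, h9⟩ := mem_filter.1 h2
    rw [mem_PS] at h3 h6
    have m0 := bas.b2.ne _ h3.1
    have e := b8.pf_mul x.1 x.2 m0 h7.ne_zero
    rw [pf_prime h7 h6.1] at e
    refine mem_sigma.2 ⟨mem_erase.2 ⟨fun z => h7.not_dvd_one ⟨x.1, by rw [← z, mul_comm]⟩,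
      mem_filter.2 ⟨mem_PS.2 ⟨bas.b2.mul _ _ h3.1 h6.1, ?_⟩,
        squarefree_mul_iff.2 ⟨h9.isRelPrime, h4, h7.squarefree⟩, fun q hq => ?_⟩⟩, by simp [e]⟩
    · rw [bas.b1.N_mul, mul_comm, ← le_div_iff₀ (by linarith [N1 h3.1])]; exact h6.2
    · rw [e] at hq
      rcases mem_union.1 hq with hq | hq
      · exact h5 q hq
      · rwa [mem_singleton.1 hq]
  · obtain ⟨e1, e2⟩ := Sigma.mk.inj e
    have e2 := eq_of_heq e2
    rw [← e2] at e1
    exact Sigma.ext (mul_right_cancel₀ (mem_filter.1 h2).2.1.ne_zero e1) (heq_of_eq e2)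
  · obtain ⟨a, p⟩ := x
    obtain ⟨h3, h4, h5⟩ := mem_filter.1 (mem_erase.1 h1).2
    rw [mem_PS] at h3
    have a0 := bas.b2.ne _ h3.1
    obtain ⟨p1, p2, m, rfl⟩ := (b8.mem a p a0).1 h2
    have m1 := bas.b2.cancel _ _ p2 h3.1
    have m0 := bas.b2.ne _ m1
    refine ⟨⟨m, p⟩, mem_sigma.2 ⟨mem_filter.2 ⟨mem_PS.2 ⟨m1, (N_dvd a0 (dvd_mul_left _ _)).trans h3.2⟩,
      h4.of_mul_right, fun q hq => h5 q ?_⟩, mem_filter.2 ⟨mem_PS.2 ⟨p2, ?_⟩, p1, h5 p h2,
      (squarefree_mul_iff.1 h4).1.symm.isCoprime⟩⟩, by simp [mul_comm]⟩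
    · rw [b8.pf_mul _ _ p1.ne_zero m0]; exact mem_union_right _ hq
    · rw [le_div_iff₀ (by linarith [N1 m1]), ← bas.b1.N_mul]; exact h3.2
  · obtain ⟨h6, h7, -, h9⟩ := mem_filter.1 h2
    have m0 := bas.b2.ne _ (mem_PS.1 (mem_filter.1 h1).1).1
    simp only
    rw [b8.pf_mul x.1 x.2 m0 h7.ne_zero, card_union_of_disjoint (b8.pf_disj _ _ m0 h7.ne_zero h9),
      pf_prime h7 (mem_PS.1 h6).1, card_singleton]

/-- character sums over rough squarefree numbers -/
theorem rough : ∃ C : ℝ, 0 < C ∧ ∀ h : O, h ≠ 0 → (¬ ∃ c, h = c ^ 3) → ∀ u : ℕ → ℂ, (∀ k, ‖u k‖ ≤ 1) →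
    ∀ t w y : ℝ, 1 ≤ w → 1 ≤ y →
    ‖∑ a ∈ (RS w y).erase 1, u (pf a).card * cub h a * (N a : ℂ) ^ (t * I)‖ ≤
      C * y * w ^ (-(1 / 100) : ℝ) * Real.log (N h * y * (|t| + 3)) := by
  obtain ⟨C, C0, hC⟩ := primes_cub
  obtain ⟨D, D0, hD⟩ := lat (σ := 99 / 100) (by norm_num)
  refine ⟨6 * C * D, by positivity, fun h h0 hh u hu t w y hw hy => ?_⟩
  have t0 := abs_nonneg t
  have h1 := bas.b1.N_one_le h h0
  have l0 : 0 ≤ Real.log (N h * y * (|t| + 3)) :=
    Real.log_nonneg (by nlinarith [mul_le_mul h1 hy zero_le_one (by linarith)])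
  set l := Real.log (N h * y * (|t| + 3)) with hl
  rw [ram, ← sum_filter_of_ne (p := fun m => N m ≤ y / w) fun m hm k => ?_]
  swap
  · obtain ⟨p, hp, -⟩ := exists_ne_zero_of_sum_ne_zero k
    obtain ⟨h6, -, h8, -⟩ := mem_filter.1 hp
    have := N1 (mem_PS.1 (mem_filter.1 hm).1).1
    have h9 := h8.le.trans (mem_PS.1 h6).2
    rw [le_div_iff₀ (by linarith)] at h9 ⊢
    linarith
  refine (norm_sum_le_of_le _ (n := fun m => 6 * C * l * w ^ (99 / 100 : ℝ) *
    (y / w / N m) ^ (99 / 100 : ℝ)) fun m hm => ?_).trans ?_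
  · obtain ⟨h2, h3⟩ := mem_filter.1 hm
    obtain ⟨m1, m2⟩ := mem_PS.1 (mem_filter.1 h2).1
    have m0 := bas.b2.ne m m1
    have n1 := N1 m1
    have h4 : w ≤ y / N m := by
      rw [le_div_iff₀ (by linarith)] at h3 ⊢
      linarith
    have e : ∑ p ∈ (PS (y / N m)).filter fun p => Prime p ∧ w < N p ∧ IsCoprime m p,
        (((pf m).card + 1 : ℕ) : ℂ)⁻¹ * (u (pf (m * p)).card * cub h (m * p) * (N (m * p) : ℂ) ^ (t * I)) =
        (((pf m).card + 1 : ℕ) : ℂ)⁻¹ * u ((pf m).card + 1) * cub h m * (N m : ℂ) ^ (t * I) *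
        ((∑ p ∈ PS (y / N m), if Prime p then cub (h * m ^ 3) p * (N p : ℂ) ^ (t * I) else 0) -
          ∑ p ∈ PS w, if Prime p then cub (h * m ^ 3) p * (N p : ℂ) ^ (t * I) else 0) := by
      have : PS w = (PS (y / N m)).filter fun p => N p ≤ w := by
        ext n
        simp only [mem_filter, mem_PS]
        exact ⟨fun k => ⟨⟨k.1, k.2.trans h4⟩, k.2⟩, fun k => ⟨k.1.1, k.2⟩⟩
      rw [this, sum_filter, sum_filter, ← sum_sub_distrib, mul_sum]
      refine sum_congr rfl fun p hp => ?_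
      have p2 := (mem_PS.1 hp).1
      rw [cub_cube h p2]
      by_cases k1 : Prime p
      swap
      · simp [k1]
      by_cases k2 : N p ≤ w
      · simp [k2, not_lt.2 k2]
      by_cases k3 : IsCoprime m p
      swap
      · simp [k3]
      rw [if_pos ⟨k1, not_le.1 k2, k3⟩, if_pos k1, if_pos k3, if_neg k2, b8.pf_mul m p m0 k1.ne_zero,
        card_union_of_disjoint (b8.pf_disj _ _ m0 k1.ne_zero k3), pf_prime k1 p2, card_singleton,
        bas.b6.mul_r _ _ _ m0 k1.ne_zero, bas.b1.N_mul, ofReal_mul,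
        mul_cpow_ofReal_nonneg (N0 m) (N0 p)]
      ring
    have c : Real.log (N (h * m ^ 3) * (|t| + 3)) ≤ 3 * l := by
      rw [bas.b1.N_mul, bas.b1.N_pow, hl, ← Nat.cast_ofNat (R := ℝ), ← Real.log_pow]
      refine Real.log_le_log (by positivity) ?_
      rw [Nat.cast_ofNat, mul_pow, mul_pow]
      gcongr
      · exact le_self_pow₀ h1 (by norm_num)
      · exact le_self_pow₀ (by linarith) (by norm_num)
    have hm0 := mul_ne_zero h0 (pow_ne_zero 3 m0)
    have b1 := (hC _ hm0 (not_cube m0 hh) t _ (hw.trans h4)).trans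
      (mul_le_mul_of_nonneg_left c (by positivity))
    have b2 := (hC _ hm0 (not_cube m0 hh) t _ hw).trans (mul_le_mul_of_nonneg_left c (by positivity))
    have b3 := Real.rpow_le_rpow (by linarith) h4 (show (0 : ℝ) ≤ 99 / 100 by norm_num)
    rw [e, norm_mul, mul_assoc _ (w ^ _), ← Real.mul_rpow (by linarith) (by positivity),
      show w * (y / w / N m) = y / N m by field_simp]
    refine (mul_le_of_le_one_left (norm_nonneg _) ?_).trans ((norm_sub_le _ _).trans ?_)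
    · rw [norm_mul, norm_mul, norm_mul, norm_cpow_eq_rpow_re_of_pos (by linarith)]
      refine mul_le_one₀ (mul_le_one₀ (mul_le_one₀ ?_ (norm_nonneg _) (hu _)) (norm_nonneg _)
        (bas.b6.norm_le _ _)) (by positivity) (by simp)
      rw [norm_inv, norm_natCast]
      exact inv_le_one_of_one_le₀ (by simp)
    · nlinarith [mul_le_mul_of_nonneg_left b3 (show 0 ≤ C * l by positivity)]
  · rw [← mul_sum]
    refine (mul_le_mul_of_nonneg_left (hD (y / w) _ (by positivity) fun m hm =>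
      ⟨bas.b2.ne m (mem_PS.1 (mem_filter.1 (mem_filter.1 hm).1).1).1, (mem_filter.1 hm).2⟩)
      (by positivity)).trans (le_of_eq ?_)
    rw [show (-(1 / 100) : ℝ) = 99 / 100 - 1 by norm_num, Real.rpow_sub_one (by linarith)]
    ring

end Vale.Agent.P006.QG
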