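import Vale.Agent.P026.M.W1
import Vale.Agent.P026.M.ZK

/-! P006: dictionary between the Gauss sums of the problem and the theta coefficients. -/

noncomputable section
open Complex Filter Topology
open scoped Classical ComplexConjugate

namespace Vale.Agent.P006
open P026

/-- normalised twisted Gauss sum -/
def gt (n : O) : ℂ := cub lam n * gs n / (Real.sqrt (N n) : ℂ)

/-- `e(x)` -/
def ee (x : ℝ) : ℂ := cexp (2 * Real.pi * I * x)

/-- the normalised cubic Gauss sum of the problem -/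
def GG (p : O) : ℂ :=
  (Real.sqrt (N p) : ℂ)⁻¹ * ∑ v ∈ Rs p, cubP v p * ee (2 * (toC v / toC p).re)

/-- Kummer's sum -/
def SK (p : ℕ) : ℂ := ∑ x ∈ Finset.range p, ee ((x : ℝ) ^ 3 / p)

/-- primary primes of norm at most `X` -/
def PP (X : ℝ) : Finset O := (W1.bas.b3.fin X).toFinset.filter fun p => Prime p ∧ Prim p

namespace Z0

lemma mem_PP {X : ℝ} {p : O} : p ∈ PP X ↔ N p ≤ X ∧ Prime p ∧ Prim p := by simp [PP]

lemma ee_eq (z : ℂ) : ee (2 * z.re) = psi (toC lam * z) := by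
  have h : Real.sqrt 3 ≠ 0 := by positivity
  unfold ee psi
  rw [W1.bas.b1.toC_lam]
  congr 3
  simp only [mul_im, mul_re, I_re, I_im, ofReal_re, ofReal_im]
  field_simp
  ring

lemma ee_eQ (v p : O) : ee (2 * (toC v / toC p).re) = eQ (lam * v) p := by
  rw [ee_eq, eQ, map_mul, mul_div_assoc]

lemma cop_lam {p : O} (h : Prim p) : IsCoprime lam p :=
  ((W1.bas.b1.prime_lam.irreducible.coprime_iff_not_dvd).2
    ((W1.bas.b2.cop_iff p).1 (W1.bas.b2.cop p h)))

lemma tw {p : O} (hp : Prime p) (h : Prim p) (a : O) :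
    ∑ v ∈ Rs p, conj (cub v p) * eQ (v * a) p = cub a p * gs p :=
  W1.hd.tw3 p a (W1.bas.b2.cop p h) hp.irreducible.squarefree

lemma tw' {p : O} (hp : Prime p) (h : Prim p) (a : O) :
    ∑ v ∈ Rs p, cub v p * eQ (v * a) p = conj (cub a p * gs p) := by
  rw [← W1.bas.b6.neg_l a p (W1.bas.b2.cop p h), ← tw hp h, map_sum]
  refine Finset.sum_congr rfl fun v _ => ?_
  rw [map_mul, conj_conj, ← W1.bas.b1.eQ_neg, mul_neg, neg_neg]

theorem GG_eq {p : O} (hp : Prime p) (h : Prim p) : GG p = conj (gt p) := by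
  unfold GG gt
  rw [map_div₀, conj_ofReal, ← tw' hp h, div_eq_inv_mul]
  congr 1
  refine Finset.sum_congr rfl fun v _ => ?_
  rw [ee_eQ, W1.bas.b6.prime v p hp, mul_comm lam]

lemma N_pos {p : O} (h : p ≠ 0) : 0 < N p := lt_of_lt_of_le one_pos (W1.bas.b1.N_one_le p h)

theorem norm_gt {n : O} (h : Prim n) (hs : Squarefree n) : ‖gt n‖ = 1 := by
  have h0 := N_pos (W1.bas.b2.ne n h)
  have : ‖gs n‖ = Real.sqrt (N n) := by
    rw [← W1.hd.n3 n (W1.bas.b2.cop n h) hs, Real.sqrt_sq (norm_nonneg _)]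
  rw [gt, norm_div, norm_mul, W1.bas.b6.norm _ _ (cop_lam h), this, norm_real, Real.norm_eq_abs,
    abs_of_pos (Real.sqrt_pos.2 h0), one_mul, div_self (Real.sqrt_pos.2 h0).ne']

/-- twisted multiplicativity -/
theorem gt_mul {a b : O} (ha : Prim a) (hb : Prim b) (h : IsCoprime a b) :
    gt (a * b) = gt a * gt b * cub a b := by
  have h1 := W1.bas.b2.ne a ha
  have h2 := W1.bas.b2.ne b hb
  rw [gt, gt, gt, W1.hd.mul3 a b ha hb h, W1.bas.b6.mul_r _ _ _ h1 h2, W1.bas.b1.N_mul,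
    Real.sqrt_mul (N_pos h1).le]
  push_cast
  ring

/-- cubic exponential sum -/
lemma cube_sum {p : O} (hp : Prime p) (h : Prim p) {a : O} (ha : ¬ p ∣ a) :
    ∑ x ∈ Rs p, eQ (x ^ 3 * a) p = cub a p * gs p + conj (cub a p * gs p) := by
  have hB := W1.bas
  have p0 := hp.ne_zero
  have c3 := hB.b2.cop p h
  have e1 : ∑ x ∈ Rs p, eQ (x ^ 3 * a) p =
      ∑ y ∈ Rs p, (((Rs p).filter fun x => p ∣ x ^ 3 - y).card : ℂ) * eQ (y * a) p := by
    simp only [Finset.card_filter, Nat.cast_sum, Finset.sum_mul]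
    rw [Finset.sum_comm]
    refine Finset.sum_congr rfl fun x _ => ?_
    obtain ⟨y, hy, hd⟩ := hB.b4.ex p (x ^ 3) p0
    rw [Finset.sum_eq_single_of_mem y hy]
    · obtain ⟨m, hm⟩ := hd
      rw [if_pos ⟨m, hm⟩, show x ^ 3 * a = y * a + p * (m * a) by linear_combination a * hm,
        hB.b1.eQ_add, hB.b1.eQ_dvd _ _ (dvd_mul_right _ _)]
      simp
    · intro z hz hne
      rw [if_neg fun hz' => hne (hB.b4.uniq p z y p0 hz hy (by simpa using dvd_sub hd hz'))]
      simp
  have e2 : ∀ y ∈ Rs p, (((Rs p).filter fun x => p ∣ x ^ 3 - y).card : ℂ) =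
      1 + cub y p + conj (cub y p) := by
    intro y _
    by_cases hy : p ∣ y
    · have z : cub y p = 0 := by rw [hB.b6.prime y p hp, cubP, if_pos hy]
      obtain ⟨r, hr, hd⟩ := hB.b4.ex p 0 p0
      have hd' : p ∣ r := by simpa using hd
      rw [z, Finset.card_eq_one.2 ⟨r, ?_⟩]
      · simp
      · ext x
        simp only [Finset.mem_filter, Finset.mem_singleton]
        constructor
        · rintro ⟨hx, hx'⟩
          have : p ∣ x := hp.dvd_of_dvd_pow (n := 3) (by simpa using dvd_add hx' hy)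
          exact hB.b4.uniq p x r p0 hx hr (dvd_sub this hd')
        · rintro rfl
          exact ⟨hr, dvd_sub (dvd_pow hd' (by norm_num)) hy⟩
    · exact hB.b6.count p y hp c3 hy
  rw [e1, Finset.sum_congr rfl fun y hy => by rw [e2 y hy]]
  simp only [add_mul, Finset.sum_add_distrib, one_mul]
  rw [tw hp h, tw' hp h]
  have := hB.b4.orth p a p0
  rw [if_neg ha] at this
  simp only [mul_comm a] at this
  rw [this]
  ring

lemma not_dvd_cj {p : O} (hp : Prime p) (h : Prim p) (hl : (Nn p).Prime) : ¬ p ∣ cj p := fun hd => by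
  have e := W1.bas.b2.uniq _ _ h (CRM.cj_prim h) (hp.associated_of_dvd (CRM.cj_prime hp) hd)
  have e1 : p.im = 0 := by
    have := congrArg QuadraticAlgebra.im e
    simp only [cj] at this
    omega
  have : Nn p = p.re.natAbs ^ 2 := by simp [Nn, nz, e1, Int.natAbs_pow]
  rw [this] at hl
  exact Nat.Prime.not_prime_pow (le_refl 2) hl

lemma int_dvd {p : O} (hl : (Nn p).Prime) {n : ℤ} (h : p ∣ (n : O)) : (Nn p : ℤ) ∣ n := by
  have := ZKM.Nn_dvd W1.bas h
  have e : Nn (n : O) = n.natAbs ^ 2 := by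
    simp [Nn, nz, QuadraticAlgebra.re_intCast, QuadraticAlgebra.im_intCast, Int.natAbs_pow]
  rw [e] at this
  exact Int.natCast_dvd.2 (hl.dvd_of_dvd_pow this)

lemma range_sum {p : O} (hp : Prime p) (hl : (Nn p).Prime) {F : O → ℂ} (hF : Pe p F) :
    ∑ i ∈ Finset.range (Nn p), F (i : O) = ∑ r ∈ Rs p, F r := by
  have hB := W1.bas
  have p0 := hp.ne_zero
  have inj : ∀ i ∈ Finset.range (Nn p), ∀ j ∈ Finset.range (Nn p), p ∣ (i : O) - (j : O) → i = j := by
    intro i hi j hj hd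
    have := int_dvd hl (n := (i : ℤ) - j) (by simpa using hd)
    rw [Finset.mem_range] at hi hj
    have := Int.eq_zero_of_abs_lt_dvd this (by rw [abs_lt]; constructor <;> omega)
    omega
  refine hB.b4.sum_eq p F _ (fun i : ℕ => (i : O)) p0 hF (fun a => ?_) inj
  choose g hg hd using fun a => hB.b4.ex p a p0
  obtain ⟨i, hi, e⟩ := Finset.surj_on_of_inj_on_of_card_le (s := Finset.range (Nn p)) (t := Rs p)
    (fun i _ => g (i : O)) (fun i _ => hg _) (fun i j hi hj e => inj i hi j hj (by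
      have := dvd_sub (hd (i : O)) (hd (j : O))
      rw [e] at this
      simpa using this)) (by rw [hB.b4.card p p0, Finset.card_range]) (g a) (hg a)
  refine ⟨i, hi, ?_⟩
  have := dvd_sub (hd a) (hd (i : O))
  rw [e] at this
  simpa using this

lemma re_int (n : ℤ) (p : O) :
    2 * (toC (n : O) / toC p).re = n * ((2 * p.re - p.im : ℤ) : ℝ) / (Nn p : ℝ) := by
  have h1 : normSq (toC p) = (Nn p : ℝ) := by
    rw [normSq_eq_norm_sq, ← W1.bas.b1.N_eq]; rfl
  have h2 : (toC p).re = p.re - p.im / 2 := by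
    simp [toC, om]; ring
  rw [map_intCast, div_re, h1, h2]
  simp only [intCast_re, intCast_im]
  push_cast
  ring

lemma ee_add_int (x : ℝ) (m : ℤ) : ee (x + m) = ee x := by
  unfold ee
  push_cast
  rw [mul_add, Complex.exp_add, mul_comm _ (m : ℂ), Complex.exp_int_mul_two_pi_mul_I, mul_one]

/-- Kummer's sum in terms of the Gauss sum -/
theorem SK_eq {p : O} (hp : Prime p) (h : Prim p) (hl : (Nn p).Prime) :
    SK (Nn p) / (Real.sqrt (Nn p) : ℂ) = gt p + conj (gt p) := by
  have hB := W1.bas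
  have p0 := hp.ne_zero
  have c3 := hB.b2.cop p h
  set T : ℤ := 2 * p.re - p.im with hT
  have eT : (T : O) = p + cj p := by
    ext
    · simp only [QuadraticAlgebra.re_intCast, QuadraticAlgebra.re_add, cj, Int.cast_id]; omega
    · simp only [QuadraticAlgebra.im_intCast, QuadraticAlgebra.im_add, cj]; omega
  have nT : ¬ p ∣ (T : O) := fun hd => not_dvd_cj hp h hl (by
    rw [eT] at hd; exact (dvd_add_right dvd_rfl).1 hd)
  have cT : IsCoprime (Nn p : ℤ) T := by
    refine (Nat.prime_iff_prime_int.1 hl).irreducible.coprime_iff_not_dvd.2 fun hd => nT ?_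
    have : p ∣ ((Nn p : ℤ) : O) := ⟨cj p, by rw [hB.b1.cj_mul]; simp⟩
    exact this.trans (map_dvd (Int.castRingHom O) hd)
  obtain ⟨u, t, ht⟩ := cT
  have pN : p ∣ ((Nn p : ℤ) : O) := ⟨cj p, by rw [hB.b1.cj_mul]; simp⟩
  have ht' : p ∣ (t : O) * T - 1 := by
    have : (t : O) * T - 1 = -(u : O) * ((Nn p : ℤ) : O) := by
      have := congrArg (Int.cast : ℤ → O) ht
      push_cast at this ⊢
      linear_combination this
    rw [this]
    exact pN.mul_left _
  have c1 : cub (T : O) p = 1 := by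
    rw [eT, ← CRM.self hB W1.cr0 hp h fun e => not_dvd_cj hp h hl (e ▸ dvd_rfl)]
    exact hB.b4.pe_congr p _ _ _ (hB.b6.pe p) (by simp)
  have c2 : cub (t : O) p = 1 := by
    have := hB.b4.pe_congr p _ _ _ (hB.b6.pe p) ht'
    rwa [hB.b6.mul_l _ _ _ c3, c1, mul_one, hB.b6.one_l] at this
  have nd : ¬ p ∣ lam * t := fun hd => by
    rcases hp.dvd_or_dvd hd with hd | hd
    · exact hp.not_isUnit ((cop_lam h).symm.isUnit_of_dvd hd)
    · rw [hB.b6.prime _ _ hp, cubP, if_pos hd] at c2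
      exact zero_ne_one c2
  have k := cube_sum hp h nd
  rw [hB.b6.mul_l _ _ _ c3, c2, mul_one, ← range_sum hp hl (F := fun x => eQ (x ^ 3 * (lam * t)) p)
    (fun a m => by
      simp only
      rw [show (a + p * m) ^ 3 * (lam * t) = a ^ 3 * (lam * t) +
        p * (m * (3 * a ^ 2 + 3 * a * (p * m) + (p * m) ^ 2) * (lam * t)) by ring,
        hB.b1.eQ_add, hB.b1.eQ_dvd _ _ (dvd_mul_right _ _), mul_one])] at k
  have l0 : (Nn p : ℝ) ≠ 0 := by exact_mod_cast hl.pos.ne'
  have e : SK (Nn p) = cub lam p * gs p + conj (cub lam p * gs p) := by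
    rw [← k]
    refine Finset.sum_congr rfl fun x _ => ?_
    have := ee_eQ (((x : ℤ) ^ 3 * t : ℤ) : O) p
    rw [re_int, ← hT] at this
    rw [show (x : O) ^ 3 * (lam * t) = lam * (((x : ℤ) ^ 3 * t : ℤ) : O) by push_cast; ring, ← this,
      ← ee_add_int _ (-((x : ℤ) ^ 3 * u))]
    congr 1
    have := congrArg (Int.cast : ℤ → ℝ) ht
    push_cast at this ⊢
    field_simp
    linear_combination (-(x : ℝ) ^ 3) * this
  rw [e, gt, map_div₀, conj_ofReal, add_div]
  rfl

end Z0

end Vale.Agent.P006
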