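import Vale.Agent.P006.SL
import Vale.Agent.P006.LS
import Vale.Agent.P006.Z0
import Vale.Agent.P006.K0

/-! P006 branch D: the dispersion variance bound. -/

noncomputable section
open Complex
open scoped Classical ComplexConjugate

namespace Vale.Agent.P006.D
open Vale.Agent.P026

/-- Gaussian kernel over primary rows -/
def Tq (M : ℝ) (n1 n2 : O) : ℂ :=
  ∑' m : O, if Prim m then cub m n1 * conj (cub m n2) * cexp (-(N m / M : ℝ)) else 0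
/-- the dual weight -/
def ew (M : ℝ) (n1 n2 h : O) : ℂ := cexp (-(sg * M * N h / (9 * (N n1 * N n2)) : ℝ))
/-- dual kernel -/
def Pq (M : ℝ) (n1 n2 : O) : ℂ :=
  ((Real.pi * M : ℝ) : ℂ) / (9 * kap * (Real.sqrt (N n1 * N n2) : ℝ)) *
    ∑' h : O, eQ h 3 * (conj (cub h n1 * gt n1) * (cub h n2 * gt n2)) * ew M n1 n2 h
/-- dual quadratic form restricted to frequencies with property `P` -/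
def QP (P : O → Prop) (M X : ℝ) (b : O → ℂ) : ℂ :=
  ∑ n1 ∈ SQ X, ∑ n2 ∈ SQ X, b n1 * conj (b n2) / (Real.sqrt (N n1 * N n2) : ℝ) *
    ∑' h : O, if P h then eQ h 3 * (conj (cub h n1) * cub h n2) * ew M n1 n2 h else 0

/-- rough coefficients in a shell -/
structure Ro (Y w : ℝ) (b : O → ℂ) : Prop where
  supp : ∀ n, b n ≠ 0 → SP n ∧ Y / 2 < N n ∧ N n ≤ Y ∧ ∀ p, Prime p → p ∣ n → w < N p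
  le : ∀ n, ‖b n‖ ≤ 1
def IsCu (h : O) : Prop := ∃ j, h = j ^ 3
/-- Siegel-Walfisz hypothesis -/
def SWH (Y R δ : ℝ) (b : O → ℂ) : Prop := ∀ h : O, h ≠ 0 → ¬ IsCu h → N h ≤ R → ∀ y : ℝ,
  ‖∑ n ∈ (SQ Y).filter (fun n => N n ≤ y), b n * conj (cub h n)‖ ≤ δ * Y
def Big (R : ℝ) (h : O) : Prop := h ≠ 0 ∧ ∀ h0 j : O, h = h0 * j ^ 3 → R < N h0
def Sb (Y : ℝ) (b : O → ℂ) : ℂ := ∑ n ∈ SQ Y, b n * ((N n ^ (-1 / 6 : ℝ) : ℝ) : ℂ)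
def nb (Y : ℝ) (b : O → ℂ) : ℝ := ∑ n ∈ SQ Y, ‖b n‖ ^ 2
def bg (b : O → ℂ) (n : O) : ℂ := b n * gt n
/-- the polynomial -/
def cg (Y : ℝ) (b : O → ℂ) (m : O) : ℂ := ∑ n ∈ SQ Y, b n * gt n * cub m n
def tau (m : O) : ℂ := K.cc m * ((N m ^ (-1 / 6 : ℝ) : ℝ) : ℂ)
def eta (w R δ : ℝ) : ℝ := w ^ (-1 / 3 : ℝ) + R ^ (-1 / 3 : ℝ) + R * (δ + w ^ (-1 / 2 : ℝ))
/-- error shape -/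
def Er (M Y w R δ : ℝ) (b : O → ℂ) : ℝ :=
  M * nb Y b + M ^ (2 / 3 : ℝ) * Y ^ (5 / 3 : ℝ) * eta w R δ + M ^ (1 / 3 : ℝ) * Y ^ 2 +
    M ^ (-1 / 3 : ℝ) * Y ^ (8 / 3 : ℝ)
def gF (X : ℝ) (a : O → ℂ) (f m : O) : ℝ :=
  if Prim m then ‖∑ n ∈ SQ X, sh X a f n * cub (f ^ 2) n * cub m n‖ ^ 2 else 0
def LP (P : O → Prop) (K Y B : ℝ) : Prop := ∀ (S T : Finset O) (a : O → ℂ),
  (∀ k ∈ S, P k ∧ N k ≤ K) → (∀ n ∈ T, SP n ∧ N n ≤ Y) →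
  ∑ k ∈ S, ‖∑ n ∈ T, a n * cub k n‖ ^ 2 ≤ B * ∑ n ∈ T, ‖a n‖ ^ 2
def c0 : ℝ := 2 * Real.pi * Real.Gamma (1 / 3) / (3 * Real.sqrt 3)
def c3 : ℝ := c0 / 3 * (9 / sg) ^ (1 / 3 : ℝ)
def c4 : ℝ := K.cstar ^ 2 * (2 * Real.pi / (9 * Real.sqrt 3)) * Real.Gamma (2 / 3)

/-! rows -/

def KQStmt : Prop := ∀ (M : ℝ) (g k1 k2 : O), 0 < M → Prim g → Prim k1 → Prim k2 →
  Squarefree (g * k1 * k2) →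
  (Tq M (g * k1) (g * k2) = ∑ e ∈ dv g, mu e * (cub e k1 * conj (cub e k2)) * Tq (M / N e) k1 k2) ∧
  Pq M (g * k1) (g * k2) = ∑ e ∈ dv g, ∑ f ∈ dv g, if e * f = g then
    mu e * (N f : ℂ) * (cub (e * f ^ 2) k1 * conj (cub (e * f ^ 2) k2)) *
      Tq (M / (N e * N f ^ 2)) k1 k2 else 0

def IDStmt : Prop := ∀ (M X : ℝ) (a : O → ℂ), 0 < M →
  (∀ f, f ≠ 0 → Summable fun m => gF X a f m * Real.exp (-(N f ^ 2 * N m / M))) ∧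
  ((∑ f ∈ SQ X, N f * ∑' m : O, gF X a f m * Real.exp (-(N f ^ 2 * N m / M)) : ℝ) : ℂ) =
    ∑ e ∈ SQ X, Fm (Pq M) X (sh X a e)

def STStmt : Prop := ∃ C : ℝ, 0 ≤ C ∧ ∀ (P : O → Prop) (M X Y α β γ : ℝ) (b : O → ℂ), 0 < M → 0 < Y →
  0 ≤ α → 0 ≤ β → 0 ≤ γ → (∀ h, P h → h ≠ 0) → Shell Y b →
  (∀ K : ℝ, 1 ≤ K → LP P K Y (α * K ^ (1 / 3 : ℝ) + β * K ^ (2 / 3 : ℝ) + γ * K ^ (4 / 3 : ℝ))) →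
  ‖QP P M X b‖ ≤ C / Y *
    (α * (Y ^ 2 / M) ^ (1 / 3 : ℝ) + β * (Y ^ 2 / M) ^ (2 / 3 : ℝ) + γ * (Y ^ 2 / M) ^ (4 / 3 : ℝ)) *
      nb X b

def LQStmt : Prop := ∃ C : ℝ, 0 ≤ C ∧ ∀ R K Y : ℝ, 1 ≤ R → 1 ≤ K → 1 ≤ Y →
  LP (Big R) K Y (C * Y * R ^ (-1 / 3 : ℝ) * K ^ (1 / 3 : ℝ) + C * Y ^ (2 / 3 : ℝ) * K ^ (2 / 3 : ℝ) +
    C * K ^ (4 / 3 : ℝ))

def C1Stmt : Prop := ∃ C : ℝ, 0 ≤ C ∧ ∀ c : ℝ, 0 < c →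
  (Summable fun j : O => Real.exp (-(c * N j ^ 3))) ∧
  |∑' j : O, (if j = 0 then 0 else Real.exp (-(c * N j ^ 3))) - c0 * c ^ (-1 / 3 : ℝ)| ≤ C ∧
  ∑' j : O, (if j = 0 then 0 else Real.exp (-(c * N j ^ 3))) ≤ C * c ^ (-1 / 3 : ℝ)

def NCStmt : Prop := ∃ C : ℝ, 0 ≤ C ∧ ∀ (Y w : ℝ) (T : Finset O), 0 ≤ Y → 1 ≤ w →
  (∀ n ∈ T, Prim n ∧ N n ≤ Y ∧ ∀ p, Prime p → p ∣ n → w < N p) →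
  (∀ c : ℝ, 0 < c → ∑' j : O, (if j = 0 then 0 else
    Real.exp (-(c * N j ^ 3)) * ((T.filter fun n => ¬ IsCoprime j n).card : ℝ)) ≤
      C * Y * c ^ (-1 / 3 : ℝ) * w ^ (-1 / 2 : ℝ)) ∧
  ∑ n ∈ T, |1 - K.EP n| ≤ C * Y * w ^ (-1 / 2 : ℝ)

def CUStmt : Prop := ∃ C : ℝ, 0 ≤ C ∧ ∀ (M Y w : ℝ) (b : O → ℂ), 0 < M → 2 ≤ Y → 1 ≤ w → Ro Y w b →
  ‖QP (fun h => h ≠ 0 ∧ IsCu h) M Y b - ((c3 * M ^ (-1 / 3 : ℝ) * ‖Sb Y b‖ ^ 2 : ℝ) : ℂ)‖ ≤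
    C * (nb Y b + M ^ (-1 / 3 : ℝ) * Y ^ (5 / 3 : ℝ) * w ^ (-1 / 2 : ℝ))

/-- Abel summation twice -/
def ABStmt : Prop := ∀ (T : Finset O) (z : O → ℂ) (Y D c : ℝ), 0 < Y → 0 ≤ D → 0 ≤ c →
  (∀ n ∈ T, z n ≠ 0 → Y / 2 < N n ∧ N n ≤ Y) →
  (∀ y : ℝ, ‖∑ n ∈ T.filter (fun n => N n ≤ y), z n‖ ≤ D) →
  ‖∑ n ∈ T, z n * (((Real.sqrt (N n))⁻¹ * Real.exp (-(c / N n)) : ℝ) : ℂ)‖ ≤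
    4 * D * (Real.sqrt (Y / 2))⁻¹ * Real.exp (-(c / Y))

def SWStmt : Prop := ∃ C : ℝ, 0 ≤ C ∧ ∀ (M Y w R δ : ℝ) (b : O → ℂ), 0 < M → 2 ≤ Y → 1 ≤ w → 1 ≤ R →
  0 ≤ δ → Ro Y w b → SWH Y R δ b →
  ‖QP (fun h => h ≠ 0 ∧ ¬ IsCu h ∧ ¬ Big R h) M Y b‖ ≤
    C * (M ^ (-1 / 3 : ℝ) * Y ^ (5 / 3 : ℝ) * (R * (δ + w ^ (-1 / 2 : ℝ))))

/-- the form in terms of `QP` -/
def FQStmt : Prop := ∀ (M X : ℝ) (a : O → ℂ), 0 < M →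
  Fm (Pq M) X a = ((2 * Real.pi / (9 * Real.sqrt 3) * M : ℝ) : ℂ) *
    ((if (1 : O) ∈ SQ X then ((‖a 1‖ ^ 2 : ℝ) : ℂ) else 0) +
      QP (· ≠ 0) M X (fun n => a n * conj (gt n))) ∧
  ∀ (R : ℝ) (b : O → ℂ), 1 ≤ R → QP (· ≠ 0) M X b = QP (fun h => h ≠ 0 ∧ IsCu h) M X b +
    QP (fun h => h ≠ 0 ∧ ¬ IsCu h ∧ ¬ Big R h) M X b + QP (Big R) M X b

def EEStmt : Prop := ∃ C : ℝ, 0 ≤ C ∧ ∀ (M Y w : ℝ) (b : O → ℂ), 0 < M → 2 ≤ Y → 1 ≤ w → Ro Y w b →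
  ∑ e ∈ (SQ Y).erase 1, ‖Fm (Pq M) Y (sh Y (bg b) e)‖ ≤
    C * (M * nb Y b + M ^ (2 / 3 : ℝ) * Y ^ (5 / 3 : ℝ) * w ^ (-1 / 3 : ℝ) + M ^ (1 / 3 : ℝ) * Y ^ 2 +
      M ^ (-1 / 3 : ℝ) * Y ^ (8 / 3 : ℝ))

def CSStmt : Prop := 2 * Real.pi / (9 * Real.sqrt 3) * c3 = c4 ∧
  c4 * (Real.sqrt Real.pi * Real.exp (25 / 144) / Real.Gamma (2 / 3)) = K.cstar ^ 2 * K.rho0 ∧
  0 < K.cstar ∧ 0 < K.rho0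

def P1Stmt : Prop := ∃ C : ℝ, 0 ≤ C ∧ ∀ (M Y w R δ : ℝ) (b : O → ℂ), 0 < M → 2 ≤ Y → 1 ≤ w → 1 ≤ R →
  0 ≤ δ → Ro Y w b → SWH Y R δ b →
  ‖∑ e ∈ SQ Y, Fm (Pq M) Y (sh Y (bg b) e) - ((c4 * ‖Sb Y b‖ ^ 2 * M ^ (2 / 3 : ℝ) : ℝ) : ℂ)‖ ≤
    C * Er M Y w R δ b

/-- the log-normal weight as a signed mixture of exponentials -/
def REPStmt : Prop := ∃ k : ℝ → ℝ, Measurable k ∧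
  (∀ s : ℝ, MeasureTheory.IntegrableOn (fun y => k y * y ^ s) (Set.Ioi 0)) ∧
  (∀ x : ℝ, 0 < x → ∫ y in Set.Ioi (0 : ℝ), k y * Real.exp (-(y * x)) = x ^ (1 / 6 : ℝ) * VV 1 x) ∧
  ∫ y in Set.Ioi (0 : ℝ), k y * y ^ (-2 / 3 : ℝ) =
    Real.sqrt Real.pi * Real.exp (25 / 144) / Real.Gamma (2 / 3)

def TRDStmt : Prop := ∃ C : ℝ, 0 ≤ C ∧ ∀ (ι : Type) [Countable ι] (g x : ι → ℝ) (α B1 B2 B3 B4 M : ℝ),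
  0 < M → (∀ i, 0 ≤ g i) → (∀ i, g i ≠ 0 → 0 < x i) → 0 ≤ B1 → 0 ≤ B2 → 0 ≤ B3 → 0 ≤ B4 →
  (∀ Z : ℝ, 0 < Z → (Summable fun i => g i * Real.exp (-(x i / Z))) ∧
    |∑' i, g i * Real.exp (-(x i / Z)) - α * Z ^ (2 / 3 : ℝ)| ≤
      B1 * Z + B2 * Z ^ (2 / 3 : ℝ) + B3 * Z ^ (1 / 3 : ℝ) + B4 * Z ^ (-1 / 3 : ℝ)) →
  (Summable fun i => g i * (x i ^ (1 / 6 : ℝ) * VV M (x i))) ∧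
  ∑' i, g i * (x i ^ (1 / 6 : ℝ) * VV M (x i)) ≤
    α * (Real.sqrt Real.pi * Real.exp (25 / 144) / Real.Gamma (2 / 3)) * M ^ (5 / 6 : ℝ) +
      C * M ^ (1 / 6 : ℝ) *
        (B1 * M + B2 * M ^ (2 / 3 : ℝ) + B3 * M ^ (1 / 3 : ℝ) + B4 * M ^ (-1 / 3 : ℝ))

def D1Stmt : Prop := ∃ C : ℝ, 0 ≤ C ∧ ∀ (M Y w R δ : ℝ) (b : O → ℂ), 0 < M → 2 ≤ Y → 1 ≤ w → 1 ≤ R →
  0 ≤ δ → Ro Y w b → SWH Y R δ b →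
  (Summable fun m => if Prim m then ‖cg Y b m‖ ^ 2 * (N m ^ (1 / 6 : ℝ) * VV M (N m)) else 0) ∧
  ∑' m, (if Prim m then ‖cg Y b m‖ ^ 2 * (N m ^ (1 / 6 : ℝ) * VV M (N m)) else 0) ≤
    K.cstar ^ 2 * K.rho0 * M ^ (5 / 6 : ℝ) * ‖Sb Y b‖ ^ 2 + C * M ^ (1 / 6 : ℝ) * Er M Y w R δ b

def D2Stmt : Prop := ∃ C : ℝ, 0 ≤ C ∧ ∀ (M Y w : ℝ) (b : O → ℂ), 2 ≤ Y → Y ≤ M → 1 ≤ w → Ro Y w b →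
  ‖∑ n ∈ SQ Y, b n * gt n * K.T0 n M - ((K.cstar * K.rho0 * M ^ (5 / 6 : ℝ) : ℝ) : ℂ) * Sb Y b‖ ≤
    C * M ^ (5 / 6 : ℝ) * Y ^ (5 / 6 : ℝ) * (w ^ (-1 / 2 : ℝ) + M ^ (-1 / 8 : ℝ))

/-- END statement of the branch -/
def VarStmt : Prop := ∃ C : ℝ, 0 ≤ C ∧ ∀ (M Y w R δ : ℝ) (b : O → ℂ) (S : Finset O), 2 ≤ Y → Y ≤ M →
  1 ≤ w → 1 ≤ R → 0 ≤ δ → Ro Y w b → SWH Y R δ b → (∀ m ∈ S, Prim m ∧ M / 2 < N m ∧ N m ≤ M) →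
  ∑ m ∈ S, ‖cg Y b m - (K.cstar : ℂ) * conj (tau m) * Sb Y b‖ ^ 2 ≤
    C * (M * nb Y b + (M * Y) ^ (2 / 3 : ℝ) * Y *
      (eta w R δ + (Y / M) ^ (1 / 3 : ℝ) + M ^ (-1 / 8 : ℝ)))

end Vale.Agent.P006.D
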