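import Mathlib

/-! Partial summation: power weights and removal of the logarithm. -/

open MeasureTheory Set Filter Topology

namespace Vale.Agent.P006

namespace Pit1M

lemma err {C : ℝ → ℝ} (hm : Monotone C) (h0 : ∀ t, 0 ≤ C t)
    (h : Tendsto (fun x => C x / x) atTop (𝓝 1)) {ε : ℝ} (hε : 0 < ε) :
    ∃ K, 0 ≤ K ∧ ∀ t, 1 ≤ t → |C t - t| ≤ ε * t + K := by
  obtain ⟨T, hT⟩ := eventually_atTop.1 (Metric.tendsto_nhds.1 h ε hε)
  refine ⟨C T + |T|, add_nonneg (h0 T) (abs_nonneg T), fun t ht => ?_⟩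
  have ht0 : 0 < t := by linarith
  rcases le_total T t with h1 | h1
  · have h2 := hT t h1
    rw [Real.dist_eq] at h2
    have e : C t - t = (C t / t - 1) * t := by field_simp
    rw [e, abs_mul, abs_of_pos ht0]
    have := mul_le_mul_of_nonneg_right h2.le ht0.le
    linarith [h0 T, abs_nonneg T]
  · have h2 := hm h1
    have h3 := le_abs_self T
    have h4 := h0 t
    have : 0 ≤ ε * t := by positivity
    rw [abs_le]
    constructor <;> linarith

theorem abel (c : ℕ → ℝ) (hc0 : c 0 = 0) (hc : ∀ n, 0 ≤ c n)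
    (h : Tendsto (fun x : ℝ => (∑ k ∈ Finset.Icc 0 ⌊x⌋₊, c k) / x) atTop (𝓝 1))
    {σ : ℝ} (hσ0 : 0 ≤ σ) (hσ : σ < 1) :
    Tendsto (fun x : ℝ => (∑ k ∈ Finset.Icc 0 ⌊x⌋₊, (k : ℝ) ^ (-σ) * c k) / x ^ (1 - σ)) atTop
      (𝓝 (1 / (1 - σ))) := by
  rcases hσ0.eq_or_lt with rfl | hσ0
  · simpa using h
  set C : ℝ → ℝ := fun x => ∑ k ∈ Finset.Icc 0 ⌊x⌋₊, c k with hC
  have hm : Monotone C := fun _ _ h =>
    Finset.sum_le_sum_of_subset_of_nonneg (Finset.Icc_subset_Icc_right (Nat.floor_le_floor h))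
      fun k _ _ => hc k
  have h0 : ∀ t, 0 ≤ C t := fun t => Finset.sum_nonneg fun k _ => hc k
  have h1σ : 0 < 1 - σ := by linarith
  have key : ∀ ε K : ℝ, 0 < ε → 0 ≤ K → (∀ t, 1 ≤ t → |C t - t| ≤ ε * t + K) → ∀ x, 1 ≤ x →
      |∑ k ∈ Finset.Icc 0 ⌊x⌋₊, (k : ℝ) ^ (-σ) * c k - x ^ (1 - σ) / (1 - σ)| ≤
        ε * (x ^ (1 - σ) / (1 - σ)) + (K + σ / (1 - σ)) := by
    intro ε K hε hK hE x hx
    have hd : ∀ t : ℝ, 1 ≤ t → HasDerivAt (fun t : ℝ => t ^ (-σ)) (-σ * t ^ (-σ - 1)) t :=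
      fun t ht => Real.hasDerivAt_rpow_const (Or.inl (by linarith))
    have cg : ∀ r : ℝ, ContinuousOn (fun t : ℝ => t ^ r) (Icc 1 x) := fun r =>
      continuousOn_id.rpow_const fun t ht => Or.inl (by have := ht.1; simp only [id]; linarith)
    have ig : ∀ r : ℝ, IntegrableOn (fun t : ℝ => t ^ r) (Ioc 1 x) := fun r =>
      ((cg r).integrableOn_compact isCompact_Icc).mono_set Ioc_subset_Icc_self
    have hA := sum_mul_eq_sub_integral_mul₀ (f := fun t : ℝ => t ^ (-σ)) c hc0 x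
      (fun t ht => (hd t ht.1).differentiableAt)
      (IntegrableOn.congr_fun (f := fun t : ℝ => -σ * t ^ (-σ - 1))
        (((cg (-σ - 1)).integrableOn_compact isCompact_Icc).const_mul (-σ))
        (fun t ht => ((hd t ht.1).deriv).symm) measurableSet_Icc)
    have e1 : ∫ t in Ioc 1 x, deriv (fun t : ℝ => t ^ (-σ)) t * C t =
        -σ * ∫ t in Ioc 1 x, t ^ (-σ - 1) * C t := by
      rw [← integral_const_mul]
      refine setIntegral_congr_fun measurableSet_Ioc fun t ht => ?_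
      simp only [(hd t ht.1.le).deriv]
      ring
    have i1 : ∫ t in Ioc 1 x, t ^ (-σ) = (x ^ (1 - σ) - 1) / (1 - σ) := by
      rw [← intervalIntegral.integral_of_le hx, integral_rpow (Or.inl (by linarith))]
      simp only [Real.one_rpow]
      rw [show -σ + 1 = 1 - σ by ring]
    have i2 : ∫ t in Ioc 1 x, t ^ (-σ - 1) = (x ^ (-σ) - 1) / (-σ) := by
      rw [← intervalIntegral.integral_of_le hx, integral_rpow (Or.inr ⟨by linarith, by
        rw [uIcc_of_le hx]; intro h; linarith [h.1]⟩)]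
      simp only [Real.one_rpow]
      rw [show -σ - 1 + 1 = -σ by ring]
    have iC : IntegrableOn (fun t : ℝ => t ^ (-σ - 1) * C t) (Ioc 1 x) := by
      refine Integrable.mul_bdd (c := C x) (ig _) hm.measurable.aestronglyMeasurable ?_
      filter_upwards [ae_restrict_mem measurableSet_Ioc] with t ht
      rw [Real.norm_of_nonneg (h0 t)]
      exact hm ht.2
    have pw : ∀ t : ℝ, 1 ≤ t → t ^ (-σ - 1) * t = t ^ (-σ) := fun t ht => by
      rw [Real.rpow_sub_one (by linarith)]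
      field_simp
    have b1 : |(∫ t in Ioc 1 x, t ^ (-σ - 1) * C t) - ∫ t in Ioc 1 x, t ^ (-σ)| ≤
        ε * (∫ t in Ioc 1 x, t ^ (-σ)) + K * ∫ t in Ioc 1 x, t ^ (-σ - 1) := by
      rw [← integral_sub iC (ig _), ← integral_const_mul, ← integral_const_mul,
        ← integral_add ((ig _).const_mul _) ((ig _).const_mul _)]
      refine (abs_integral_le_integral_abs).trans (setIntegral_mono_on (iC.sub (ig _)).abs
        (((ig _).const_mul _).add ((ig _).const_mul _)) measurableSet_Ioc fun t ht => ?_)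
      have hp : 0 ≤ t ^ (-σ - 1) := Real.rpow_nonneg (by linarith [ht.1]) _
      rw [← pw t ht.1.le, ← mul_sub, abs_mul, abs_of_nonneg hp]
      have := mul_le_mul_of_nonneg_left (hE t ht.1.le) hp
      linarith
    rw [i1, i2] at b1
    have hx0 : 0 < x := by linarith
    have px : x ^ (-σ) * x = x ^ (1 - σ) := by
      rw [show 1 - σ = -σ + 1 by ring, Real.rpow_add_one hx0.ne']
    have hp : 0 ≤ x ^ (-σ) := Real.rpow_nonneg hx0.le _
    have b2 : |x ^ (-σ) * C x - x ^ (1 - σ)| ≤ ε * x ^ (1 - σ) + K * x ^ (-σ) := by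
      rw [← px, ← mul_sub, abs_mul, abs_of_nonneg hp]
      have := mul_le_mul_of_nonneg_left (hE x hx) hp
      linarith
    have hA' : ∑ k ∈ Finset.Icc 0 ⌊x⌋₊, (k : ℝ) ^ (-σ) * c k =
        x ^ (-σ) * C x + σ * ∫ t in Ioc 1 x, t ^ (-σ - 1) * C t := by
      rw [hA]
      change _ - ∫ t in Ioc 1 x, deriv (fun t : ℝ => t ^ (-σ)) t * C t = _
      rw [e1]
      ring
    rw [hA']
    set J := ∫ t in Ioc 1 x, t ^ (-σ - 1) * C t
    set P := x ^ (1 - σ)
    set Q := x ^ (-σ)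
    have b3 := mul_le_mul_of_nonneg_left b1 hσ0.le
    have e3 : σ * (ε * ((P - 1) / (1 - σ)) + K * ((Q - 1) / -σ)) =
        ε * (σ * (P / (1 - σ))) - ε * (σ / (1 - σ)) + K * (1 - Q) := by
      field_simp
      ring
    have e4 : P / (1 - σ) = P + σ * (P / (1 - σ)) := by
      field_simp
      ring
    have e5 : σ * ((P - 1) / (1 - σ)) = σ * (P / (1 - σ)) - σ / (1 - σ) := by
      field_simp
    have b4 : |σ * J - σ * ((P - 1) / (1 - σ))| ≤
        ε * (σ * (P / (1 - σ))) - ε * (σ / (1 - σ)) + K * (1 - Q) := by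
      rw [← mul_sub, abs_mul, abs_of_pos hσ0, ← e3]
      exact b3
    have b5 : 0 ≤ σ / (1 - σ) := by positivity
    have b6 : 0 ≤ ε * (σ / (1 - σ)) := by positivity
    have e6 : ε * (P / (1 - σ)) = ε * P + ε * (σ * (P / (1 - σ))) := by
      rw [← mul_add, ← e4]
    rw [e5] at b4
    rw [abs_le] at b2 b4 ⊢
    constructor <;> linarith [b2.1, b2.2, b4.1, b4.2]
  rw [Metric.tendsto_nhds]
  intro η hη
  obtain ⟨K, hK, hE⟩ := err hm h0 h (ε := η / 2 * (1 - σ)) (by positivity)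
  have ht : Tendsto (fun x : ℝ => (K + σ / (1 - σ)) / x ^ (1 - σ)) atTop (𝓝 0) :=
    (tendsto_rpow_atTop h1σ).const_div_atTop _
  filter_upwards [ht.eventually (gt_mem_nhds (half_pos hη)), eventually_ge_atTop 1] with x h1 hx
  have h2 := key _ K (by positivity) hK hE x hx
  have hP : 0 < x ^ (1 - σ) := Real.rpow_pos_of_pos (by linarith) _
  rw [Real.dist_eq]
  have e : (∑ k ∈ Finset.Icc 0 ⌊x⌋₊, (k : ℝ) ^ (-σ) * c k) / x ^ (1 - σ) - 1 / (1 - σ) =
      (∑ k ∈ Finset.Icc 0 ⌊x⌋₊, (k : ℝ) ^ (-σ) * c k - x ^ (1 - σ) / (1 - σ)) / x ^ (1 - σ) := by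
    field_simp
  rw [e, abs_div, abs_of_pos hP, div_lt_iff₀ hP]
  rw [div_lt_iff₀ hP] at h1
  have e2 : η / 2 * (1 - σ) * (x ^ (1 - σ) / (1 - σ)) = η / 2 * x ^ (1 - σ) := by
    field_simp
  linarith

theorem unlog (a : ℕ → ℝ) (ha : ∀ n, 0 ≤ a n) (h0 : a 0 = 0) (h1 : a 1 = 0) {ρ L : ℝ}
    (hρ : 0 < ρ)
    (h : Tendsto (fun x : ℝ => (∑ k ∈ Finset.Icc 0 ⌊x⌋₊, a k * Real.log k) / x ^ ρ) atTop (𝓝 L)) :
    Tendsto (fun x : ℝ => (∑ k ∈ Finset.Icc 0 ⌊x⌋₊, a k) / (x ^ ρ / Real.log x)) atTop (𝓝 L) := by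
  set S : ℝ → ℝ := fun x => ∑ k ∈ Finset.Icc 0 ⌊x⌋₊, a k * Real.log k with hS
  set T : ℝ → ℝ := fun x => ∑ k ∈ Finset.Icc 0 ⌊x⌋₊, a k with hT
  have lo : ∀ x : ℝ, 1 < x → S x / x ^ ρ ≤ T x / (x ^ ρ / Real.log x) := by
    intro x hx
    have hP : 0 < x ^ ρ := Real.rpow_pos_of_pos (by linarith) _
    rw [div_div_eq_mul_div]
    refine div_le_div_of_nonneg_right ?_ hP.le
    simp only [hS, hT, Finset.sum_mul]
    refine Finset.sum_le_sum fun k hk => ?_
    rcases Nat.eq_zero_or_pos k with rfl | hk0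
    · simp [h0]
    refine mul_le_mul_of_nonneg_left (Real.log_le_log (by exact_mod_cast hk0) ?_) (ha k)
    exact (Nat.le_floor_iff (by linarith)).1 (Finset.mem_Icc.1 hk).2
  have up : ∀ θ : ℝ, 0 < θ → θ < 1 → ∀ x : ℝ, 1 < x → T x / (x ^ ρ / Real.log x) ≤
      S (x ^ θ) / (x ^ θ) ^ ρ * (Real.log x / x ^ ((1 - θ) * ρ)) / Real.log 2 +
        S x / x ^ ρ / θ := by
    intro θ hθ hθ1 x hx
    have hx0 : 0 < x := by linarith
    have hP : 0 < x ^ ρ := Real.rpow_pos_of_pos hx0 _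
    have hl : 0 < Real.log x := Real.log_pos hx
    have l2 : 0 < Real.log 2 := Real.log_pos (by norm_num)
    have hy : 0 < x ^ θ := Real.rpow_pos_of_pos hx0 _
    have hyx : x ^ θ ≤ x := by
      simpa using Real.rpow_le_rpow_of_exponent_le hx.le hθ1.le
    have e1 : (x ^ θ) ^ ρ * x ^ ((1 - θ) * ρ) = x ^ ρ := by
      rw [← Real.rpow_mul hx0.le, ← Real.rpow_add hx0]
      congr 1
      ring
    have hb : T x ≤ S (x ^ θ) / Real.log 2 + S x / (θ * Real.log x) := by
      have e2 : S (x ^ θ) = ∑ k ∈ Finset.Icc 0 ⌊x⌋₊,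
          if k ≤ ⌊x ^ θ⌋₊ then a k * Real.log k else 0 := by
        rw [← Finset.sum_filter]
        refine Finset.sum_congr ?_ fun _ _ => rfl
        ext k
        have := Nat.floor_le_floor hyx
        simp only [Finset.mem_filter, Finset.mem_Icc]
        omega
      rw [e2]
      simp only [hS, hT, Finset.sum_div, ← Finset.sum_add_distrib]
      refine Finset.sum_le_sum fun k _ => ?_
      have hk0 : 0 ≤ a k * Real.log k := mul_nonneg (ha k) (Real.log_natCast_nonneg k)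
      split_ifs with hk
      · have : a k ≤ a k * Real.log k / Real.log 2 := by
          rcases Nat.lt_or_ge k 2 with h2 | h2
          · interval_cases k <;> simp [h0, h1]
          · rw [le_div_iff₀ l2]
            exact mul_le_mul_of_nonneg_left (Real.log_le_log (by norm_num) (by exact_mod_cast h2))
              (ha k)
        have h3 : 0 ≤ a k * Real.log k / (θ * Real.log x) := by positivity
        linarith
      · rw [zero_div, zero_add, le_div_iff₀ (by positivity)]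
        refine mul_le_mul_of_nonneg_left ?_ (ha k)
        rw [← Real.log_rpow hx0]
        exact Real.log_le_log hy (Nat.lt_of_floor_lt (not_le.1 hk)).le
    have hQ : 0 < x ^ ((1 - θ) * ρ) := Real.rpow_pos_of_pos hx0 _
    have hR : 0 < (x ^ θ) ^ ρ := Real.rpow_pos_of_pos hy _
    calc T x / (x ^ ρ / Real.log x) = T x * (Real.log x / x ^ ρ) := by field_simp
      _ ≤ (S (x ^ θ) / Real.log 2 + S x / (θ * Real.log x)) * (Real.log x / x ^ ρ) := by gcongr
      _ = _ := by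
        rw [add_mul]
        congr 1
        · rw [← e1]
          field_simp
        · field_simp
  have lim : ∀ θ : ℝ, 0 < θ → θ < 1 → Tendsto (fun x : ℝ =>
      S (x ^ θ) / (x ^ θ) ^ ρ * (Real.log x / x ^ ((1 - θ) * ρ)) / Real.log 2 +
        S x / x ^ ρ / θ) atTop (𝓝 (L / θ)) := by
    intro θ hθ hθ1
    have t1 := h.comp (tendsto_rpow_atTop hθ)
    have t2 := (isLittleO_log_rpow_atTop (r := (1 - θ) * ρ)
      (mul_pos (by linarith) hρ)).tendsto_div_nhds_zero
    have := ((t1.mul t2).div_const (Real.log 2)).add (h.div_const θ)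
    simpa using this
  rw [tendsto_order]
  refine ⟨fun b hb => ?_, fun b hb => ?_⟩
  · filter_upwards [h.eventually (lt_mem_nhds hb), eventually_gt_atTop 1] with x h2 hx
    exact h2.trans_le (lo x hx)
  · have hc : ContinuousAt (fun θ : ℝ => L / θ) 1 := continuousAt_const.div continuousAt_id one_ne_zero
    have h2 : ∀ᶠ θ in 𝓝 (1 : ℝ), L / θ < b := hc.eventually (gt_mem_nhds (by simpa using hb))
    have h3 : ∀ᶠ θ in 𝓝[<] (1 : ℝ), (L / θ < b ∧ 0 < θ) ∧ θ < 1 :=
      ((h2.and (lt_mem_nhds one_pos)).filter_mono nhdsWithin_le_nhds).and self_mem_nhdsWithin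
    obtain ⟨θ, ⟨a1, a2⟩, a3⟩ := h3.exists
    filter_upwards [(lim θ a2 a3).eventually (gt_mem_nhds a1), eventually_gt_atTop 1] with x h4 hx
    exact (up θ a2 a3 x hx).trans_lt h4

end Pit1M

end Vale.Agent.P006
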