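import Vale.Agent.P006.Pit0
import Vale.Agent.P006.Pit1
import Vale.Agent.P026.M.ZK

/-! The prime ideal theorem for the primary primes of the Eisenstein integers. -/

open Set Filter Topology Asymptotics
open Vale.Agent.P026

namespace Vale.Agent.P006

namespace PitM

/-- number of primary primes of norm `k` -/
noncomputable def cnt (k : ℕ) : ℕ := {p : O | Prime p ∧ Prim p ∧ Nn p = k}.ncard

lemma eq_of_dvd (hB : Bas) {p q : O} (hp : Prime p) (hp' : Prim p) (hq : Prime q) (hq' : Prim q)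
    (h : p ∣ q) : p = q := hB.b2.uniq _ _ hp' hq' (hp.associated_of_dvd hq h)

lemma cnt_prime (hB : Bas) {l : ℕ} (hl : l.Prime) : cnt l = if l % 3 = 1 then 2 else 0 := by
  split_ifs with h
  · have h3 : l ≠ 3 := by rintro rfl; omega
    rcases ZKM.cls hB l hl h3 with ⟨-, p, q, hp, hp', hq, hq', hpq, np, nq, hd⟩ | ⟨h2, -⟩
    · have e : {r : O | Prime r ∧ Prim r ∧ Nn r = l} = {p, q} := by
        ext r
        constructor
        · rintro ⟨hr, hr', nr⟩
          rcases (hd r).1 (nr ▸ dvd_rfl) with h1 | h1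
          · exact Or.inl (eq_of_dvd hB hp hp' hr hr' h1).symm
          · exact Or.inr (eq_of_dvd hB hq hq' hr hr' h1).symm
        · rintro (rfl | rfl)
          · exact ⟨hp, hp', np⟩
          · exact ⟨hq, hq', nq⟩
      rw [cnt, e, ncard_pair fun h : p = q => hpq (dvd_of_eq h)]
    · omega
  · have e : {r : O | Prime r ∧ Prim r ∧ Nn r = l} = ∅ := by
      rw [eq_empty_iff_forall_notMem]
      rintro r ⟨-, hr', nr⟩
      exact h (nr ▸ hB.b2.N_mod r hr')
    rw [cnt, e, ncard_empty]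

lemma cnt_np (hB : Bas) {k : ℕ} (hk : ¬ k.Prime) :
    cnt k = 0 ∨ (cnt k = 1 ∧ ∃ l : ℕ, l.Prime ∧ k = l ^ 2) := by
  rcases eq_empty_or_nonempty {r : O | Prime r ∧ Prim r ∧ Nn r = k} with e | ⟨r, hr, hr', nr⟩
  · exact Or.inl (by rw [cnt, e, ncard_empty])
  obtain ⟨l, hl, -, h | ⟨h, -⟩⟩ := hB.b5.char r hr
  · exact absurd (nr ▸ h ▸ hl) hk
  have hkl : k = l ^ 2 := nr ▸ h
  have h3 : l ≠ 3 := by
    rintro rfl
    have := hB.b2.N_mod r hr'
    omega
  refine Or.inr ⟨?_, l, hl, hkl⟩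
  have hne : l ≠ l ^ 2 := fun h => by nlinarith [hl.two_le]
  have hd2 : ∀ s : O, Nn s = k → l ∣ Nn s := fun s hs => by
    rw [hs, hkl]; exact dvd_pow_self l two_ne_zero
  rcases ZKM.cls hB l hl h3 with ⟨-, p, q, hp, hp', hq, hq', -, np, nq, hd⟩ | ⟨-, p, hp, hp', np, hd⟩
  · rcases (hd r).1 (hd2 r nr) with h1 | h1
    · exact absurd (by rw [← h, ← eq_of_dvd hB hp hp' hr hr' h1, np]) hne
    · exact absurd (by rw [← h, ← eq_of_dvd hB hq hq' hr hr' h1, nq]) hne
  · have e : {r : O | Prime r ∧ Prim r ∧ Nn r = k} = {p} := by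
      ext s
      constructor
      · rintro ⟨hs, hs', ns⟩
        exact (eq_of_dvd hB hp hp' hs hs' ((hd s).1 (hd2 s ns))).symm
      · rintro rfl
        exact ⟨hp, hp', np.trans hkl.symm⟩
    rw [cnt, e, ncard_singleton]

lemma cnt_le (hB : Bas) (k : ℕ) : cnt k ≤ 2 := by
  by_cases hk : k.Prime
  · rw [cnt_prime hB hk]; split_ifs <;> omega
  · rcases cnt_np hB hk with h | ⟨h, -⟩ <;> omega

lemma cnt_zero (hB : Bas) : cnt 0 = 0 := by
  rcases cnt_np hB Nat.not_prime_zero with h | ⟨-, l, hl, h⟩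
  · exact h
  · exact absurd h (pow_pos hl.pos 2).ne

lemma cnt_one (hB : Bas) : cnt 1 = 0 := by
  rcases cnt_np hB Nat.not_prime_one with h | ⟨-, l, hl, h⟩
  · exact h
  · nlinarith [hl.two_le]

lemma diff (hB : Bas) (k : ℕ) : |cnt k * Real.log k - Pit0M.vm k| ≤
    2 * (ArithmeticFunction.vonMangoldt k - if k.Prime then Real.log k else 0) := by
  by_cases hk : k.Prime
  · rw [if_pos hk, ArithmeticFunction.vonMangoldt_apply_prime hk, cnt_prime hB hk]
    have e : ((k : ZMod 3) = 1) ↔ k % 3 = 1 := by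
      have := (ZMod.natCast_eq_natCast_iff' k 1 3)
      simpa using this
    unfold Pit0M.vm ArithmeticFunction.vonMangoldt.residueClass
    by_cases h : k % 3 = 1
    · rw [indicator_of_mem (by exact e.2 h), if_pos h, ArithmeticFunction.vonMangoldt_apply_prime hk]
      simp
    · rw [indicator_of_notMem (by exact fun h' => h (e.1 h')), if_neg h]
      simp
  · rw [if_neg hk, sub_zero]
    have h1 := Pit0M.vm_nonneg k
    have h2 : Pit0M.vm k ≤ 2 * ArithmeticFunction.vonMangoldt k :=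
      mul_le_mul_of_nonneg_left (ArithmeticFunction.vonMangoldt.residueClass_le _ k) (by norm_num)
    have h3 : 0 ≤ (cnt k : ℝ) * Real.log k :=
      mul_nonneg (Nat.cast_nonneg _) (Real.log_natCast_nonneg k)
    have h4 : (cnt k : ℝ) * Real.log k ≤ 2 * ArithmeticFunction.vonMangoldt k := by
      rcases cnt_np hB hk with h | ⟨h, l, hl, rfl⟩
      · rw [h]
        simp
      · rw [h, ArithmeticFunction.vonMangoldt_apply_pow two_ne_zero,
          ArithmeticFunction.vonMangoldt_apply_prime hl]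
        simp
    rw [abs_le]
    constructor <;> linarith

lemma theta (hB : Bas) : Tendsto (fun x : ℝ =>
    (∑ k ∈ Finset.Icc 0 ⌊x⌋₊, (cnt k : ℝ) * Real.log k) / x) atTop (𝓝 1) := by
  have h1 : (Chebyshev.psi - Chebyshev.theta) =o[atTop] fun x : ℝ => x := by
    refine Chebyshev.isBigO_psi_sub_theta_sqrt.trans_isLittleO ?_
    refine (isLittleO_iff_tendsto' (by simp +contextual)).2 ?_
    refine Tendsto.congr' (f₁ := fun x => (Real.sqrt x)⁻¹) ?_
      Real.tendsto_sqrt_atTop.inv_tendsto_atTop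
    filter_upwards with x
    rw [Real.sqrt_div_self]
  have h2 : (fun x : ℝ => ∑ k ∈ Finset.Icc 0 ⌊x⌋₊, (cnt k : ℝ) * Real.log k - Pit0M.ps3 x)
      =O[atTop] (Chebyshev.psi - Chebyshev.theta) := by
    refine IsBigO.of_bound 2 (Eventually.of_forall fun x => ?_)
    have e0 : ∑ k ∈ Finset.Icc 0 ⌊x⌋₊, (cnt k : ℝ) * Real.log k =
        ∑ k ∈ Finset.Ioc 0 ⌊x⌋₊, (cnt k : ℝ) * Real.log k := by
      rw [Finset.Icc_eq_cons_Ioc (Nat.zero_le _), Finset.sum_cons]
      simp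
    have e1 : Pit0M.ps3 x = ∑ k ∈ Finset.Ioc 0 ⌊x⌋₊, Pit0M.vm k := by
      unfold Pit0M.ps3
      congr 1
    have e2 : (Chebyshev.psi - Chebyshev.theta) x = ∑ k ∈ Finset.Ioc 0 ⌊x⌋₊,
        (ArithmeticFunction.vonMangoldt k - if k.Prime then Real.log k else 0) := by
      rw [Finset.sum_sub_distrib, ← Finset.sum_filter]
      rfl
    rw [e0, e1, e2, ← Finset.sum_sub_distrib, Real.norm_eq_abs, Real.norm_eq_abs]
    refine (Finset.abs_sum_le_sum_abs _ _).trans ((Finset.sum_le_sum fun k _ => diff hB k).trans ?_)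
    rw [← Finset.mul_sum]
    exact mul_le_mul_of_nonneg_left (le_abs_self _) (by norm_num)
  have h3 := ps3_pnt.add (h2.trans_isLittleO h1).tendsto_div_nhds_zero
  rw [add_zero] at h3
  refine h3.congr fun x => ?_
  ring

lemma sum_eq {s : Finset O} {X : ℝ} (hX : 0 ≤ X) (hs : ∀ p, p ∈ s ↔ Prime p ∧ Prim p ∧ N p ≤ X)
    (F : ℕ → ℝ) : ∑ p ∈ s, F (Nn p) = ∑ k ∈ Finset.Icc 0 ⌊X⌋₊, (cnt k : ℝ) * F k := by
  classical
  rw [← Finset.sum_fiberwise_of_maps_to (g := Nn) (t := Finset.Icc 0 ⌊X⌋₊) (fun p hp =>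
    Finset.mem_Icc.2 ⟨Nat.zero_le _, Nat.le_floor ((hs p).1 hp).2.2⟩)]
  refine Finset.sum_congr rfl fun k hk => ?_
  rw [Finset.sum_congr rfl (g := fun _ => F k) (fun p hp => by rw [(Finset.mem_filter.1 hp).2]),
    Finset.sum_const, nsmul_eq_mul]
  congr 2
  rw [cnt, ← ncard_coe_finset]
  congr 1
  ext p
  simp only [Finset.coe_filter, mem_ofPred_eq, hs]
  constructor
  · rintro ⟨⟨a, b, -⟩, c⟩
    exact ⟨a, b, c⟩
  · rintro ⟨a, b, c⟩
    refine ⟨⟨a, b, ?_⟩, c⟩
    rw [N, c]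
    exact (Nat.le_floor_iff hX).1 (Finset.mem_Icc.1 hk).2

end PitM

open PitM

/-- Prime ideal theorem with logarithmic weight and a power weight. -/
theorem pit_log (hB : Bas) (s : ℝ → Finset O)
    (hs : ∀ X p, p ∈ s X ↔ Prime p ∧ Prim p ∧ N p ≤ X) {σ : ℝ} (h0 : 0 ≤ σ) (h1 : σ < 1) :
    Tendsto (fun X => (∑ p ∈ s X, N p ^ (-σ) * Real.log (N p)) / X ^ (1 - σ)) atTop
      (𝓝 (1 / (1 - σ))) := by
  refine (Pit1M.abel (fun k => (cnt k : ℝ) * Real.log k) (by simp)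
    (fun k => mul_nonneg (Nat.cast_nonneg _) (Real.log_natCast_nonneg k)) (theta hB) h0 h1).congr' ?_
  filter_upwards [eventually_ge_atTop 0] with X hX
  have := sum_eq hX (hs X) fun k => (k : ℝ) ^ (-σ) * Real.log k
  simp only [N]
  rw [this]
  congr 1
  exact Finset.sum_congr rfl fun k _ => by ring

/-- Prime ideal theorem with a power weight. -/
theorem pit (hB : Bas) (s : ℝ → Finset O)
    (hs : ∀ X p, p ∈ s X ↔ Prime p ∧ Prim p ∧ N p ≤ X) {σ : ℝ} (h0 : 0 ≤ σ) (h1 : σ < 1) :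
    Tendsto (fun X => (∑ p ∈ s X, N p ^ (-σ)) / (X ^ (1 - σ) / Real.log X)) atTop
      (𝓝 (1 / (1 - σ))) := by
  have h := Pit1M.abel (fun k => (cnt k : ℝ) * Real.log k) (by simp)
    (fun k => mul_nonneg (Nat.cast_nonneg _) (Real.log_natCast_nonneg k)) (theta hB) h0 h1
  refine (Pit1M.unlog (fun k => (cnt k : ℝ) * (k : ℝ) ^ (-σ))
    (fun k => mul_nonneg (Nat.cast_nonneg _) (Real.rpow_nonneg (Nat.cast_nonneg _) _))
    (by simp [cnt_zero hB]) (by simp [cnt_one hB]) (ρ := 1 - σ) (by linarith)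
    (h.congr fun x => ?_)).congr' ?_
  · congr 1
    exact Finset.sum_congr rfl fun k _ => by ring
  · filter_upwards [eventually_ge_atTop 0] with X hX
    have := sum_eq hX (hs X) fun k => (k : ℝ) ^ (-σ)
    simp only [N]
    rw [this]

/-- The main term of the first moment. -/
theorem pit6 (hB : Bas) (s : ℝ → Finset O)
    (hs : ∀ X p, p ∈ s X ↔ Prime p ∧ Prim p ∧ N p ≤ X) :
    Tendsto (fun X => (∑ p ∈ s X, N p ^ (-(1 / 6) : ℝ)) / (X ^ (5 / 6 : ℝ) / Real.log X)) atTop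
      (𝓝 (6 / 5)) := by
  have := pit hB s hs (σ := 1 / 6) (by norm_num) (by norm_num)
  norm_num at this ⊢
  exact this

/-- The number of primary primes. -/
theorem pit0 (hB : Bas) (s : ℝ → Finset O)
    (hs : ∀ X p, p ∈ s X ↔ Prime p ∧ Prim p ∧ N p ≤ X) :
    Tendsto (fun X => ((s X).card : ℝ) / (X / Real.log X)) atTop (𝓝 1) := by
  simpa using pit hB s hs (σ := 0) le_rfl one_pos

end Vale.Agent.P006
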