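import Vale.Agent.P006.Pit
import Vale.Agent.P006.Vau

/-! Chebyshev, Mertens and Hall-Tenenbaum upper bounds for the primary primes. -/

noncomputable section
open Finset
open scoped Classical
open Vale.Agent.P026 W1

namespace Vale.Agent.P006.Mer

/-- primary primes of norm at most `X` -/
def PP (X : ℝ) : Finset O := (Vau.PS X).filter Prime

theorem mem_PP {X : ℝ} {p : O} : p ∈ PP X ↔ Prime p ∧ Prim p ∧ N p ≤ X := by
  simp only [PP, mem_filter, Vau.mem_PS]
  tauto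

theorem N2 {p : O} (hp : Prime p) : 2 ≤ N p := by
  obtain ⟨l, hl, -, h | ⟨h, -⟩⟩ := bas.b5.char p hp
  · rw [N, h]; exact_mod_cast hl.two_le
  · rw [N, h]
    have : 2 ≤ l ^ 2 := by nlinarith [hl.two_le]
    exact_mod_cast this

theorem cnt_vm (k : ℕ) : (PitM.cnt k : ℝ) * Real.log k ≤ Pit0M.vm k := by
  by_cases hk : k.Prime
  · have := PitM.diff bas k
    rw [if_pos hk, ArithmeticFunction.vonMangoldt_apply_prime hk, sub_self, mul_zero] at this
    linarith [le_abs_self ((PitM.cnt k : ℝ) * Real.log k - Pit0M.vm k)]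
  · rcases PitM.cnt_np bas hk with h | ⟨h, l, hl, rfl⟩
    · rw [h]
      simpa using Pit0M.vm_nonneg k
    · obtain ⟨p, hp⟩ := Set.nonempty_of_ncard_ne_zero (s := {p : O | Prime p ∧ Prim p ∧ Nn p = l ^ 2})
        (by change PitM.cnt _ ≠ 0; omega)
      have h3 : l ^ 2 % 3 = 1 := hp.2.2 ▸ bas.b2.N_mod p hp.2.1
      have e : (((l ^ 2 : ℕ) : ZMod 3) = 1) := by
        have := (ZMod.natCast_eq_natCast_iff' (l ^ 2) 1 3).2 (by simpa using h3)
        simpa using this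
      unfold Pit0M.vm ArithmeticFunction.vonMangoldt.residueClass
      rw [Set.indicator_of_mem (by exact e), h, ArithmeticFunction.vonMangoldt_apply_pow two_ne_zero,
        ArithmeticFunction.vonMangoldt_apply_prime hl]
      simp

theorem le_vm (s : Finset O) {X : ℝ} (hX : 0 ≤ X) (hs : ∀ p ∈ s, Prime p ∧ Prim p ∧ N p ≤ X)
    (F : ℕ → ℝ) (hF : ∀ k, 0 ≤ F k) :
    ∑ p ∈ s, Real.log (N p) * F (Nn p) ≤ ∑ k ∈ Icc 0 ⌊X⌋₊, Pit0M.vm k * F k := by
  calc _ ≤ ∑ p ∈ PP X, Real.log (N p) * F (Nn p) :=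
        sum_le_sum_of_subset_of_nonneg (fun p hp => mem_PP.2 (hs p hp))
          fun p _ _ => mul_nonneg (Real.log_natCast_nonneg _) (hF _)
    _ = _ := PitM.sum_eq hX (fun _ => mem_PP) fun k => Real.log k * F k
    _ ≤ _ := sum_le_sum fun k _ => by
        rw [← mul_assoc]
        exact mul_le_mul_of_nonneg_right (cnt_vm k) (hF k)

/-- Chebyshev -/
theorem cheb (s : Finset O) {X : ℝ} (hX : 0 ≤ X) (hs : ∀ p ∈ s, Prime p ∧ Prim p ∧ N p ≤ X) :
    ∑ p ∈ s, Real.log (N p) ≤ 12 * X := by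
  have h := le_vm s hX hs (fun _ => 1) fun _ => zero_le_one
  simp only [mul_one] at h
  have e : ∑ k ∈ Icc 0 ⌊X⌋₊, Pit0M.vm k = Pit0M.ps3 X := by
    rw [Icc_eq_cons_Ioc (Nat.zero_le _), sum_cons]
    simp only [Pit0M.vm, ArithmeticFunction.vonMangoldt.residueClass_apply_zero, mul_zero, zero_add]
    unfold Pit0M.ps3
    congr 1
  have h2 := Pit0M.ps3_le hX
  have h4 : Real.log 4 ≤ 2 := by
    have : Real.log 4 = 2 * Real.log 2 := by
      rw [show (4 : ℝ) = 2 ^ 2 by norm_num, Real.log_pow]; norm_num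
    linarith [Real.log_two_lt_d9]
  nlinarith

/-- the logarithmic derivative near its pole -/
theorem lser : ∃ C : ℝ, 0 ≤ C ∧ ∀ u : ℝ, 0 < u → u ≤ 2 → ∀ s : Finset O,
    (∀ p ∈ s, Prime p ∧ Prim p) → ∑ p ∈ s, Real.log (N p) * N p ^ (-1 - u) ≤ 1 / u + C := by
  have hc : ContinuousOn (fun x : ℝ => ‖Pit0M.GG x‖) (Set.Icc 1 3) := by
    have hG : ContinuousOn Pit0M.GG {s | 1 ≤ s.re} := continuousOn_const.mul
      (ArithmeticFunction.vonMangoldt.continuousOn_LFunctionResidueClassAux (1 : ZMod 3))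
    refine ContinuousOn.norm (hG.comp Complex.continuous_ofReal.continuousOn fun x hx => ?_)
    simpa using hx.1
  obtain ⟨C, hC⟩ := (isCompact_Icc.bddAbove_image hc)
  refine ⟨max C 0, le_max_right _ _, fun u hu hu2 s hs => ?_⟩
  obtain ⟨X, hX0, hX⟩ : ∃ X : ℝ, 0 ≤ X ∧ ∀ p ∈ s, N p ≤ X :=
    ⟨∑ p ∈ s, N p, sum_nonneg fun p _ => Vau.N0 p,
      fun p hp => single_le_sum (f := N) (fun q _ => Vau.N0 q) hp⟩
  have h1 := le_vm s hX0 (fun p hp => ⟨(hs p hp).1, (hs p hp).2, hX p hp⟩)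
    (fun k => (k : ℝ) ^ (-1 - u)) fun k => Real.rpow_nonneg (Nat.cast_nonneg k) _
  have hre : (1 : ℝ) < (((1 + u : ℝ)) : ℂ).re := by simpa using hu
  have hsum : LSeriesSummable (fun n => (Pit0M.vm n : ℂ)) ((1 + u : ℝ) : ℂ) := by
    have e : (fun n => (Pit0M.vm n : ℂ)) = (2 : ℂ) • fun n =>
        ((ArithmeticFunction.vonMangoldt.residueClass (1 : ZMod 3) n : ℝ) : ℂ) := by
      funext n
      simp [Pit0M.vm]
    rw [e]
    refine LSeriesSummable.smul _ (LSeriesSummable_of_abscissaOfAbsConv_lt_re ?_)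
    refine (ArithmeticFunction.vonMangoldt.abscissaOfAbsConv_residueClass_le_one _).trans_lt ?_
    exact_mod_cast hre
  have ht : ∀ k : ℕ, LSeries.term (fun n => (Pit0M.vm n : ℂ)) ((1 + u : ℝ) : ℂ) k =
      ((Pit0M.vm k * (k : ℝ) ^ (-1 - u) : ℝ) : ℂ) := by
    intro k
    rcases Nat.eq_zero_or_pos k with rfl | hk
    · simp [Pit0M.vm]
    · rw [LSeries.term_of_ne_zero hk.ne', show -1 - u = -(1 + u) by ring,
        Real.rpow_neg (Nat.cast_nonneg k), Complex.ofReal_mul, Complex.ofReal_inv,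
        Complex.ofReal_cpow (Nat.cast_nonneg k), Complex.ofReal_natCast, div_eq_mul_inv]
  have hs2 : HasSum (fun k : ℕ => Pit0M.vm k * (k : ℝ) ^ (-1 - u))
      (LSeries (fun n => (Pit0M.vm n : ℂ)) ((1 + u : ℝ) : ℂ)).re := by
    have := Complex.hasSum_re hsum.hasSum
    refine HasSum.congr_fun this fun k => ?_
    rw [ht, Complex.ofReal_re]
  have h2 := sum_le_hasSum (Icc 0 ⌊X⌋₊) (fun k _ =>
    mul_nonneg (Pit0M.vm_nonneg k) (Real.rpow_nonneg (Nat.cast_nonneg k) _)) hs2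
  have h3 := Pit0M.GG_eq hre
  have h4 : ‖Pit0M.GG ((1 + u : ℝ) : ℂ)‖ ≤ C := hC ⟨1 + u, ⟨by linarith, by linarith⟩, rfl⟩
  have h5 : (LSeries (fun n => (Pit0M.vm n : ℂ)) ((1 + u : ℝ) : ℂ)).re =
      (Pit0M.GG ((1 + u : ℝ) : ℂ)).re + 1 / u := by
    have e : (1 : ℂ) / (((1 + u : ℝ) : ℂ) - 1) = ((1 / u : ℝ) : ℂ) := by
      push_cast
      ring
    rw [h3, e, Complex.sub_re, Complex.ofReal_re]
    ring
  have h6 := Complex.re_le_norm (Pit0M.GG ((1 + u : ℝ) : ℂ))
  have h7 := le_max_left C 0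
  simp only [N] at h1 ⊢
  linarith

/-- Mertens -/
theorem mertens : ∃ C : ℝ, 0 ≤ C ∧ ∀ (w Y : ℝ) (s : Finset O), 2 ≤ w → w ≤ Y →
    (∀ p ∈ s, Prime p ∧ Prim p ∧ w ≤ N p ∧ N p ≤ Y) →
    ∑ p ∈ s, (N p)⁻¹ ≤ Real.log (Real.log Y / Real.log w) + C := by
  obtain ⟨C, hC0, hC⟩ := lser
  refine ⟨3 + 8 * C, by positivity, fun w Y s hw hY hs => ?_⟩
  have hs' : ∀ p ∈ s, Prime p ∧ Prim p := fun p hp => ⟨(hs p hp).1, (hs p hp).2.1⟩
  have lw : 1 / 2 < Real.log w :=
    lt_of_lt_of_le (by linarith [Real.log_two_gt_d9]) (Real.log_le_log (by norm_num) hw)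
  have lY : Real.log w ≤ Real.log Y := Real.log_le_log (by linarith) hY
  set a := 1 / Real.log Y with ha
  set b := 1 / Real.log w with hb
  have a0 : 0 < a := by rw [ha]; exact one_div_pos.2 (by linarith)
  have ab : a ≤ b := one_div_le_one_div_of_le (by linarith) lY
  have b2 : b ≤ 2 := by rw [hb, div_le_iff₀ (by linarith)]; linarith
  have Np : ∀ p ∈ s, 0 < N p := fun p hp => by linarith [(hs p hp).2.2.1]
  have hd : ∀ u : ℝ, 0 < u → HasDerivAt (fun u : ℝ => -∑ p ∈ s, N p ^ (-1 - u) - Real.log u - C * u)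
      (∑ p ∈ s, Real.log (N p) * N p ^ (-1 - u) - 1 / u - C) u := by
    intro u hu
    have h1 : HasDerivAt (fun u : ℝ => ∑ p ∈ s, N p ^ (-1 - u))
        (∑ p ∈ s, -(Real.log (N p) * N p ^ (-1 - u))) u := by
      refine HasDerivAt.fun_sum fun p hp => ?_
      have := ((hasDerivAt_id u).const_sub (-1)).const_rpow (Np p hp)
      refine HasDerivAt.congr_deriv this ?_
      simp only [id]
      ring
    have := (h1.neg.sub (Real.hasDerivAt_log hu.ne')).sub ((hasDerivAt_id u).const_mul C)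
    refine HasDerivAt.congr_deriv this ?_
    simp
  have anti := antitoneOn_of_deriv_nonpos (convex_Icc a b)
    (f := fun u : ℝ => -∑ p ∈ s, N p ^ (-1 - u) - Real.log u - C * u)
    (fun u hu => (hd u (a0.trans_le hu.1)).continuousAt.continuousWithinAt)
    (fun u hu => (hd u (a0.trans_le (interior_subset hu).1)).differentiableAt.differentiableWithinAt)
    (fun u hu => by
      have hu' := interior_subset hu
      rw [(hd u (a0.trans_le hu'.1)).deriv]
      linarith [hC u (a0.trans_le hu'.1) (hu'.2.trans b2) s hs'])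
  have h1 := anti ⟨le_rfl, ab⟩ ⟨ab, le_rfl⟩ ab
  simp only at h1
  have h2 : ∑ p ∈ s, (N p)⁻¹ ≤ ∑ p ∈ s, (N p ^ (-1 - a) - N p ^ (-1 - b) +
      2 * a * (Real.log (N p) * N p ^ (-1 - a)) + b * (Real.log (N p) * N p ^ (-1 - b))) := by
    refine sum_le_sum fun p hp => ?_
    have t0 := Np p hp
    have l1 : Real.log w ≤ Real.log (N p) := Real.log_le_log (by linarith) (hs p hp).2.2.1
    have l2 : Real.log (N p) ≤ Real.log Y := Real.log_le_log t0 (hs p hp).2.2.2
    have x0 : 0 ≤ Real.log (N p) * a := mul_nonneg (by linarith) a0.le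
    have x1 : Real.log (N p) * a ≤ 1 := by
      rw [ha, mul_one_div, div_le_one (by linarith)]; exact l2
    have x2 : 1 ≤ b * Real.log (N p) := by
      rw [hb, one_div, inv_mul_eq_div, one_le_div (by linarith)]; exact l1
    have e1 : (N p)⁻¹ = N p ^ (-1 - a) * Real.exp (Real.log (N p) * a) := by
      rw [← Real.rpow_def_of_pos t0, ← Real.rpow_add t0, ← Real.rpow_neg_one]
      congr 1
      ring
    have e2 := (abs_le.1 (Real.abs_exp_sub_one_le (x := Real.log (N p) * a)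
      (by rwa [abs_of_nonneg x0]))).2
    rw [abs_of_nonneg x0] at e2
    have p1 : 0 ≤ N p ^ (-1 - a) := Real.rpow_nonneg t0.le _
    have p2 : 0 ≤ N p ^ (-1 - b) := Real.rpow_nonneg t0.le _
    rw [e1]
    nlinarith [mul_le_mul_of_nonneg_left e2 p1, mul_le_mul_of_nonneg_right x2 p2]
  rw [sum_add_distrib, sum_add_distrib, sum_sub_distrib, ← mul_sum, ← mul_sum] at h2
  have h3 := mul_le_mul_of_nonneg_left (hC a a0 (ab.trans b2) s hs') (by positivity : 0 ≤ 2 * a)
  have b0 : 0 < b := a0.trans_le ab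
  have h4 := mul_le_mul_of_nonneg_left (hC b b0 b2 s hs') b0.le
  have e3 : 2 * a * (1 / a + C) = 2 + 2 * (a * C) := by field_simp
  have e4 : b * (1 / b + C) = 1 + b * C := by field_simp
  have e5 : Real.log (Real.log Y / Real.log w) = Real.log b - Real.log a := by
    rw [ha, hb, one_div, one_div, Real.log_inv, Real.log_inv, Real.log_div (by linarith) (by linarith)]
    ring
  have h5 : a * C ≤ 2 * C := mul_le_mul_of_nonneg_right (ab.trans b2) hC0
  have h6 : b * C ≤ 2 * C := mul_le_mul_of_nonneg_right b2 hC0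
  have h7 : 0 ≤ a * C := by positivity
  nlinarith

theorem ht0 (P : Finset O) (hP : ∀ p ∈ P, Prime p ∧ Prim p) (g : O → ℝ) {B Y : ℝ} (hB : 0 ≤ B)
    (hg : ∀ p ∈ P, 0 ≤ g p ∧ g p ≤ B) (hY : 0 < Y) :
    Real.log Y * ∑ T ∈ P.powerset with ∏ p ∈ T, N p ≤ Y, ∏ p ∈ T, g p ≤
      (12 * B + 1) * Y * ∏ p ∈ P, (1 + g p / N p) := by
  have Np : ∀ p ∈ P, 0 < N p := fun p hp => by linarith [N2 (hP p hp).1]
  have nu : ∀ T ∈ P.powerset, 0 < ∏ p ∈ T, N p := fun T hT =>
    prod_pos fun p hp => Np p (mem_powerset.1 hT hp)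
  have f0 : ∀ T ∈ P.powerset, 0 ≤ ∏ p ∈ T, g p := fun T hT =>
    prod_nonneg fun p hp => (hg p (mem_powerset.1 hT hp)).1
  have e0 : ∏ p ∈ P, (1 + g p / N p) = ∑ T ∈ P.powerset, (∏ p ∈ T, g p) / ∏ p ∈ T, N p := by
    rw [prod_one_add]
    exact sum_congr rfl fun T _ => prod_div_distrib _ _
  set 𝒯 := P.powerset.filter fun T => ∏ p ∈ T, N p ≤ Y with h𝒯
  have s1 : ∑ T ∈ 𝒯, (∏ p ∈ T, g p) * Real.log (Y / ∏ p ∈ T, N p) ≤
      Y * ∑ T ∈ P.powerset, (∏ p ∈ T, g p) / ∏ p ∈ T, N p := by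
    rw [mul_sum]
    refine (sum_le_sum (g := fun T => Y * ((∏ p ∈ T, g p) / ∏ p ∈ T, N p)) fun T hT => ?_).trans
      (sum_le_sum_of_subset_of_nonneg (filter_subset _ _) fun T hT _ => by
        have := nu T hT
        have := f0 T hT
        positivity)
    have hT' := (mem_filter.1 hT).1
    have h1 := Real.log_le_self (div_pos hY (nu T hT')).le
    calc _ ≤ (∏ p ∈ T, g p) * (Y / ∏ p ∈ T, N p) := mul_le_mul_of_nonneg_left h1 (f0 T hT')
      _ = _ := by ring
  have s2 : ∑ T ∈ 𝒯, (∏ p ∈ T, g p) * ∑ p ∈ T, Real.log (N p) ≤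
      12 * B * Y * ∑ T ∈ P.powerset, (∏ p ∈ T, g p) / ∏ p ∈ T, N p := by
    set G : Finset O → O → ℝ := fun T p =>
      if N p ≤ Y / ∏ q ∈ T, N q then B * (∏ q ∈ T, g q) * Real.log (N p) else 0 with hG
    have G0 : ∀ T ∈ P.powerset, ∀ p, 0 ≤ G T p := fun T hT p => by
      simp only [hG]
      split_ifs
      · exact mul_nonneg (mul_nonneg hB (f0 T hT)) (Real.log_natCast_nonneg _)
      · rfl
    calc _ = ∑ T ∈ 𝒯, ∑ p ∈ P, if p ∈ T then (∏ q ∈ T, g q) * Real.log (N p) else 0 := by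
          refine sum_congr rfl fun T hT => ?_
          rw [← sum_filter, filter_mem_eq_inter, inter_eq_right.2 (mem_powerset.1 (mem_filter.1 hT).1),
            mul_sum]
      _ = ∑ p ∈ P, ∑ T ∈ 𝒯 with p ∈ T, (∏ q ∈ T, g q) * Real.log (N p) := by
          rw [sum_comm]
          exact sum_congr rfl fun p _ => (sum_filter _ _).symm
      _ ≤ ∑ p ∈ P, ∑ T ∈ P.powerset, G T p := by
          refine sum_le_sum fun p hp => ?_
          calc _ ≤ ∑ T ∈ 𝒯 with p ∈ T, G (T.erase p) p := by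
                refine sum_le_sum fun T hT => ?_
                obtain ⟨h1, h2⟩ := mem_filter.1 hT
                obtain ⟨h3, h4⟩ := mem_filter.1 h1
                have h5 : T.erase p ∈ P.powerset :=
                  mem_powerset.2 ((erase_subset _ _).trans (mem_powerset.1 h3))
                rw [← mul_prod_erase T N h2] at h4
                simp only [hG]
                rw [if_pos ((le_div_iff₀ (nu _ h5)).2 h4), ← mul_prod_erase T g h2]
                exact mul_le_mul_of_nonneg_right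
                  (mul_le_mul_of_nonneg_right (hg p hp).2 (f0 _ h5)) (Real.log_natCast_nonneg _)
            _ = ∑ T ∈ (𝒯.filter (p ∈ ·)).image (·.erase p), G T p := by
                rw [sum_image]
                intro T hT T' hT' h
                have h1 := (mem_filter.1 hT).2
                have h2 := (mem_filter.1 hT').2
                rw [← insert_erase h1, ← insert_erase h2]
                exact congrArg (insert p) h
            _ ≤ _ := by
                refine sum_le_sum_of_subset_of_nonneg (fun T hT => ?_) fun T hT _ => G0 T hT p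
                obtain ⟨T', h1, rfl⟩ := mem_image.1 hT
                exact mem_powerset.2 ((erase_subset _ _).trans
                  (mem_powerset.1 (mem_filter.1 (mem_filter.1 h1).1).1))
      _ = ∑ T ∈ P.powerset, ∑ p ∈ P, G T p := sum_comm
      _ ≤ _ := by
          rw [mul_sum]
          refine sum_le_sum fun T hT => ?_
          simp only [hG]
          rw [← sum_filter, ← mul_sum]
          have h1 := cheb (P.filter fun p => N p ≤ Y / ∏ q ∈ T, N q) (div_pos hY (nu T hT)).le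
            fun p hp => ⟨(hP p (mem_filter.1 hp).1).1, (hP p (mem_filter.1 hp).1).2, (mem_filter.1 hp).2⟩
          calc _ ≤ B * (∏ q ∈ T, g q) * (12 * (Y / ∏ q ∈ T, N q)) :=
                mul_le_mul_of_nonneg_left h1 (mul_nonneg hB (f0 T hT))
            _ = _ := by ring
  have e1 : Real.log Y * ∑ T ∈ 𝒯, ∏ p ∈ T, g p =
      ∑ T ∈ 𝒯, (∏ p ∈ T, g p) * Real.log (Y / ∏ p ∈ T, N p) +
        ∑ T ∈ 𝒯, (∏ p ∈ T, g p) * ∑ p ∈ T, Real.log (N p) := by
    rw [mul_sum, ← sum_add_distrib]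
    refine sum_congr rfl fun T hT => ?_
    have hT' := (mem_filter.1 hT).1
    rw [Real.log_div hY.ne' (nu T hT').ne',
      Real.log_prod fun p hp => (Np p (mem_powerset.1 hT' hp)).ne']
    ring
  rw [e1, e0]
  linarith

theorem sqf_eq {n : O} (hn : Prim n) (h : Squarefree n) : n = ∏ p ∈ pf n, p :=
  (Vau.b8.prod n hn).trans (prod_congr rfl fun p hp => by
    rw [(Vau.b8.sqf n hn).1 h p hp, pow_one])

theorem N_sqf {n : O} (hn : Prim n) (h : Squarefree n) : N n = ∏ p ∈ pf n, N p := by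
  conv_lhs => rw [sqf_eq hn h]
  exact Vau.b8.N_rad n

/-- Hall-Tenenbaum bound on squarefree primary elements; `P` contains all primes that occur. -/
theorem ht (s P : Finset O) (hP : ∀ p ∈ P, Prime p ∧ Prim p) (g : O → ℝ) {B Y : ℝ} (hB : 0 ≤ B)
    (hg : ∀ p ∈ P, 0 ≤ g p ∧ g p ≤ B) (h : 1 ≤ Y)
    (hs : ∀ n ∈ s, Prim n ∧ Squarefree n ∧ N n ≤ Y ∧ pf n ⊆ P) :
    Real.log Y * ∑ n ∈ s, ∏ p ∈ pf n, g p ≤
      (12 * B + 1) * Y * Real.exp (∑ p ∈ P, g p / N p) := by
  have hY : 0 < Y := by linarith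
  have h1 : ∑ n ∈ s, ∏ p ∈ pf n, g p ≤
      ∑ T ∈ P.powerset with ∏ p ∈ T, N p ≤ Y, ∏ p ∈ T, g p := by
    rw [← sum_image (s := s) (g := pf) (f := fun T => ∏ p ∈ T, g p) fun n hn m hm e => by
      rw [sqf_eq (hs n hn).1 (hs n hn).2.1, sqf_eq (hs m hm).1 (hs m hm).2.1, e]]
    refine sum_le_sum_of_subset_of_nonneg (fun T hT => ?_) fun T hT _ =>
      prod_nonneg fun p hp => (hg p (mem_powerset.1 (mem_filter.1 hT).1 hp)).1
    obtain ⟨n, hn, rfl⟩ := mem_image.1 hT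
    obtain ⟨a, b, c, d⟩ := hs n hn
    exact mem_filter.2 ⟨mem_powerset.2 d, N_sqf a b ▸ c⟩
  have h2 : ∏ p ∈ P, (1 + g p / N p) ≤ Real.exp (∑ p ∈ P, g p / N p) := by
    rw [Real.exp_sum]
    exact prod_le_prod (fun p hp => by
      have := (hg p hp).1
      have := Vau.N0 p
      positivity) fun p _ => by linarith [Real.add_one_le_exp (g p / N p)]
  calc _ ≤ _ := mul_le_mul_of_nonneg_left h1 (Real.log_nonneg h)
    _ ≤ _ := ht0 P hP g hB hg hY
    _ ≤ _ := mul_le_mul_of_nonneg_left h2 (by positivity)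

/-- Rough squarefree elements, weighted by `B` to the number of prime factors. -/
theorem rough (B : ℝ) (hB : 0 ≤ B) : ∃ C : ℝ, 0 ≤ C ∧ ∀ (w Y : ℝ) (s : Finset O), 2 ≤ w → w ≤ Y →
    (∀ n ∈ s, Prim n ∧ Squarefree n ∧ N n ≤ Y ∧ ∀ p ∈ pf n, w ≤ N p) →
    ∑ n ∈ s, B ^ (pf n).card ≤ C * (Y / Real.log Y) * (Real.log Y / Real.log w) ^ B := by
  obtain ⟨C, hC0, hC⟩ := mertens
  refine ⟨(12 * B + 1) * Real.exp (B * C), by positivity, fun w Y s hw hY hs => ?_⟩
  have lw : 0 < Real.log w := Real.log_pos (by linarith)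
  have lY : 0 < Real.log Y := Real.log_pos (by linarith)
  set P := (PP Y).filter fun p => w ≤ N p with hP
  have mP : ∀ p ∈ P, Prime p ∧ Prim p ∧ w ≤ N p ∧ N p ≤ Y := fun p hp => by
    obtain ⟨h1, h2⟩ := mem_filter.1 hp
    obtain ⟨a, b, c⟩ := mem_PP.1 h1
    exact ⟨a, b, h2, c⟩
  have h1 := ht s P (fun p hp => ⟨(mP p hp).1, (mP p hp).2.1⟩) (fun _ => B) hB
    (fun _ _ => ⟨hB, le_rfl⟩) (Y := Y) (by linarith) fun n hn => by
      obtain ⟨a, b, c, d⟩ := hs n hn
      refine ⟨a, b, c, fun p hp => ?_⟩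
      have n0 := bas.b2.ne n a
      obtain ⟨e1, e2, e3⟩ := (Vau.b8.mem n p n0).1 hp
      exact mem_filter.2 ⟨mem_PP.2 ⟨e1, e2, (Vau.N_dvd n0 e3).trans c⟩, d p hp⟩
  simp only [prod_const, div_eq_mul_inv B, ← mul_sum] at h1
  have h2 := Real.exp_le_exp.2 (mul_le_mul_of_nonneg_left (hC w Y P hw hY mP) hB)
  rw [mul_add, Real.exp_add, mul_comm B (Real.log _), ← Real.rpow_def_of_pos (by positivity)] at h2
  have h3 := h1.trans (mul_le_mul_of_nonneg_left h2 (by
    have : 0 ≤ Y := by linarith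
    positivity))
  rw [← le_div_iff₀' lY] at h3
  refine h3.trans_eq ?_
  field_simp

/-- Number of rough squarefree elements. -/
theorem rough1 : ∃ C : ℝ, 0 ≤ C ∧ ∀ (w Y : ℝ) (s : Finset O), 2 ≤ w → w ≤ Y →
    (∀ n ∈ s, Prim n ∧ Squarefree n ∧ N n ≤ Y ∧ ∀ p ∈ pf n, w ≤ N p) →
    (s.card : ℝ) ≤ C * (Y / Real.log w) := by
  obtain ⟨C, hC0, hC⟩ := rough 1 zero_le_one
  refine ⟨C, hC0, fun w Y s hw hY hs => ?_⟩
  have h := hC w Y s hw hY hs
  have lY : 0 < Real.log Y := Real.log_pos (by linarith)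
  simp only [one_pow, sum_const, nsmul_eq_mul, mul_one, Real.rpow_one] at h
  refine h.trans_eq ?_
  field_simp

end Vale.Agent.P006.Mer
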