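import Vale.Agent.P006.S1
import Vale.Agent.P006.Z0
import Vale.Agent.P006.Vau
import Vale.Agent.P006.A.CT0

/-! P006 branch S, part 2: from a smooth cutoff to the sharp cutoff. -/

noncomputable section
open Complex MeasureTheory
open scoped Classical ComplexConjugate

namespace Vale.Agent.P006.S
open Vale.Agent.P026

/-- Gauss sums on squarefree elements -/
def g0 (n : O) : ℂ := if Squarefree n then gt n else 0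

def G0Stmt : Prop := (∀ a b, Prim a → Prim b → g0 (a * b) = g0 a * g0 b * cub a b) ∧
  (∀ n, Prim n → ‖g0 n‖ ≤ 1) ∧ (∀ n, g0 n ≠ 0 → Squarefree n) ∧
  ∀ n, Prim n → Squarefree n → K.cc n = g0 n

/-- smooth cutoff -/
def Phi (T x : ℝ) : ℝ :=
  T / Real.sqrt Real.pi * ∫ v in Set.Ioi (Real.log x), Real.exp (-(T * v) ^ 2)
def bT (T x : ℝ) : ℝ := T * Real.log x * Real.exp (-(T * Real.log x) ^ 2)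
def b2 (T x : ℝ) : ℝ := (T * Real.log x) ^ 2 * Real.exp (-(T * Real.log x) ^ 2)
def ob (T : ℝ) (s : ℂ) : ℂ := omT T s * (s / (2 * T))
def ob2 (T : ℝ) (s : ℂ) : ℂ := omT T s * (1 / 2 + s ^ 2 / (4 * T ^ 2))

def PHStmt : Prop :=
  (∀ T x : ℝ, 0 < T → 0 < x →
    |(if x ≤ 1 then 1 else 0) - Phi T x| ≤ Real.exp (-(T * Real.log x) ^ 2) / 2) ∧
  ∀ T0 T1 x : ℝ, 0 < T0 → T0 ≤ T1 →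
    Phi T1 x - Phi T0 x = -(Real.sqrt Real.pi)⁻¹ * ∫ T in T0..T1, bT T x / T

/-- a thin weight `w` with Mellin transform `ow` -/
structure Ker (T K : ℝ) (w : ℝ → ℝ) (ow : ℂ → ℂ) : Prop where
  diff : Differentiable ℂ ow
  bd : ∀ s : ℂ, |s.re| ≤ 2 → ‖ow s‖ ≤ K / T * Real.exp (-(s.im / (4 * T)) ^ 2)
  inv : ∀ σ x : ℝ, |σ| ≤ 2 → 0 < x →
    (w x : ℂ) = (1 / (2 * Real.pi) : ℝ) * ∫ u : ℝ, ow (σ + u * I) * (x : ℂ) ^ (-(σ + u * I))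
  dec : ∀ x : ℝ, 0 < x → |w x| ≤ K * Real.exp (-(T * Real.log x) ^ 2 / 2)

def BMStmt : Prop := ∃ K : ℝ, 0 ≤ K ∧ ∀ T : ℝ, 1 ≤ T → Ker T K (bT T) (ob T) ∧ Ker T K (b2 T) (ob2 T)

/-- one pair of cells -/
def CELStmt : Prop := ∃ C : ℝ, 0 ≤ C ∧ ∀ (τ T' T A B X : ℝ) (S U : Finset O) (α β : O → ℂ), 8 ≤ τ → τ ≤ T' →
  1 ≤ T → 1 ≤ A → 1 ≤ B → 0 < X → τ ^ 20 ≤ A * B → (∀ a ∈ S, SP a ∧ Thin A T' a) →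
  (∀ b ∈ U, SP b ∧ Thin B T' b) →
  ‖∑ a ∈ S, ∑ b ∈ U, α a * β b * cub a b * bT T (N a * N b / X)‖ ^ 2 ≤
    C * (1 + Real.log (1 + max A B)) ^ 3 * (max A B / T' + (A * B) ^ (2 / 3 : ℝ) * τ ^ (-1 / 3 : ℝ)) *
      (∑ a ∈ S, ‖α a‖ ^ 2 * tau a) * ∑ b ∈ U, ‖β b‖ ^ 2 * tau b

/-- the bilinear bound -/
def BILStmt : Prop := ∃ C : ℝ, 0 ≤ C ∧ ∀ (X T τ Z : ℝ) (S U : Finset O) (α β : O → ℂ), Real.exp 20 ≤ X →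
  8 ≤ τ → 4 * Real.log X * τ ≤ T → 10 * τ ^ 20 ≤ X → 0 ≤ Z → (∀ a ∈ S, SP a ∧ N a ≤ X ^ 2) →
  (∀ b ∈ U, SP b ∧ N b ≤ X ^ 2) →
  (∀ a ∈ S, ∀ b ∈ U, X / 2 ≤ N a * N b → N a * N b ≤ 2 * X → N a ≤ Z ∧ N b ≤ Z) →
  ‖∑ a ∈ S, ∑ b ∈ U, α a * β b * cub a b * bT T (N a * N b / X)‖ ^ 2 ≤
    C * Real.log X ^ 4 * X * (Z / T + X ^ (2 / 3 : ℝ) * τ ^ (-1 / 3 : ℝ)) *
      (∑ a ∈ S, ‖α a‖ ^ 2 * tau a / N a) * ∑ b ∈ U, ‖β b‖ ^ 2 * tau b / N b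

/-- elementary sums -/
def DIVStmt : Prop := ∃ C : ℝ, 0 ≤ C ∧ ∀ (Y : ℝ) (S : Finset O), 1 ≤ Y → (∀ n ∈ S, Prim n ∧ N n ≤ Y) →
  ∑ n ∈ S, tau n / N n ≤ C * (1 + Real.log Y) ^ 2 ∧ ∑ n ∈ S, (N n)⁻¹ ≤ C * (1 + Real.log Y) ∧
  ∑ n ∈ S, N n ^ (-1 / 4 : ℝ) ≤ C * Y ^ (3 / 4 : ℝ) ∧ (S.card : ℝ) ≤ C * Y

/-- Dirichlet series over squarefree elements -/
def DS (r : O) (z : ℂ) : ℂ := ∑' n, if Prim n then g0 n * cub r n * (N n : ℂ) ^ (-z) else 0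

/-- convexity bound -/
def CVStmt : Prop := ∀ δ : ℝ, 0 < δ → δ ≤ 1 / 4 → ∃ C : ℝ, 0 ≤ C ∧ ∀ r, SP r → ∃ F : ℂ → ℂ,
  DifferentiableOn ℂ F {z | 1 / 2 < z.re ∧ z.re < 3 / 2} ∧ ‖F (5 / 6)‖ ≤ C * N r ^ (-1 / 6 : ℝ) ∧
  (∀ z : ℂ, 1 < z.re → z.re < 3 / 2 → F z = (z - 5 / 6) * DS r z) ∧
  ∀ z : ℂ, 1 / 2 + δ ≤ z.re → z.re ≤ 5 / 4 → ‖F z‖ ≤ C * N r ^ (1 / 4 + δ) * (1 + |z.im|) ^ (2 + δ)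

/-- type I estimate, infinite sum -/
def TI1Stmt : Prop := ∀ δ K : ℝ, 0 < δ → δ ≤ 1 / 4 → 0 ≤ K → ∃ C : ℝ, 0 ≤ C ∧
  ∀ (T U : ℝ) (w : ℝ → ℝ) (ow : ℂ → ℂ) (r : O), 1 ≤ T → 1 ≤ U → Ker T K w ow → SP r →
  ‖∑' n, if Prim n then g0 n * cub r n * w (N n / U) else 0‖ ≤
    C * (U ^ (5 / 6 : ℝ) * N r ^ (-1 / 6 : ℝ) / T + U ^ (1 / 2 + δ) * N r ^ (1 / 4 + δ) * T ^ (1 + δ))

/-- the function to which Vaughan's identity is applied -/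
def ff (X T : ℝ) (n : O) : ℂ := if N n ≤ X ^ 2 then g0 n * bT T (N n / X) else 0

def EI (δ X T : ℝ) (r : O) : ℝ :=
  X ^ (5 / 6 : ℝ) / (N r * T) + X ^ (1 / 2 + δ) * N r ^ (-1 / 4 : ℝ) * T ^ (1 + δ) + 1

/-- type I estimate, finite sums -/
def TI2Stmt : Prop := ∀ δ : ℝ, 0 < δ → δ ≤ 1 / 4 → ∃ C : ℝ, 0 ≤ C ∧ ∀ (X T : ℝ) (r : O), Real.exp 8 ≤ X →
  1 ≤ T → Prim r → N r ≤ X →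
  ‖∑ n ∈ Vau.PS (X ^ 2), ff X T (r * n)‖ ≤ C * EI δ X T r ∧
  ‖∑ n ∈ Vau.PS (X ^ 2), Real.log (N n) * ff X T (r * n)‖ ≤ C * Real.log X * EI δ X T r

/-- the cut in Vaughan's identity -/
def yy (X T : ℝ) : ℝ := X ^ (1 / 3 : ℝ) * T ^ (-4 / 5 : ℝ)
/-- range of `T` -/
def RT (X T : ℝ) : Prop := Real.log X ^ 2 ≤ T ∧ T ≤ X ^ (1 / 6 : ℝ) * Real.log X ^ 2

/-- type I sums -/
def VIStmt : Prop := ∃ C X0 : ℝ, 0 ≤ C ∧ ∀ (X T : ℝ) (c : O → ℂ), X0 ≤ X → RT X T → (∀ r, ‖c r‖ ≤ 1) →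
  (∀ r, c r ≠ 0 → N r ≤ yy X T) →
  ‖∑ r ∈ Vau.PS (X ^ 2), c r * ∑ n ∈ Vau.PS (X ^ 2), ff X T (r * n)‖ ≤
    C * X ^ (5 / 6 : ℝ) * (Real.log X ^ 2 / T + X ^ (-1 / 150 : ℝ)) ∧
  ‖∑ r ∈ Vau.PS (X ^ 2), c r * ∑ n ∈ Vau.PS (X ^ 2), Real.log (N n) * ff X T (r * n)‖ ≤
    C * X ^ (5 / 6 : ℝ) * (Real.log X ^ 2 / T + X ^ (-1 / 150 : ℝ))

/-- type II sums -/
def VIIStmt : Prop := ∃ C X0 : ℝ, 0 ≤ C ∧ ∀ (X T : ℝ) (α β : O → ℂ), X0 ≤ X → RT X T →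
  (∀ a, Prim a → ‖α a‖ ≤ 1) → (∀ b, Prim b → ‖β b‖ ≤ 1) → (∀ a, Prim a → α a ≠ 0 → yy X T < N a) →
  ((∀ a, Prim a → α a ≠ 0 → N a ≤ yy X T ^ 2) ∨ ∀ b, Prim b → β b ≠ 0 → yy X T < N b) →
  ‖∑ a ∈ Vau.PS (X ^ 2), α a * ∑ b ∈ Vau.PS (X ^ 2), β b * ff X T (a * b)‖ ≤
    C * X ^ (5 / 6 : ℝ) * (Real.log X ^ 5 * T ^ (-1 / 10 : ℝ) + X ^ (-1 / 150 : ℝ))

/-- the sum over primes -/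
def VAStmt : Prop := ∃ C X0 : ℝ, 0 ≤ C ∧ ∀ X T : ℝ, X0 ≤ X → RT X T →
  ‖∑ n ∈ Vau.PS (X ^ 2), Vau.Lam n * ff X T n‖ ≤
    C * X ^ (5 / 6 : ℝ) * (Real.log X ^ 6 * T ^ (-1 / 10 : ℝ) + X ^ (-1 / 300 : ℝ))

/-- the trivial range -/
def CUTStmt : Prop := ∃ C : ℝ, 0 ≤ C ∧ ∀ X T : ℝ, 3 ≤ X → 1 ≤ T →
  ∑ n ∈ Vau.PS (X ^ 2), Vau.Lam n * ‖g0 n‖ * Real.exp (-(T * Real.log (N n / X)) ^ 2) ≤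
    C * Real.log X * (1 + X / T)

/-- END of branch S -/
def SEnd : Prop := ∀ ε : ℝ, 0 < ε → ∃ X0 : ℝ, ∀ X T : ℝ, X0 ≤ X → Real.log X ^ 100 ≤ T →
  ‖∑ n ∈ Vau.PS (X ^ 2), Vau.Lam n * g0 n * (((if N n ≤ X then 1 else 0) - Phi T (N n / X) : ℝ) : ℂ)‖ ≤
    ε * X ^ (5 / 6 : ℝ)

end Vale.Agent.P006.S
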