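import Vale.Agent.P026.Stm3

/-! P006: statements for the sharp cubic large sieve. -/

noncomputable section
open Complex
open scoped Classical ComplexConjugate

namespace Vale.Agent.P006
open Vale.Agent.P026

/-- squarefree primary -/
def SP (n : O) : Prop := Prim n ∧ Squarefree n
/-- squarefree primary elements of norm at most `X` -/
def SQ (X : ℝ) : Finset O := if h : {n : O | SP n ∧ N n ≤ X}.Finite then h.toFinset else ∅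
/-- primary divisors -/
def dv (g : O) : Finset O := if h : {d : O | Prim d ∧ d ∣ g}.Finite then h.toFinset else ∅

/-- large sieve bound, rows squarefree primary -/
def LB (M X B : ℝ) : Prop := ∀ (S T : Finset O) (a : O → ℂ), (∀ m ∈ S, SP m ∧ N m ≤ M) →
  (∀ n ∈ T, SP n ∧ N n ≤ X) → ∑ m ∈ S, ‖∑ n ∈ T, a n * cub m n‖ ^ 2 ≤ B * ∑ n ∈ T, ‖a n‖ ^ 2
/-- large sieve bound, all nonzero rows -/
def LA (K X B : ℝ) : Prop := ∀ (S T : Finset O) (a : O → ℂ), (∀ k ∈ S, k ≠ 0 ∧ N k ≤ K) →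
  (∀ n ∈ T, SP n ∧ N n ≤ X) → ∑ k ∈ S, ‖∑ n ∈ T, a n * cub k n‖ ^ 2 ≤ B * ∑ n ∈ T, ‖a n‖ ^ 2

/-- classical large sieve with constant loss -/
def CLStmt : Prop := ∃ C : ℝ, 0 ≤ C ∧ ∀ (Q X : ℝ) (S : Finset (O × O)) (T : Finset O) (a : O → ℂ), 1 ≤ Q → 1 ≤ X →
  (∀ h ∈ S, Prim h.1 ∧ Prim h.2 ∧ Squarefree (h.1 * h.2) ∧ N (h.1 * h.2) ≤ Q) →
  (∀ n ∈ T, Prim n ∧ N n ≤ X) →
  ∑ h ∈ S, ‖∑ n ∈ T, a n * cub (h.1 * h.2 ^ 2) n‖ ^ 2 ≤ C * (X + Q ^ 2) * ∑ n ∈ T, ‖a n‖ ^ 2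

/-- Gaussian kernel -/
def Tk (M : ℝ) (n1 n2 : O) : ℂ := ∑' m : O, cub m n1 * conj (cub m n2) * cexp (-(N m / M : ℝ))
/-- rank one dual kernel -/
def Pk (M : ℝ) (n1 n2 : O) : ℂ := (Real.pi * M : ℝ) / (kap * (N n1 * N n2 : ℝ)) *
  ∑' h : O, conj (cub h n1 * gs n1) * (cub h n2 * gs n2) * cexp (-(sg * M * N h / (N n1 * N n2) : ℝ))

/-- both kernels in terms of the coprime kernel -/
def KTStmt : Prop := ∀ (M : ℝ) (g k1 k2 : O), 0 < M → Prim g → Prim k1 → Prim k2 → Squarefree (g * k1 * k2) →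
  Tk M (g * k1) (g * k2) = ∑ e ∈ dv g, mu e * (cub e k1 * conj (cub e k2)) * Tk (M / N e) k1 k2
def KPStmt : Prop := ∀ (M : ℝ) (g k1 k2 : O), 0 < M → Prim g → Prim k1 → Prim k2 → Squarefree (g * k1 * k2) →
  Pk M (g * k1) (g * k2) = ∑ e ∈ dv g, ∑ f ∈ dv g, if e * f = g then
    mu e * (N f : ℂ) * (cub (e * f ^ 2) k1 * conj (cub (e * f ^ 2) k2)) * Tk (M / (N e * N f ^ 2)) k1 k2 else 0

/-- the kernel identity -/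
def KIStmt : Prop := ∀ (M X : ℝ) (n1 n2 : O), 0 < M → n1 ∈ SQ X → n2 ∈ SQ X →
  (∑ f ∈ SQ X, ∑ k1 ∈ SQ X, ∑ k2 ∈ SQ X, if f * k1 = n1 ∧ f * k2 = n2 then
    (N f : ℂ) * (cub (f ^ 2) k1 * conj (cub (f ^ 2) k2)) * Tk (M / N f ^ 2) k1 k2 else 0) =
  ∑ e ∈ SQ X, ∑ k1 ∈ SQ X, ∑ k2 ∈ SQ X, if e * k1 = n1 ∧ e * k2 = n2 then Pk M k1 k2 else 0

/-- quadratic form of a kernel -/
def Fm (K : O → O → ℂ) (X : ℝ) (a : O → ℂ) : ℂ :=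
  ∑ n1 ∈ SQ X, ∑ n2 ∈ SQ X, a n1 * conj (a n2) * K n1 n2
/-- shifted coefficients -/
def sh (X : ℝ) (a : O → ℂ) (e n : O) : ℂ := if e * n ∈ SQ X then a (e * n) else 0

/-- positivity step -/
def ST1Stmt : Prop := ∀ (M X : ℝ) (a : O → ℂ), 0 < M →
  (Fm (Tk M) X a).re ≤ ∑ e ∈ SQ X, (Fm (Pk M) X (sh X a e)).re ∧
  ∀ S : Finset O, (∀ m ∈ S, N m ≤ M) →
    ∑ m ∈ S, ‖∑ n ∈ SQ X, a n * cub m n‖ ^ 2 ≤ 3 * (Fm (Tk M) X a).re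

/-- coefficients vanish outside the shell `Y/2 < N n ≤ Y` -/
def Shell (Y : ℝ) (b : O → ℂ) : Prop := ∀ n, b n ≠ 0 → Y / 2 < N n ∧ N n ≤ Y

/-- bound for the dual form -/
def ST2Stmt : Prop := ∃ C : ℝ, 0 ≤ C ∧ ∀ (M X Y α β γ : ℝ) (b : O → ℂ), 0 < M → 0 < Y → 0 ≤ α → 0 ≤ β → 0 ≤ γ →
  Shell Y b → (∀ K : ℝ, 1 ≤ K → LA K Y (α * K ^ (1 / 3 : ℝ) + β * K ^ (2 / 3 : ℝ) + γ * K ^ (4 / 3 : ℝ))) →
  (Fm (Pk M) X b).re ≤ 4 * M * ‖b 1‖ ^ 2 + C * (M / Y) * min 1 (Y / Real.sqrt M) *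
    (α * (Y ^ 2 / M) ^ (1 / 3 : ℝ) + β * (Y ^ 2 / M) ^ (2 / 3 : ℝ) + γ * (Y ^ 2 / M) ^ (4 / 3 : ℝ)) *
      ∑ n ∈ SQ X, ‖b n‖ ^ 2

/-- shape of the inductive bound -/
def Ps (l M X : ℝ) : ℝ := M + X + (M * X) ^ (2 / 3 : ℝ) + l ^ (2 / 3 : ℝ) * (min M X) ^ (4 / 3 : ℝ)
/-- inductive hypothesis -/
def HH (l Z c : ℝ) : Prop := ∀ M X : ℝ, 0 < M → 0 < X → min M X ≤ Z → LB M X (c * Ps l M X)

/-- all rows: `k = u k1 k2^2`, `u = e lam^v k3^3` -/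
def BAStmt : Prop := ∃ C : ℝ, 0 ≤ C ∧ ∀ (l c K X : ℝ), 1 ≤ l → 1 ≤ c → 1 ≤ K → 1 ≤ X →
  (∀ M : ℝ, 0 < M → LB M X (c * Ps l M X)) →
  LA K X (C * X * K ^ (1 / 3 : ℝ) + C * c * X ^ (2 / 3 : ℝ) * K ^ (2 / 3 : ℝ) +
    C * c * l ^ (2 / 3 : ℝ) * K ^ (4 / 3 : ℝ))

/-- divisor weights -/
def hw (D : ℝ) (e : O) : ℝ := N e ^ (-2 / 3 : ℝ) * min 1 (D / N e)
def rho (D : ℝ) (n : O) : ℝ := ∑ e ∈ dv n, hw D e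

/-- weighted bound on one shell -/
def WB (M Y A E : ℝ) : Prop := ∀ (S T : Finset O) (a : O → ℂ), (∀ m ∈ S, N m ≤ M) →
  (∀ n ∈ T, SP n ∧ Y / 2 < N n ∧ N n ≤ Y) → ∑ m ∈ S, ‖∑ n ∈ T, a n * cub m n‖ ^ 2 ≤
    A * M * ∑ n ∈ T, ‖a n‖ ^ 2 + E * (M * Y) ^ (2 / 3 : ℝ) * ∑ n ∈ T, ‖a n‖ ^ 2 * rho (Y / Real.sqrt M) n

def WSStmt : Prop := ∃ C : ℝ, 0 ≤ C ∧ ∀ (l Z c M Y : ℝ), 1 ≤ l → 1 ≤ c → HH l Z c → 0 < Y → Y ≤ Z → l * Y ≤ M →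
  WB M Y C (C * (1 + c * l ^ (-1 / 3 : ℝ)))

/-- unweighted bound on one shell -/
def SB (M Y B : ℝ) : Prop := ∀ (S T : Finset O) (a : O → ℂ), (∀ m ∈ S, N m ≤ M) →
  (∀ n ∈ T, SP n ∧ Y / 2 < N n ∧ N n ≤ Y) → ∑ m ∈ S, ‖∑ n ∈ T, a n * cub m n‖ ^ 2 ≤ B * ∑ n ∈ T, ‖a n‖ ^ 2

/-- removal of the weight -/
def TRStmt : Prop := ∃ C : ℝ, 0 ≤ C ∧ ∀ (M Y A E : ℝ), 0 < M → Real.sqrt M ≤ Y → 0 ≤ A → 0 ≤ E →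
  (∀ Y' : ℝ, 0 < Y' → Y' ≤ Y → WB M Y' A E) → SB M Y (C * (A + E) * (M * Y) ^ (2 / 3 : ℝ))

/-- dyadic assembly -/
def ASStmt : Prop := ∃ C : ℝ, 0 ≤ C ∧ ∀ (M X E : ℝ), 1 ≤ M → 0 < X → 0 ≤ E →
  (∀ Y : ℝ, Real.sqrt M ≤ Y → Y ≤ X → SB M Y (E * (M * Y) ^ (2 / 3 : ℝ))) →
  LB M X (C * M + C * E * (M * X) ^ (2 / 3 : ℝ))

/-- duality -/
def DUStmt : Prop := ∀ M X B : ℝ, 0 ≤ B → LB M X B → LB X M B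

/-- the sharp cubic large sieve -/
def SLStmt : Prop := ∃ C : ℝ, 0 ≤ C ∧ ∀ M X : ℝ, 0 < M → 0 < X → LB M X (C * (M + X + (M * X) ^ (2 / 3 : ℝ)))
/-- all rows -/
def SLAStmt : Prop := ∃ C : ℝ, 0 ≤ C ∧ ∀ K X : ℝ, 1 ≤ K → 1 ≤ X →
  LA K X (C * X * K ^ (1 / 3 : ℝ) + C * X ^ (2 / 3 : ℝ) * K ^ (2 / 3 : ℝ) + C * K ^ (4 / 3 : ℝ))

/-- membership lemmas -/
def MemStmt : Prop := (∀ X n, n ∈ SQ X ↔ SP n ∧ N n ≤ X) ∧ (∀ g d, g ≠ 0 → (d ∈ dv g ↔ Prim d ∧ d ∣ g))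

theorem memS (hB : Bas) : MemStmt := by
  refine ⟨fun X n => ?_, fun g d hg => ?_⟩
  · have h : {n : O | SP n ∧ N n ≤ X}.Finite := (hB.b3.fin X).subset fun n hn => hn.2
    simp [SQ, h]
  · have h : {d : O | Prim d ∧ d ∣ g}.Finite := by
      refine (hB.b3.fin (N g)).subset fun d hd => ?_
      obtain ⟨c, rfl⟩ := hd.2
      have hc : c ≠ 0 := by rintro rfl; simp at hg
      have h1 := hB.b1.N_one_le c hc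
      have h0 : 0 ≤ N d := Nat.cast_nonneg _
      show N d ≤ N (d * c)
      rw [hB.b1.N_mul]; nlinarith
    simp [dv, h]

end Vale.Agent.P006
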