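import Vale.Agent.P006.A.CT0
import Vale.Agent.P006.SL
import Vale.Agent.P006.Z0
import Vale.Agent.P006.Vau

/-! P006 main branch: the type I estimate on average for squarefree moduli. -/

noncomputable section
open Complex MeasureTheory
open scoped Classical ComplexConjugate

namespace Vale.Agent.P006.MI
open Vale.Agent.P026

/-- Gauss sum minus its model -/
def del (n : O) : ℂ := if SP n then gt n - ((K.cstar * N n ^ (-1 / 6 : ℝ) : ℝ) : ℂ) else 0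
def al : ℝ := 2 * Real.pi / (9 * Real.sqrt 3)
/-- twisted log-normal weight -/
def wt (t Y x : ℝ) : ℂ := (x : ℂ) ^ (t * I) * VV Y x
/-- its Mellin transform at `5/6` -/
def mw (t Y : ℝ) : ℂ :=
  (Real.sqrt Real.pi : ℂ) * cexp ((5 / 6 + t * I) ^ 2 / 4) * (Y : ℂ) ^ (5 / 6 + t * I)
def A (s : O) (t Y : ℝ) : ℂ := ∑' k, if Prim k then K.cc k * cub s k * wt t Y (N k) else 0
def B (s : O) (t Y : ℝ) : ℂ :=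
  ∑' k, if Prim k ∧ IsCoprime k s then (K.ww k : ℂ) * wt t Y (N k) else 0
def Dl (s : O) (t Y : ℝ) : ℂ :=
  gt s * A s t Y - ((K.cstar * N s ^ (-1 / 6 : ℝ) : ℝ) : ℂ) * B s t Y
/-- the type I sum -/
def P (s : O) (t Y : ℝ) : ℂ := ∑' n, if Prim n then del (s * n) * wt t Y (N n) else 0

/-- the residue -/
def RHOStmt : Prop := Z.CT ((K.cstar * al : ℝ) : ℂ)

/-- twisted pointwise type I estimate -/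
def TWStmt : Prop := ∀ ρ : ℂ, Z.CT ρ → ∀ d : ℝ, 0 < d → d ≤ 1 / 4 → ∃ C : ℝ, 0 ≤ C ∧
  ∀ (s : O) (t Y : ℝ), Prim s → 0 < Y →
  ‖A s t Y - ρ * K.MM s * mw t Y‖ ≤ C * N s ^ (1 / 2 + 3 * d) * (1 + |t|) ^ 4 * Y ^ (-d)

/-- lattice points in a disc -/
def GCStmt : Prop := ∃ C : ℝ, 0 ≤ C ∧ ∀ x : ℝ, 0 ≤ x →
  |((Vau.PS x).card : ℝ) - al * x| ≤ C * Real.sqrt x

def W0Stmt : Prop := ∃ C : ℝ, 0 ≤ C ∧ ∀ t X : ℝ, 0 < X →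
  ‖(∑' l, if Prim l then ((N l ^ (-1 / 6 : ℝ) : ℝ) : ℂ) * wt t X (N l) else 0) - al * mw t X‖ ≤
    C * (1 + |t|) * X ^ (11 / 20 : ℝ)

def W8Stmt : Prop := ∀ ε : ℝ, 0 < ε → ∃ C : ℝ, 0 ≤ C ∧ ∀ (s : O) (t Y : ℝ), Prim s → 0 < Y →
  ‖B s t Y - ((al * K.EP s : ℝ) : ℂ) * mw t Y‖ ≤ C * N s ^ ε * (1 + |t|) * Y ^ (11 / 20 : ℝ)

def DLStmt : Prop := ∀ d : ℝ, 0 < d → d ≤ 1 / 4 → ∃ C : ℝ, 0 ≤ C ∧ ∀ (s : O) (t Y : ℝ), SP s → 0 < Y →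
  ‖Dl s t Y‖ ≤ C * (1 + |t|) ^ 4 *
    (N s ^ (1 / 2 + 3 * d) * Y ^ (-d) + N s ^ (d - 1 / 6) * Y ^ (11 / 20 : ℝ))

/-- trivial bound -/
def P0Stmt : Prop := ∃ C : ℝ, 0 ≤ C ∧ ∀ (s : O) (t Y : ℝ), 0 < Y →
  (Summable fun n => ‖if Prim n then del (s * n) * wt t Y (N n) else 0‖) ∧
  ‖P s t Y‖ ≤ C * (Y * min 1 Y) ∧ (¬ SP s → P s t Y = 0)

/-- theta coefficients in terms of squarefree sums -/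
def CUStmt : Prop := ∀ (s : O) (t Y : ℝ), SP s → 0 < Y →
  Dl s t Y = ∑' u, if Prim u ∧ IsCoprime u s then
    (Real.sqrt (N u) : ℂ) * ((N u ^ 3 : ℝ) : ℂ) ^ (t * I) * P s t (Y / N u ^ 3) else 0

/-- truncated Moebius inversion -/
def CBStmt : Prop := ∀ ε : ℝ, 0 < ε → ε ≤ 1 / 4 → ∃ C : ℝ, 0 ≤ C ∧ ∀ (s : O) (t Y E : ℝ), SP s → 0 < Y →
  1 ≤ E → (Summable fun u => if Prim u ∧ E < N u then N u ^ (1 / 2 + ε) * ‖P s t (Y / N u ^ 3)‖ else 0) ∧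
  ‖P s t Y‖ ≤ ∑ e ∈ Vau.PS E, Real.sqrt (N e) * ‖Dl s t (Y / N e ^ 3)‖ +
    C * ∑' u, if Prim u ∧ E < N u then N u ^ (1 / 2 + ε) * ‖P s t (Y / N u ^ 3)‖ else 0

/-- large sieve bound -/
def PLStmt : Prop := ∃ C : ℝ, 0 ≤ C ∧ ∀ (S : Finset O) (R t Y : ℝ) (Yf : O → ℝ), 1 ≤ R → 0 < Y →
  (∀ s ∈ S, SP s ∧ N s ≤ R ∧ Y ≤ Yf s ∧ Yf s ≤ 2 * Y) → ∑ s ∈ S, ‖P s t (Yf s)‖ ≤
    C * (R * Y ^ (3 / 5 : ℝ) + R ^ (1 / 2 : ℝ) * Y + (R * Y) ^ (5 / 6 : ℝ))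

/-- tails of the lattice zeta function and partial sums -/
def ZTStmt : Prop := (∀ σ : ℝ, 1 < σ → ∃ C : ℝ, 0 ≤ C ∧ ∀ E : ℝ, 1 ≤ E →
    (Summable fun u : O => if Prim u ∧ E < N u then N u ^ (-σ) else 0) ∧
    (∑' u : O, if Prim u ∧ E < N u then N u ^ (-σ) else 0) ≤ C * E ^ (1 - σ)) ∧
  (∀ σ : ℝ, σ < 1 → ∃ C : ℝ, 0 ≤ C ∧ ∀ (S : Finset O) (R : ℝ), 1 ≤ R → (∀ s ∈ S, s ≠ 0 ∧ N s ≤ R) →
    ∑ s ∈ S, N s ^ (-σ) ≤ C * R ^ (1 - σ)) ∧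
  ∀ σ : ℝ, 1 < σ → ∃ C : ℝ, 0 ≤ C ∧ ∀ S : Finset O, ∑ s ∈ S, N s ^ (-σ) ≤ C

/-- END statement: type I estimate up to level `0.54` -/
def TIEStmt : Prop := ∃ C : ℝ, 0 ≤ C ∧ ∀ (S : Finset O) (R t Y : ℝ) (Yf : O → ℝ), 1 ≤ R → 1 ≤ Y →
  (R * Y) ^ (46 / 100 : ℝ) ≤ Y → (∀ s ∈ S, SP s ∧ N s ≤ R ∧ Y ≤ Yf s ∧ Yf s ≤ 2 * Y) →
  ∑ s ∈ S, ‖P s t (Yf s)‖ ≤ C * (1 + |t|) ^ 4 * (R * Y) ^ (5 / 6 - 1 / 500 : ℝ)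

end Vale.Agent.P006.MI
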