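import Vale.Agent.P026.M.KM

/-! P006: positivity step for the cubic large sieve. -/

noncomputable section
open Complex
open scoped Classical ComplexConjugate

namespace Vale.Agent.P006.H23

open Vale.Agent.P026 Vale.Agent.P026.KMM

def tg (k : O) : ℂ := conj (gs k) / (Real.sqrt (N k) : ℂ)
def K2 (k1 k2 m : O) : ℂ := tg k1 * conj (tg k2) * II 2 k1 k2 m
def pt (Q : Finset O) (n : O) : O := ∏ p ∈ Q, if p ∣ n then p else 1

variable (hB : Bas) (hC : CRStmt) (hH : HD) (h8 : B8) (hX : SX)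

include hB hX in
lemma dd2 {k1 k2 : O} (h1 : OP k1) (h2 : OP k2) (h : O) :
    dd 2 k1 k2 h = conj (cub h k1) * cub h k2 := by
  rw [dd, ← map_pow, hX.two _ _ (hB.b2.ne _ h1.1), hX.two _ _ (hB.b2.ne _ h2.1)]

include hB hH in
lemma tg_norm {k : O} (h : OP k) (hs : Squarefree k) : ‖tg k‖ = 1 := by
  have p : 0 < N k := lt_of_lt_of_le one_pos (hB.b1.N_one_le _ (hB.b2.ne _ h.1))
  rw [tg, norm_div, Complex.norm_conj, Complex.norm_real, Real.norm_of_nonneg (Real.sqrt_nonneg _),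
    ← hH.n3 k (hB.b2.cop _ h.1) hs, Real.sqrt_sq (norm_nonneg _), div_self]
  intro c
  rw [← hH.n3 k (hB.b2.cop _ h.1) hs, c] at p
  simp at p

include hB hC hH hX in
lemma K2_mul {a1 a2 b1 b2 : O} (m : O) (h1 : OP a1) (h2 : OP a2) (h3 : OP b1) (h4 : OP b2)
    (hc : IsCoprime (a1 * a2) (b1 * b2)) :
    K2 (a1 * b1) (a2 * b2) m = K2 a1 a2 m * K2 b1 b2 m := by
  have c11 : IsCoprime a1 b1 := hc.of_mul_left_left.of_mul_right_left
  have c12 : IsCoprime a1 b2 := hc.of_mul_left_left.of_mul_right_right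
  have c21 : IsCoprime a2 b1 := hc.of_mul_left_right.of_mul_right_left
  have c22 : IsCoprime a2 b2 := hc.of_mul_left_right.of_mul_right_right
  have x11 := congrArg conj (hB.b6.cube _ _ c11)
  rw [map_pow, map_one] at x11
  have x22 := hB.b6.cube _ _ c22
  have x12 := mul_conj_one (hB.b6.norm _ _ c12)
  have x21 := mul_conj_one (hB.b6.norm _ _ c21)
  have x : conj (cub a1 b1) ^ 3 * cub a2 b2 ^ 3 * (cub a1 b2 * conj (cub a1 b2)) *
      (cub a2 b1 * conj (cub a2 b1)) = 1 := by rw [x11, x22, x12, x21]; ring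
  unfold K2
  rw [II_mul hB hX 2 m h1 h2 h3 h4 hc, dd2 hB hX h1 h2, dd2 hB hX h3 h4]
  simp only [tg, hH.mul3 _ _ h1.1 h3.1 c11, hH.mul3 _ _ h2.1 h4.1 c22, sqrtN_mul hB, map_mul,
    map_inv₀, conj_ofReal, conj_conj,
    hB.b6.mul_l _ _ _ (hB.b2.cop _ h1.1), hB.b6.mul_l _ _ _ (hB.b2.cop _ h2.1),
    hB.b6.mul_l _ _ _ (hB.b2.cop _ h3.1), hB.b6.mul_l _ _ _ (hB.b2.cop _ h4.1),
    hC b1 a1 h3.1 h1.1, hC b2 a1 h4.1 h1.1, hC b1 a2 h3.1 h2.1, hC b2 a2 h4.1 h2.1,
    div_eq_mul_inv, mul_inv]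
  linear_combination (conj (gs a1) * (Real.sqrt (N a1) : ℂ)⁻¹ * (gs a2 * (Real.sqrt (N a2) : ℂ)⁻¹) *
    (conj (gs b1) * (Real.sqrt (N b1) : ℂ)⁻¹ * (gs b2 * (Real.sqrt (N b2) : ℂ)⁻¹)) *
    (II 2 a1 a2 m * II 2 b1 b2 m)) * x

lemma op1 : OP 1 := ⟨by simp [Prim], isCoprime_one_left⟩

include hB hH hX in
lemma K2_pr {n : O} (m : O) (hn : OP n) (hs : Squarefree n) :
    K2 n 1 m = cub m n ∧ K2 1 n m = conj (cub m n) := by
  have c3 := hB.b2.cop _ hn.1
  have p : 0 < N n := lt_of_lt_of_le one_pos (hB.b1.N_one_le _ (hB.b2.ne _ hn.1))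
  have sq : (Real.sqrt (N n) : ℂ) ≠ 0 := ofReal_ne_zero.2 (Real.sqrt_pos.2 p).ne'
  have n3 : gs n * conj (gs n) = Real.sqrt (N n) * Real.sqrt (N n) := by
    rw [← ofReal_mul, Real.mul_self_sqrt p.le, Complex.mul_conj, Complex.normSq_eq_norm_sq,
      hH.n3 n c3 hs]
  have t1 : tg 1 = 1 := by
    rw [tg, gs, sum_one hB _ fun x => by
      rw [hB.b1.eQ_dvd _ _ (one_dvd _), hB.b6.unit_r _ _ isUnit_one]; simp, N_one hB]
    simp
  have i : ∀ m, II 2 n 1 m = (Real.sqrt (N n) : ℂ)⁻¹ * (cub m n * gs n) := fun m => by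
    rw [II, mul_one, ← hB.b6.neg_l m n c3, ← hH.tw3 n (-m) c3 hs]
    congr 1
    refine Finset.sum_congr rfl fun h _ => ?_
    rw [dd2 hB hX hn op1, hB.b6.unit_r _ _ isUnit_one, mul_one]
    congr 2
    ring
  have i' : II 2 1 n m = (Real.sqrt (N n) : ℂ)⁻¹ * conj (cub m n * gs n) := by
    have := II_conj hB 2 n 1 (-1 * m)
    rw [show -1 * (-1 * m) = m by ring, i, neg_one_mul, hB.b6.neg_l m n c3] at this
    rw [← this, map_mul, map_inv₀, conj_ofReal]
  constructor
  · rw [K2, t1, i, tg, map_one]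
    field_simp
    linear_combination cub m n * n3
  · rw [K2, t1, i', tg, map_div₀, conj_conj, conj_ofReal, map_mul]
    field_simp
    linear_combination conj (cub m n) * n3

include hB hH hX in
lemma K2_pp {p : O} (m : O) (hp : Prime p) (ho : OP p) :
    K2 p p m + 1 = cub m p * conj (cub m p) + ((if p ^ 2 ∣ m then N p else 0 : ℝ) : ℂ) := by
  have n0 := hp.ne_zero
  have q : 0 < N p := lt_of_lt_of_le one_pos (hB.b1.N_one_le _ n0)
  have q' : (N p : ℂ) ≠ 0 := ofReal_ne_zero.2 q.ne'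
  have ind : ∀ h, cub h p * conj (cub h p) = 1 - if p ∣ h then 1 else 0 := fun h => by
    split_ifs with c
    · rw [hB.b6.zero h p n0 fun d => (hp.coprime_iff_not_dvd.1 d.symm) c]; simp
    · rw [mul_conj_one (hB.b6.norm _ _ (hp.coprime_iff_not_dvd.2 c).symm)]; simp
  have s1 := hB.b4.orth (p * p) (-m) (mul_ne_zero n0 n0)
  have pe : Pe (p * p) fun h => (if p ∣ h then 1 else 0 : ℂ) * eQ (-m * h) (p * p) := fun a t => by
    have : p ∣ a + p * p * t ↔ p ∣ a := by
      rw [mul_assoc]; exact dvd_add_left (dvd_mul_right _ _)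
    show (if p ∣ a + p * p * t then 1 else 0 : ℂ) * eQ (-m * (a + p * p * t)) (p * p) = _
    rw [show -m * (a + p * p * t) = -m * a + p * p * (-m * t) by ring, hB.b1.eQ_add,
      hB.b1.eQ_dvd _ _ (dvd_mul_right _ _), mul_one]
    simp only [this]
  have s2 : ∑ h ∈ Rs (p * p), (if p ∣ h then 1 else 0 : ℂ) * eQ (-m * h) (p * p) =
      if p ∣ -m then (N p : ℂ) else 0 := by
    rw [hB.b4.lift p p _ n0 n0 pe, ← hB.b4.orth p (-m) n0]
    obtain ⟨r, hr, hd⟩ := hB.b4.ex p 0 n0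
    rw [zero_sub, dvd_neg] at hd
    rw [Finset.sum_eq_single_of_mem r hr]
    · obtain ⟨u, rfl⟩ := hd
      have := hB.b4.affine p (fun x => eQ (-m * x) p) 1 u n0 (fun a t => by
        show eQ (-m * (a + p * t)) p = _
        rw [show -m * (a + p * t) = -m * a + p * (-m * t) by ring, hB.b1.eQ_add,
          hB.b1.eQ_dvd _ _ (dvd_mul_right _ _), mul_one]) isCoprime_one_left
      rw [← this]
      refine Finset.sum_congr rfl fun x _ => ?_
      rw [if_pos (dvd_add (dvd_mul_right _ _) (dvd_mul_right _ _)), one_mul,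
        show -m * (p * u + p * x) = p * (-m * (1 * x + u)) by ring, hB.b1.eQ_mul _ _ _ n0]
    · intro r' hr' hne
      refine Finset.sum_eq_zero fun x _ => ?_
      rw [if_neg, zero_mul]
      intro c
      exact hne (hB.b4.uniq p r' r n0 hr' hr
        (dvd_sub ((dvd_add_left (dvd_mul_right _ _)).1 c) hd))
  have i : II 2 p p m = (N p : ℂ)⁻¹ * ((if p * p ∣ -m then (N (p * p) : ℂ) else 0) -
      if p ∣ -m then (N p : ℂ) else 0) := by
    rw [II, hB.b1.N_mul, Real.sqrt_mul_self q.le, ← hB.b1.N_mul, ← s1, ← s2,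
      ← Finset.sum_sub_distrib]
    congr 1
    refine Finset.sum_congr rfl fun h _ => ?_
    rw [dd2 hB hX ho ho, mul_comm (conj _), ind, neg_mul]
    ring
  rw [K2, mul_conj_one (tg_norm hB hH ho hp.squarefree), one_mul, i, ind, hB.b1.N_mul, ← pow_two p]
  simp only [dvd_neg]
  split_ifs <;> push_cast <;> field_simp <;> ring

include h8 in
lemma pt_op {Q : Finset O} (hQ : ∀ p ∈ Q, Prime p ∧ OP p) (n : O) : OP (pt Q n) :=
  Finset.prod_induction _ OP (fun a b => h8.op_mul a b) op1 fun p hp => by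
    split_ifs
    · exact (hQ p hp).2
    · exact op1

include hB in
lemma pt_cop {Q : Finset O} (hQ : ∀ p ∈ Q, Prime p ∧ OP p) {q : O} (hq : Prime q ∧ OP q)
    (hn : q ∉ Q) (n : O) : IsCoprime q (pt Q n) :=
  IsCoprime.prod_right fun p hp => by
    split_ifs
    · refine hq.1.coprime_iff_not_dvd.2 fun d => hn ?_
      rw [hB.b2.uniq q p hq.2.1 (hQ p hp).2.1 (hq.1.associated_of_dvd (hQ p hp).1 d)]
      exact hp
    · exact isCoprime_one_right

include hB hC hH h8 hX in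
lemma K2_prod (m n1 n2 : O) (Q : Finset O) (hQ : ∀ p ∈ Q, Prime p ∧ OP p) :
    ∏ p ∈ Q, K2 (if p ∣ n1 then p else 1) (if p ∣ n2 then p else 1) m =
      K2 (pt Q n1) (pt Q n2) m := by
  induction Q using Finset.induction_on with
  | empty =>
    simp only [pt, Finset.prod_empty]
    rw [(K2_pr hB hH hX m op1 squarefree_one).1, hB.b6.unit_r _ _ isUnit_one]
  | insert q Q hn ih =>
    have hQ' : ∀ p ∈ Q, Prime p ∧ OP p := fun p hp => hQ p (Finset.mem_insert_of_mem hp)
    have hq := hQ q (Finset.mem_insert_self _ _)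
    have o : ∀ n, OP (if q ∣ n then q else 1) := fun n => by
      split_ifs
      · exact hq.2
      · exact op1
    have c : ∀ n n', IsCoprime (if q ∣ n then q else 1) (pt Q n') := fun n n' => by
      split_ifs
      · exact pt_cop hB hQ' hq hn _
      · exact isCoprime_one_left
    rw [Finset.prod_insert hn, ih hQ', ← K2_mul hB hC hH hX m (o _) (o _) (pt_op h8 hQ' _)
      (pt_op h8 hQ' _) (((c _ _).mul_left (c _ _)).mul_right ((c _ _).mul_left (c _ _)))]
    simp only [pt, Finset.prod_insert hn]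

include hB h8 in
lemma pt_eq {P : Finset O} (hP : ∀ p ∈ P, Prime p ∧ OP p) {n : O} (hn : OP n) (hs : Squarefree n)
    (h : pf n ⊆ P) : pt P n = n := by
  have n0 := hB.b2.ne _ hn.1
  conv_rhs => rw [h8.prod' n P hn.1 h fun p hp => ⟨(hP p hp).1, (hP p hp).2.1⟩]
  refine Finset.prod_congr rfl fun p hp => ?_
  split_ifs with c
  · rw [(h8.sqf n hn.1).1 hs p ((h8.mem n p n0).2 ⟨(hP p hp).1, (hP p hp).2.1, c⟩), pow_one]
  · rw [(h8.vl_zero p n (hP p hp).1 n0).2 c, pow_zero]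

include hB hC hH h8 hX in
/-- positivity -/
lemma psd (hS : SCHStmt) (T : Finset O) (x : O → ℂ) (hT : ∀ n ∈ T, OP n ∧ Squarefree n) :
    ∃ (I : Finset (Finset O)) (E : Finset O → O) (T' : Finset O → Finset O),
      (∀ t ∈ I, OP (E t) ∧ (T' t).card ≤ T.card ∧ ∀ k ∈ T' t, OP k ∧ Squarefree k ∧ E t * k ∈ T) ∧
      ∑ t ∈ I, ∑ k ∈ T' t, ‖x (E t * k)‖ ^ 2 ≤ ∑ n ∈ T, 2 ^ (pf n).card * ‖x n‖ ^ 2 ∧
      ∀ m, ‖∑ n ∈ T, x n * cub m n‖ ^ 2 ≤ (∑ t ∈ I, ∑ k1 ∈ T' t, ∑ k2 ∈ T' t,
        x (E t * k1) * conj (x (E t * k2)) * K2 k1 k2 m).re := by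
  obtain ⟨P, hP⟩ : ∃ P, P = T.biUnion pf := ⟨_, rfl⟩
  have n0 : ∀ n ∈ T, n ≠ 0 := fun n hn => hB.b2.ne _ (hT n hn).1.1
  have sub : ∀ n ∈ T, pf n ⊆ P := fun n hn => hP ▸ Finset.subset_biUnion_of_mem pf hn
  have pr : ∀ p ∈ P, Prime p ∧ OP p := fun p hp => by
    rw [hP, Finset.mem_biUnion] at hp
    obtain ⟨n, hn, hp⟩ := hp
    obtain ⟨a, b, c⟩ := (h8.mem n p (n0 n hn)).1 hp
    exact ⟨a, h8.op_dvd _ _ (hT n hn).1 b c⟩
  let U : Finset O → Finset O := fun t => T.filter fun n => ∀ p ∈ t, p ∣ n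
  have fac : ∀ t ∈ P.powerset, ∀ n ∈ U t, (∏ p ∈ t, p) * pt (P \ t) n = n := by
    intro t ht n hn
    obtain ⟨h1, h2⟩ := Finset.mem_filter.1 hn
    conv_rhs => rw [← pt_eq hB h8 pr (hT n h1).1 (hT n h1).2 (sub n h1), pt,
      ← Finset.prod_sdiff (Finset.mem_powerset.1 ht), mul_comm]
    congr 1
    exact Finset.prod_congr rfl fun p hp => (if_pos (h2 p hp)).symm
  have inj : ∀ t ∈ P.powerset, Set.InjOn (pt (P \ t)) (U t) := fun t ht a ha b hb e => by
    rw [← fac t ht a ha, ← fac t ht b hb, e]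
  have prd : ∀ t, ∀ p ∈ P \ t, Prime p ∧ OP p := fun t p hp => pr p (Finset.mem_sdiff.1 hp).1
  refine ⟨P.powerset, fun t => ∏ p ∈ t, p, fun t => (U t).image (pt (P \ t)), fun t ht => ⟨?_,
    Finset.card_image_le.trans (Finset.card_filter_le _ _), fun k hk => ?_⟩, ?_, fun m => ?_⟩
  · exact Finset.prod_induction _ OP (fun a b => h8.op_mul a b) op1 fun p hp =>
      (pr p (Finset.mem_powerset.1 ht hp)).2
  · obtain ⟨n, hn, rfl⟩ := Finset.mem_image.1 hk
    have h1 := (Finset.mem_filter.1 hn).1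
    refine ⟨pt_op h8 (prd t) _, (hT n h1).2.squarefree_of_dvd ⟨∏ p ∈ t, p, ?_⟩,
      (fac t ht n hn).symm ▸ h1⟩
    rw [mul_comm, fac t ht n hn]
  · rw [Finset.sum_congr rfl fun t ht => Finset.sum_image (inj t ht),
      Finset.sum_congr rfl fun t ht => Finset.sum_congr rfl fun n hn => by rw [fac t ht n hn]]
    simp only [U, Finset.sum_filter]
    rw [Finset.sum_comm]
    refine Finset.sum_le_sum fun n hn => ?_
    rw [← Finset.sum_filter, Finset.sum_const, nsmul_eq_mul]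
    gcongr
    norm_cast
    rw [← Finset.card_powerset]
    refine Finset.card_le_card fun t ht => ?_
    obtain ⟨h1, h2⟩ := Finset.mem_filter.1 ht
    refine Finset.mem_powerset.2 fun p hp => ?_
    have := pr p (Finset.mem_powerset.1 h1 hp)
    exact (h8.mem n p (n0 n hn)).2 ⟨this.1, this.2.1, h2 p hp⟩
  · let a : O → ℕ → ℂ := fun p i => if i = 0 then 1 else cub m p
    let r : O → ℝ := fun p => if p ^ 2 ∣ m then N p else 0
    have r0 : ∀ p, 0 ≤ r p := fun p => by
      simp only [r]; split_ifs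
      · exact N_nonneg p
      · exact le_rfl
    have s := hS O O P (fun p i j => a p i * conj (a p j) + if i = 1 ∧ j = 1 then (r p : ℂ) else 0)
      a (fun _ => 1) (fun _ _ => zero_le_one) (fun p _ i j => by
        simp only [map_add, map_mul, conj_conj, and_comm (a := j = 1), apply_ite conj, conj_ofReal,
          map_zero, mul_comm]) (fun p _ n y => by
        simp only [mul_add, Finset.sum_add_distrib, add_re, one_mul]
        have e : ∑ i ∈ Finset.range n, ∑ j ∈ Finset.range n, y i * conj (y j) * (a p i * conj (a p j)) =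
            (‖∑ i ∈ Finset.range n, y i * a p i‖ ^ 2 : ℝ) := by
          rw [← Complex.normSq_eq_norm_sq, ← Complex.mul_conj, map_sum, Finset.sum_mul_sum]
          simp only [map_mul]
          exact Finset.sum_congr rfl fun _ _ => Finset.sum_congr rfl fun _ _ => by ring
        rw [e, ofReal_re, le_add_iff_nonneg_right, re_sum]
        refine Finset.sum_nonneg fun i _ => ?_
        rw [re_sum]
        refine Finset.sum_nonneg fun j _ => ?_
        split_ifs with c
        · rw [c.1, c.2, Complex.mul_conj, ← ofReal_mul, ofReal_re]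
          exact mul_nonneg (normSq_nonneg _) (r0 p)
        · simp) T (fun n p => if p ∣ n then 1 else 0) x
    rw [Finset.prod_const_one, one_mul] at s
    have e1 : ∀ n ∈ T, ∏ p ∈ P, a p (if p ∣ n then 1 else 0) = cub m n := fun n hn => by
      conv_rhs => rw [← pt_eq hB h8 pr (hT n hn).1 (hT n hn).2 (sub n hn),
        ← (K2_pr hB hH hX m (pt_op h8 pr n) (by
          rw [pt_eq hB h8 pr (hT n hn).1 (hT n hn).2 (sub n hn)]; exact (hT n hn).2)).1,
        ← pt_eq hB h8 pr op1 squarefree_one (by rw [h8.pf_one]; exact Finset.empty_subset _),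
        ← K2_prod hB hC hH h8 hX m _ _ P pr]
      refine Finset.prod_congr rfl fun p hp => ?_
      rw [if_neg (pr p hp).1.not_dvd_one]
      split_ifs
      · rw [(K2_pr hB hH hX m (pr p hp).2 (pr p hp).1.squarefree).1]; simp [a]
      · rw [(K2_pr hB hH hX m op1 squarefree_one).1, hB.b6.unit_r _ _ isUnit_one]; simp [a]
    rw [Finset.sum_congr rfl fun n hn => by rw [e1 n hn]] at s
    refine s.trans (le_of_eq ?_)
    congr 1
    have e2 : ∀ n1 n2, ∏ p ∈ P, (a p (if p ∣ n1 then 1 else 0) * conj (a p (if p ∣ n2 then 1 else 0)) +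
        if (if p ∣ n1 then 1 else 0) = 1 ∧ (if p ∣ n2 then 1 else 0) = 1 then (r p : ℂ) else 0) =
        ∑ t ∈ P.powerset, if (∀ p ∈ t, p ∣ n1) ∧ ∀ p ∈ t, p ∣ n2 then
          K2 (pt (P \ t) n1) (pt (P \ t) n2) m else 0 := fun n1 n2 => by
      rw [Finset.prod_congr rfl (g := fun p => (if p ∣ n1 ∧ p ∣ n2 then 1 else 0) +
        K2 (if p ∣ n1 then p else 1) (if p ∣ n2 then p else 1) m) fun p hp => ?_, Finset.prod_add]
      · refine Finset.sum_congr rfl fun t _ => ?_
        rw [K2_prod hB hC hH h8 hX m _ _ _ (prd t), Finset.prod_ite_zero]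
        simp only [Finset.prod_const_one, ite_mul, one_mul, zero_mul, forall₂_and]
      · have k := K2_pr hB hH hX m (pr p hp).2 (pr p hp).1.squarefree
        by_cases c1 : p ∣ n1 <;> by_cases c2 : p ∣ n2
        · simp only [c1, c2, if_true, and_self, a, one_ne_zero, if_false, r]
          rw [← K2_pp hB hH hX m (pr p hp).1 (pr p hp).2, add_comm]
        · simp [c1, c2, a, k.1]
        · simp [c1, c2, a, k.2]
        · simp [c1, c2, a, (K2_pr hB hH hX m op1 squarefree_one).1, hB.b6.unit_r _ _ isUnit_one]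
    simp only [e2, Finset.mul_sum]
    rw [Finset.sum_congr rfl fun n _ => Finset.sum_comm, Finset.sum_comm]
    refine Finset.sum_congr rfl fun t ht => ?_
    have e3 : ∑ k1 ∈ (U t).image (pt (P \ t)), ∑ k2 ∈ (U t).image (pt (P \ t)),
        x ((∏ p ∈ t, p) * k1) * conj (x ((∏ p ∈ t, p) * k2)) * K2 k1 k2 m =
        ∑ n ∈ U t, ∑ n' ∈ U t, x n * conj (x n') * K2 (pt (P \ t) n) (pt (P \ t) n') m := by
      rw [Finset.sum_image (inj t ht)]
      refine Finset.sum_congr rfl fun n hn => ?_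
      rw [Finset.sum_image (inj t ht)]
      exact Finset.sum_congr rfl fun n' hn' => by rw [fac t ht n hn, fac t ht n' hn']
    rw [e3]
    simp only [U, Finset.sum_filter]
    refine Finset.sum_congr rfl fun n1 _ => ?_
    split_ifs with c
    · refine Finset.sum_congr rfl fun n2 _ => ?_
      simp only [eq_true c, true_and, mul_ite, mul_zero]
    · simp only [eq_false c, false_and, if_false, mul_zero, Finset.sum_const_zero]

end Vale.Agent.P006.H23
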