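import Vale.Agent.P006.H23a
import Vale.Agent.P026.M.PS4
import Vale.Agent.P026.M.GPO

/-! P006: the Poisson step for the cubic large sieve. -/

noncomputable section
open Complex MeasureTheory
open scoped Classical ComplexConjugate

namespace Vale.Agent.P006

open Vale.Agent.P026 Vale.Agent.P026.KMM Vale.Agent.P026.PS4M

/-- large sieve bound `B` for members `m` with `P m`, `N m ≤ H` and at most `R` squarefree moduli
of norm at most `K` -/
def LB (P : O → Prop) (H K R B : ℝ) : Prop := ∀ (S T : Finset O) (a : O → ℂ),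
  (∀ m ∈ S, P m ∧ N m ≤ H) → (∀ n ∈ T, OP n ∧ Squarefree n ∧ N n ≤ K) → (T.card : ℝ) ≤ R →
  ∑ m ∈ S, ‖∑ n ∈ T, a n * cub m n‖ ^ 2 ≤ B * ∑ n ∈ T, ‖a n‖ ^ 2

namespace H23

variable (hB : Bas) (hC : CRStmt) (hH : HD) (h8 : B8) (hX : SX)

include hB hX in
lemma blk2 {T : Finset O} {y : O → ℂ} {k R H Φ M σ x G : ℝ} (hΦ : 0 ≤ Φ) (hk : 0 < k)
    (hM : 0 < M) (hσ : 0 ≤ σ) (hx : 0 < x) (hL : LB (· ≠ 0) H k R Φ)
    (hT : ∀ n ∈ T, OP n ∧ Squarefree n ∧ k / 2 ≤ N n ∧ N n ≤ k) (hR : (T.card : ℝ) ≤ R)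
    (hG : ∫⁻ u : ℝ, ‖Gamma (σ + u * I)‖ₑ * ENNReal.ofReal ((1 + |u|) ^ 0) ≤ ENNReal.ofReal G)
    (P : O → Prop) [DecidablePred P] (hP : ∀ h, P h → h ≠ 0 ∧ x ≤ N h ∧ N h ≤ H) :
    (∑' h : O, if P h then DU 2 (fun n => if n ∈ T then y n else 0) M σ h else 0) ≤
      ENNReal.ofReal ((M * x) ^ (-σ) * Φ * (2 * k ^ (2 * σ) / k) * (∑ n ∈ T, ‖y n‖ ^ 2) * G) := by
  rw [ENNReal.tsum_eq_iSup_sum]
  refine iSup_le fun S => ?_
  rw [← Finset.sum_filter]
  refine (sum_lint _ _).trans ?_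
  have s0 : 0 ≤ ∑ n ∈ T, ‖y n‖ ^ 2 := Finset.sum_nonneg fun _ _ => by positivity
  rw [ENNReal.ofReal_mul (by positivity)]
  refine le_trans ?_ (mul_le_mul_right hG _)
  rw [← lintegral_const_mul' _ _ ENNReal.ofReal_ne_top]
  refine lintegral_mono fun u => ?_
  have a := hL (S.filter P) T (fun n => conj (y n * (N n : ℂ) ^ (-1 / 2 + σ + u * I)))
    (fun h hh => ⟨(hP h (Finset.mem_filter.1 hh).2).1, (hP h (Finset.mem_filter.1 hh).2).2.2⟩)
    (fun n hn => ⟨(hT n hn).1, (hT n hn).2.1, (hT n hn).2.2.2⟩) hR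
  have b : ∑ n ∈ T, ‖conj (y n * (N n : ℂ) ^ (-1 / 2 + σ + u * I))‖ ^ 2 ≤
      2 * k ^ (2 * σ) / k * ∑ n ∈ T, ‖y n‖ ^ 2 := by
    rw [Finset.mul_sum]
    refine Finset.sum_le_sum fun n hn => ?_
    obtain ⟨-, -, c1, c2⟩ := hT n hn
    have p : 0 < N n := by linarith
    rw [Complex.norm_conj, norm_mul, Complex.norm_cpow_eq_rpow_re_of_pos p, mul_pow, mul_comm]
    gcongr
    rw [← Real.rpow_natCast, ← Real.rpow_mul p.le, show (-1 / 2 + σ + u * I : ℂ).re * (2 : ℕ) =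
      2 * σ - 1 by simp; ring, Real.rpow_sub_one p.ne', div_le_div_iff₀ p hk]
    have : N n ^ (2 * σ) ≤ k ^ (2 * σ) := by gcongr
    nlinarith [Real.rpow_nonneg hk.le (2 * σ)]
  calc _ ≤ ∑ h ∈ S.filter P, ‖Gamma (σ + u * I)‖ₑ * ENNReal.ofReal ((M * x) ^ (-σ) *
        ‖∑ n ∈ T, conj (y n * (N n : ℂ) ^ (-1 / 2 + σ + u * I)) * cub h n‖ ^ 2) := by
        refine Finset.sum_le_sum fun h hh => ?_
        have hx' := (hP h (Finset.mem_filter.1 hh).2).2.1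
        rw [mul_assoc, ENNReal.ofReal_mul (by positivity), ENNReal.ofReal_pow (norm_nonneg _),
          ← Complex.norm_conj, ofReal_norm, tsum_eq_sum (s := T) fun n hn => by simp [hn]]
        refine mul_le_mul_right (mul_le_mul' (ENNReal.ofReal_le_ofReal ?_) (le_of_eq ?_)) _
        · refine Real.rpow_le_rpow_of_nonpos (by positivity) ?_ (by linarith)
          calc M * x ≤ M * N h := by gcongr
            _ ≤ sg * (M * N h) := le_mul_of_one_le_left (mul_nonneg hM.le (hx.le.trans hx')) sg_ge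
            _ = _ := by ring
        · congr 2
          rw [map_sum]
          refine Finset.sum_congr rfl fun n hn => ?_
          beta_reduce
          rw [if_pos hn, map_mul, conj_conj, ← map_pow, hX.two _ _ (hB.b2.ne _ (hT n hn).1.1)]
          ring
    _ = ‖Gamma (σ + u * I)‖ₑ * ENNReal.ofReal ((M * x) ^ (-σ) * ∑ h ∈ S.filter P,
        ‖∑ n ∈ T, conj (y n * (N n : ℂ) ^ (-1 / 2 + σ + u * I)) * cub h n‖ ^ 2) := by
        rw [← Finset.mul_sum, Finset.mul_sum _ _ ((M * x) ^ (-σ)),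
          ENNReal.ofReal_sum_of_nonneg fun _ _ => by positivity]
    _ ≤ _ := by
        rw [pow_zero, ENNReal.ofReal_one, mul_one, mul_comm]
        refine mul_le_mul_left (ENNReal.ofReal_le_ofReal ?_) _
        calc _ ≤ (M * x) ^ (-σ) * (Φ * (2 * k ^ (2 * σ) / k * ∑ n ∈ T, ‖y n‖ ^ 2)) := by
              gcongr
              exact a.trans (by gcongr)
          _ = _ := by ring

include hB hX in
lemma oneT (h1 : PS1Stmt) (hΓ : GAM) {ε : ℝ} (hε : 0 < ε) (hε' : ε ≤ 4) : ∃ C : ℝ, 0 ≤ C ∧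
    ∀ (Φ : ℝ → ℝ) (T : Finset O) (y : O → ℂ) (k R M : ℝ), 0 < k → 1 ≤ M → (∀ H, 0 < H → 0 ≤ Φ H) →
    (∀ H, 0 < H → LB (· ≠ 0) H k R (Φ H)) → (∀ H t, 0 < H → 1 ≤ t → Φ (t * H) ≤ t ^ 3 * Φ H) →
    (∀ n ∈ T, OP n ∧ Squarefree n ∧ k / 2 ≤ N n ∧ N n ≤ k) → (T.card : ℝ) ≤ R →
    ‖∑' m : O, (Real.exp (-(N m / M)) : ℂ) * ∑ k1 ∈ T, ∑ k2 ∈ T, y k1 * conj (y k2) * II 2 k1 k2 m‖ ≤
      (4 * M + C * (1 + k ^ (2 * ε)) * (M / k * Φ (k ^ 2 / M))) * ∑ n ∈ T, ‖y n‖ ^ 2 := by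
  obtain ⟨G0, hG0, g0⟩ := gam_int hΓ hε 0
  obtain ⟨G4, hG4, g4⟩ := gam_int hΓ (σ := 4) (by norm_num) 0
  refine ⟨8 * G0 + 128 * G4, by positivity, fun Φ T y k R M hk hM hΦ hL hg hT hR => ?_⟩
  have M0 : 0 < M := by linarith
  obtain ⟨H, hH⟩ : ∃ H, H = k ^ 2 / M := ⟨_, rfl⟩
  have H0 : 0 < H := by rw [hH]; positivity
  obtain ⟨A, hA⟩ : ∃ A, A = ∑ n ∈ T, ‖y n‖ ^ 2 := ⟨_, rfl⟩
  have A0 : 0 ≤ A := hA ▸ Finset.sum_nonneg fun _ _ => by positivity
  have Φ0 := hΦ H H0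
  have key := h1 2 (fun n => if n ∈ T then y n else 0) M (fun h => if N h ≤ H then ε else 4)
    two_ne_zero M0 (fun n hn => (hT n (by_contra fun c => hn (if_neg c))).1)
    (summable_of_ne_finset_zero (s := T) fun n hn => by simp [hn]) fun h => by
      split_ifs <;> constructor <;> linarith
  have e : ∀ m, (∑' k : O × O, (if k.1 ∈ T then y k.1 else 0) * conj (if k.2 ∈ T then y k.2 else 0) *
      II 2 k.1 k.2 m) = ∑ k1 ∈ T, ∑ k2 ∈ T, y k1 * conj (y k2) * II 2 k1 k2 m := fun m => by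
    rw [tsum_eq_sum (s := T ×ˢ T) fun q hq => ?_, Finset.sum_product]
    · exact Finset.sum_congr rfl fun a ha => Finset.sum_congr rfl fun b hb => by
        rw [if_pos ha, if_pos hb]
    · rw [Finset.mem_product, not_and_or] at hq
      rcases hq with c | c <;> simp [c]
  simp only [e] at key
  have b0 := blk2 hB hX (y := y) Φ0 hk M0 hε.le one_pos (hL H H0) hT hR g0
    (fun h => h ≠ 0 ∧ N h ≤ H) fun h hh => ⟨hh.1, hB.b1.N_one_le h hh.1, hh.2⟩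
  have bj : ∀ j : ℕ, (∑' h : O, if h ≠ 0 ∧ 2 ^ j * H ≤ N h ∧ N h ≤ 2 ^ (j + 1) * H then
      DU 2 (fun n => if n ∈ T then y n else 0) M 4 h else 0) ≤
      ENNReal.ofReal (16 * G4 * (Φ H / k) * A * (1 / 2) ^ j) := fun j => by
    refine (blk2 hB hX (y := y) (hΦ _ (by positivity)) hk M0 (by norm_num) (by positivity)
      (hL (2 ^ (j + 1) * H) (by positivity)) hT hR g4 _ fun h hh => hh).trans
      (ENNReal.ofReal_le_ofReal ?_)
    rw [← hA, show M * (2 ^ j * H) = 2 ^ j * k ^ 2 by rw [hH]; field_simp,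
      Real.rpow_neg (by positivity), show (2 * 4 : ℝ) = (8 : ℕ) by norm_num,
      show (4 : ℝ) = (4 : ℕ) by norm_num, Real.rpow_natCast, Real.rpow_natCast]
    calc _ ≤ ((2 ^ j * k ^ 2) ^ 4)⁻¹ * ((2 ^ (j + 1)) ^ 3 * Φ H) * (2 * k ^ 8 / k) * A * G4 := by
          gcongr
          exact hg H _ H0 (one_le_pow₀ one_le_two)
      _ = _ := by rw [one_div_pow]; field_simp; ring
  have split : ∀ h : O, (if h = 0 then 0 else
      DU 2 (fun n => if n ∈ T then y n else 0) M (if N h ≤ H then ε else 4) h) ≤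
      (if h ≠ 0 ∧ N h ≤ H then DU 2 (fun n => if n ∈ T then y n else 0) M ε h else 0) + ∑' j : ℕ,
        if h ≠ 0 ∧ 2 ^ j * H ≤ N h ∧ N h ≤ 2 ^ (j + 1) * H then
          DU 2 (fun n => if n ∈ T then y n else 0) M 4 h else 0 := by
    intro h
    by_cases d : h = 0
    · rw [if_pos d]; exact zero_le
    by_cases d' : N h ≤ H
    · rw [if_neg d, if_pos d', if_pos ⟨d, d'⟩]; exact le_self_add
    · obtain ⟨j, j1, j2⟩ := exists_nat_pow_near ((one_le_div H0).2 (not_le.1 d').le) one_lt_two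
      rw [if_neg d, if_neg d']
      refine le_add_left (le_trans ?_ (ENNReal.le_tsum j))
      rw [if_pos ⟨d, (le_div_iff₀ H0).1 j1, ((div_lt_iff₀ H0).1 j2).le⟩]
  have t := ENNReal.tsum_le_tsum split
  rw [ENNReal.tsum_add, ENNReal.tsum_comm] at t
  have t2 := t.trans (add_le_add b0 (ENNReal.tsum_le_tsum bj))
  rw [← ENNReal.ofReal_tsum_of_nonneg (fun j => by positivity)
    (summable_geometric_two.mul_left _), tsum_mul_left, tsum_geometric_two, ← hA,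
    ← ENNReal.ofReal_add (by positivity) (by positivity)] at t2
  have y1 : ‖if (1 : O) ∈ T then y 1 else 0‖ₑ ^ 2 ≤ ENNReal.ofReal A := by
    rw [← ofReal_norm, ← ENNReal.ofReal_pow (norm_nonneg _), hA]
    refine ENNReal.ofReal_le_ofReal ?_
    split_ifs with c
    · exact Finset.single_le_sum (f := fun n => ‖y n‖ ^ 2) (fun _ _ => by positivity) c
    · rw [← hA]; simpa using A0
  have t3 := key.trans (mul_le_mul_right (add_le_add y1 t2) _)
  rw [← ENNReal.ofReal_add A0 (by positivity), ← ENNReal.ofReal_mul (by positivity), ← ofReal_norm,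
    ENNReal.ofReal_le_ofReal_iff (by positivity)] at t3
  rw [← hH, ← hA]
  refine t3.trans ?_
  have m1 : (M * 1) ^ (-ε) ≤ 1 := Real.rpow_le_one_of_one_le_of_nonpos (by linarith) (by linarith)
  have k0 : 0 ≤ k ^ (2 * ε) := by positivity
  calc _ ≤ 4 * M * (A + (1 * Φ H * (2 * k ^ (2 * ε) / k) * A * G0 + 16 * G4 * (Φ H / k) * A * 2)) := by
        gcongr
    _ = (4 * M + (8 * G0 * k ^ (2 * ε) + 128 * G4) * (M / k * Φ H)) * A := by ring
    _ ≤ _ := by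
        gcongr
        nlinarith [mul_nonneg hG4 k0]

include hB hC hH h8 hX in
lemma dyad (hS : SCHStmt) (h1 : PS1Stmt) (hΓ : GAM) {ε : ℝ} (hε : 0 < ε) (hε' : ε ≤ 4) :
    ∃ C : ℝ, 0 ≤ C ∧ ∀ (Φ : ℝ → ℝ → ℝ) (M K K' R Ψ : ℝ), 1 ≤ M → 1 ≤ K → 0 < K' → K' ≤ K → 0 ≤ Ψ →
    (∀ H k, 0 < H → 0 < k → 0 ≤ Φ H k) → (∀ H k, 0 < H → 0 < k → k ≤ K → LB (· ≠ 0) H k R (Φ H k)) →
    (∀ H k t, 0 < H → 0 < k → 1 ≤ t → Φ (t * H) k ≤ t ^ 3 * Φ H k) →
    (∀ k, 0 < k → k ≤ K → M / k * Φ (k ^ 2 / M) k ≤ Ψ) → ∀ (S T : Finset O) (x : O → ℂ),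
    (∀ m ∈ S, N m ≤ M) → (∀ n ∈ T, OP n ∧ Squarefree n ∧ K' / 2 ≤ N n ∧ N n ≤ K') →
    (T.card : ℝ) ≤ R →
    ∑ m ∈ S, ‖∑ n ∈ T, x n * cub m n‖ ^ 2 ≤ C * K ^ (3 * ε) * (M + Ψ) * ∑ n ∈ T, ‖x n‖ ^ 2 := by
  obtain ⟨C, hC0, hc⟩ := oneT hB hX h1 hΓ hε hε'
  obtain ⟨D, hD⟩ := h8.ome 2 ε zero_le_two hε
  have D0 : 0 ≤ D := by
    by_contra c
    have := hD 1
    have := mul_nonpos_of_nonpos_of_nonneg (not_le.1 c).le
      (Real.rpow_nonneg (zero_le_one.trans (h8.rd_ge 1)) ε)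
    have : (0 : ℝ) < 2 ^ (pf 1).card := by positivity
    linarith
  refine ⟨3 * (4 + 2 * C) * D, by positivity, ?_⟩
  intro Φ M K K' R Ψ hM hK hK0 hKK hΨ hΦ hL hg hb S T x hm hT hR
  have M0 : 0 < M := by linarith
  obtain ⟨J, E, T', p1, p2, p3⟩ := psd hB hC hH h8 hX hS T x fun n hn => ⟨(hT n hn).1, (hT n hn).2.1⟩
  have es : Summable fun m : O => Real.exp (-(N m / M)) := by
    simpa only [← Complex.ofReal_neg, Complex.norm_exp_ofReal] using GPOM.gsum hB M0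
  let Q : Finset O → O → ℂ := fun t m => ∑ k1 ∈ T' t, ∑ k2 ∈ T' t,
    x (E t * k1) * tg k1 * conj (x (E t * k2) * tg k2) * II 2 k1 k2 m
  have sQ : ∀ t ∈ J, Summable fun m : O => (Real.exp (-(N m / M)) : ℂ) * Q t m := fun t ht => by
    simp only [Q, Finset.mul_sum]
    refine summable_sum fun k1 c1 => summable_sum fun k2 c2 => ?_
    refine Summable.of_norm_bounded (es.mul_right (‖x (E t * k1) * tg k1 * conj (x (E t * k2) * tg k2)‖ *
      Real.sqrt (N (k1 * k2)))) fun m => ?_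
    rw [norm_mul, norm_mul, Complex.norm_real, Real.norm_of_nonneg (Real.exp_pos _).le]
    gcongr
    exact II_le' hB hX 2 _ _ m ((p1 t ht).2.2 k1 c1).1 ((p1 t ht).2.2 k2 c2).1
  have p4 : ∀ m, ‖∑ n ∈ T, x n * cub m n‖ ^ 2 ≤ (∑ t ∈ J, Q t m).re := fun m => by
    refine (p3 m).trans (le_of_eq ?_)
    congr 1
    refine Finset.sum_congr rfl fun _ _ => Finset.sum_congr rfl fun _ _ =>
      Finset.sum_congr rfl fun _ _ => ?_
    rw [K2, map_mul]; ring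
  have sQ' : Summable fun m : O => (Real.exp (-(N m / M)) : ℂ) * ∑ t ∈ J, Q t m := by
    simp only [Finset.mul_sum _ (fun t => Q t _)]
    exact summable_sum sQ
  have K1 : 1 ≤ K ^ (2 * ε) := Real.one_le_rpow hK (by positivity)
  have q : ∀ t ∈ J, ‖∑' m : O, (Real.exp (-(N m / M)) : ℂ) * Q t m‖ ≤
      (4 + 2 * C) * K ^ (2 * ε) * (M + Ψ) * ∑ k ∈ T' t, ‖x (E t * k)‖ ^ 2 := fun t ht => by
    obtain ⟨o, c, r⟩ := p1 t ht
    have e1 := hB.b1.N_one_le _ (hB.b2.ne _ o.1)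
    have e0 : 0 < N (E t) := by linarith
    have k0 : 0 < K' / N (E t) := by positivity
    have kK : K' / N (E t) ≤ K := (div_le_self hK0.le e1).trans hKK
    refine (hc (fun H => Φ H (K' / N (E t))) (T' t) (fun k => x (E t * k) * tg k) _ R M k0 hM
      (fun H h => hΦ H _ h k0) (fun H h => hL H _ h k0 kK) (fun H s h hs => hg H _ s h k0 hs)
      (fun k hk => ⟨(r k hk).1, (r k hk).2.1, ?_, ?_⟩) ((Nat.cast_le.2 c).trans hR)).trans ?_
    · have := (hT _ (r k hk).2.2).2.2.1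
      rw [hB.b1.N_mul] at this
      rw [div_div, mul_comm, ← div_div, div_le_iff₀ e0]
      linarith
    · have := (hT _ (r k hk).2.2).2.2.2
      rw [hB.b1.N_mul] at this
      rw [le_div_iff₀ e0]
      linarith
    · rw [Finset.sum_congr rfl fun k hk => by
        rw [norm_mul, tg_norm hB hH (r k hk).1 (r k hk).2.1, mul_one]]
      have : (K' / N (E t)) ^ (2 * ε) ≤ K ^ (2 * ε) := by gcongr
      have := hΦ ((K' / N (E t)) ^ 2 / M) _ (by positivity) k0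
      gcongr
      calc _ ≤ 4 * M + C * (K ^ (2 * ε) + K ^ (2 * ε)) * Ψ := by
            gcongr
            exact hb _ k0 kK
        _ ≤ _ := by
            nlinarith [mul_nonneg (mul_nonneg hC0 (zero_le_one.trans K1)) M0.le,
              mul_nonneg (zero_le_one.trans K1) hΨ, mul_le_mul_of_nonneg_right K1 M0.le]
  have w : ∑ n ∈ T, 2 ^ (pf n).card * ‖x n‖ ^ 2 ≤ D * K ^ ε * ∑ n ∈ T, ‖x n‖ ^ 2 := by
    rw [Finset.mul_sum]
    refine Finset.sum_le_sum fun n hn => ?_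
    gcongr
    refine (hD n).trans ?_
    gcongr
    · exact zero_le_one.trans (h8.rd_ge n)
    · exact (h8.rd_le n (hB.b2.ne _ (hT n hn).1.1)).trans ((hT n hn).2.2.2.trans hKK)
  calc _ ≤ ∑ m ∈ S, 3 * ((Real.exp (-(N m / M)) : ℂ) * ∑ t ∈ J, Q t m).re := by
        refine Finset.sum_le_sum fun m hmm => ?_
        rw [Complex.re_ofReal_mul]
        have a : Real.exp (-1) ≤ Real.exp (-(N m / M)) :=
          Real.exp_le_exp.2 (neg_le_neg ((div_le_one M0).2 (hm m hmm)))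
        have b : 1 ≤ 3 * Real.exp (-1) := by
          rw [Real.exp_neg, ← div_eq_mul_inv, one_le_div (Real.exp_pos _)]
          exact Real.exp_one_lt_d9.le.trans (by norm_num)
        have c := p4 m
        have d : 0 ≤ (∑ t ∈ J, Q t m).re := (sq_nonneg _).trans c
        nlinarith
    _ ≤ 3 * (∑' m : O, (Real.exp (-(N m / M)) : ℂ) * ∑ t ∈ J, Q t m).re := by
        rw [← Finset.mul_sum, Complex.re_tsum sQ']
        gcongr
        refine Summable.sum_le_tsum _ (fun m _ => ?_) (Complex.reCLM.summable sQ')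
        rw [Complex.re_ofReal_mul]
        exact mul_nonneg (Real.exp_pos _).le ((sq_nonneg _).trans (p4 m))
    _ ≤ 3 * ∑ t ∈ J, (4 + 2 * C) * K ^ (2 * ε) * (M + Ψ) * ∑ k ∈ T' t, ‖x (E t * k)‖ ^ 2 := by
        simp only [Finset.mul_sum _ (fun t => Q t _)]
        rw [Summable.tsum_finsetSum sQ]
        gcongr
        exact (Complex.re_le_norm _).trans ((norm_sum_le _ _).trans (Finset.sum_le_sum q))
    _ ≤ 3 * ((4 + 2 * C) * K ^ (2 * ε) * (M + Ψ) * (D * K ^ ε * ∑ n ∈ T, ‖x n‖ ^ 2)) := by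
        rw [← Finset.mul_sum]
        gcongr
        exact p2.trans w
    _ = _ := by
        rw [show 3 * ε = 2 * ε + ε by ring, Real.rpow_add (by linarith)]
        ring

end H23

open H23 in
/-- the Poisson step -/
theorem pois (hB : Bas) (hC : CRStmt) (hH : HD) (h8 : B8) (hX : SX) (hS : SCHStmt) (h1 : PS1Stmt)
    (hΓ : GAM) (ε : ℝ) (hε : 0 < ε) :
    ∃ C : ℝ, 0 ≤ C ∧ ∀ (Φ : ℝ → ℝ → ℝ) (M K R Ψ : ℝ), 1 ≤ M → 1 ≤ K → 0 ≤ Ψ →
    (∀ H k, 0 < H → 0 < k → 0 ≤ Φ H k) → (∀ H k, 0 < H → 0 < k → k ≤ K → LB (· ≠ 0) H k R (Φ H k)) →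
    (∀ H k t, 0 < H → 0 < k → 1 ≤ t → Φ (t * H) k ≤ t ^ 3 * Φ H k) →
    (∀ k, 0 < k → k ≤ K → M / k * Φ (k ^ 2 / M) k ≤ Ψ) →
    LB (fun _ => True) M K R (C * K ^ ε * (M + Ψ)) := by
  obtain ⟨δ, hδ, d4, dε⟩ : ∃ δ : ℝ, 0 < δ ∧ δ ≤ 1 ∧ 4 * δ ≤ ε :=
    ⟨min 1 (ε / 4), by positivity, min_le_left _ _, by linarith [min_le_right 1 (ε / 4)]⟩
  obtain ⟨C, hC0, hc⟩ := dyad hB hC hH h8 hX hS h1 hΓ hδ (by linarith)
  refine ⟨(1 + 2 / δ) * C, by positivity, ?_⟩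
  intro Φ M K R Ψ hM hK hΨ hΦ hL hg hb S T x hm hT hR
  have K0 : 0 < K := by linarith
  have ex : ∀ n, n ∈ T → ∃ j : ℕ, 2 ^ j ≤ K / N n ∧ K / N n < 2 ^ (j + 1) := fun n hn =>
    exists_nat_pow_near ((one_le_div (one_pos.trans_le (hB.b1.N_one_le _
      (hB.b2.ne _ (hT n hn).1.1)))).2 (hT n hn).2.2) one_lt_two
  choose! j j1 j2 using ex
  obtain ⟨L, l1, l2⟩ := exists_nat_pow_near hK one_lt_two
  have n1 : ∀ n ∈ T, 1 ≤ N n := fun n hn => hB.b1.N_one_le _ (hB.b2.ne _ (hT n hn).1.1)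
  have mp : ∀ n ∈ T, j n ∈ Finset.range (L + 1) := fun n hn => by
    rw [Finset.mem_range]
    exact (pow_lt_pow_iff_right₀ one_lt_two).1
      (((j1 n hn).trans (div_le_self K0.le (n1 n hn))).trans_lt l2)
  have Kd : 1 ≤ K ^ δ := Real.one_le_rpow hK hδ.le
  have lL : (L + 1 : ℝ) ≤ (1 + 2 / δ) * K ^ δ := by
    have a := Real.log_le_log (by positivity) l1
    rw [Real.log_pow] at a
    have b := Real.log_le_rpow_div K0.le hδ
    have c := Real.log_two_gt_d9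
    have d : 2 / δ * K ^ δ = 2 * (K ^ δ / δ) := by ring
    nlinarith [(Nat.cast_nonneg L : (0 : ℝ) ≤ L)]
  calc _ ≤ ∑ m ∈ S, (L + 1 : ℝ) * ∑ i ∈ Finset.range (L + 1),
        ‖∑ n ∈ T.filter (j · = i), x n * cub m n‖ ^ 2 := by
        refine Finset.sum_le_sum fun m _ => ?_
        rw [← Finset.sum_fiberwise_of_maps_to mp]
        refine (pow_le_pow_left₀ (norm_nonneg _) (norm_sum_le _ _) 2).trans
          (sq_sum_le_card_mul_sum_sq.trans (by simp))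
    _ ≤ (L + 1 : ℝ) * ∑ i ∈ Finset.range (L + 1),
        C * K ^ (3 * δ) * (M + Ψ) * ∑ n ∈ T.filter (j · = i), ‖x n‖ ^ 2 := by
        rw [← Finset.mul_sum, Finset.sum_comm]
        gcongr with i _
        refine hc Φ M K (K / 2 ^ i) R Ψ hM hK (by positivity)
          (div_le_self K0.le (one_le_pow₀ one_le_two)) hΨ hΦ hL hg hb S _ x (fun m h => (hm m h).2)
          (fun n hn => ?_) ((Nat.cast_le.2 (Finset.card_filter_le _ _)).trans hR)
        obtain ⟨c1, rfl⟩ := Finset.mem_filter.1 hn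
        have p : 0 < N n := one_pos.trans_le (n1 n c1)
        refine ⟨(hT n c1).1, (hT n c1).2.1, ?_, ?_⟩
        · rw [div_div, ← pow_succ, div_le_iff₀ (by positivity), mul_comm]
          exact ((div_lt_iff₀ p).1 (j2 n c1)).le
        · rw [le_div_iff₀ (by positivity), mul_comm]
          exact (le_div_iff₀ p).1 (j1 n c1)
    _ ≤ (1 + 2 / δ) * K ^ δ * (C * K ^ (3 * δ) * (M + Ψ) * ∑ n ∈ T, ‖x n‖ ^ 2) := by
        rw [← Finset.mul_sum, Finset.sum_fiberwise_of_maps_to mp]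
        gcongr
    _ = (1 + 2 / δ) * C * K ^ (4 * δ) * (M + Ψ) * ∑ n ∈ T, ‖x n‖ ^ 2 := by
        rw [show 4 * δ = δ + 3 * δ by ring, Real.rpow_add K0]; ring
    _ ≤ _ := by gcongr

end Vale.Agent.P006
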