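import Vale.Agent.P006.Z0

/-! P006: reduction of the two forms of the conjecture to a statement on `gt`. -/

noncomputable section
open Complex Filter Topology
open scoped Classical ComplexConjugate

namespace Vale.Agent.P006
open P026 Z0

/-- Patterson's constant -/
def cst : ℝ := (2 * Real.pi) ^ (2 / 3 : ℝ) / (3 * Real.Gamma (2 / 3))

/-- rational primes `1 mod 3` up to `X` -/
def P1 (X : ℝ) : Finset ℕ := (Finset.range (⌊X⌋₊ + 1)).filter fun p => p.Prime ∧ p % 3 = 1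

namespace Z1

lemma cst_pos : 0 < cst := by
  have := Real.Gamma_pos_of_pos (show (0 : ℝ) < 2 / 3 by norm_num)
  unfold cst
  positivity

lemma fibre {X : ℝ} {l : ℕ} (hl : l ∈ P1 X) (h0 : 0 ≤ X) :
    (((PP X).filter fun p => (Nn p).Prime).filter fun p => Nn p = l).card = 2 := by
  have hB := W1.bas
  simp only [P1, Finset.mem_filter, Finset.mem_range] at hl
  obtain ⟨h1, h2, h3⟩ := hl
  have hX : (l : ℝ) ≤ X := (Nat.le_floor_iff h0).1 (by omega)
  rcases ZKM.cls hB l h2 (by omega) with ⟨-, p, q, a1, a2, a3, a4, a5, a6, a7, a8⟩ | ⟨h, -⟩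
  · refine Finset.card_eq_two.2 ⟨p, q, fun e => a5 (e ▸ dvd_rfl), ?_⟩
    ext n
    simp only [Finset.mem_filter, mem_PP, Finset.mem_insert, Finset.mem_singleton]
    constructor
    · rintro ⟨⟨⟨-, b1, b2⟩, -⟩, b3⟩
      rcases (a8 n).1 (b3 ▸ dvd_rfl) with d | d
      · exact Or.inl (hB.b2.uniq _ _ a2 b2 (a1.associated_of_dvd b1 d)).symm
      · exact Or.inr (hB.b2.uniq _ _ a4 b2 (a3.associated_of_dvd b1 d)).symm
    · rintro (rfl | rfl)
      · exact ⟨⟨⟨by rw [N, a6]; exact hX, a1, a2⟩, a6 ▸ h2⟩, a6⟩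
      · exact ⟨⟨⟨by rw [N, a7]; exact hX, a3, a4⟩, a7 ▸ h2⟩, a7⟩
  · omega

lemma inert (X : ℝ) :
    (((PP X).filter fun p => ¬ (Nn p).Prime).card : ℝ) ≤ Real.sqrt X := by
  have hB := W1.bas
  have key : ∀ p ∈ (PP X).filter fun p => ¬ (Nn p).Prime,
      ∃ l : ℕ, 0 < l ∧ Nn p = l ^ 2 ∧ Associated p l := by
    intro p hp
    simp only [Finset.mem_filter, mem_PP] at hp
    obtain ⟨l, a1, -, a3 | a3⟩ := hB.b5.char p hp.1.2.1
    · exact absurd (a3 ▸ a1) hp.2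
    · exact ⟨l, a1.pos, a3⟩
  choose! f f0 f1 f2 using key
  have : ((PP X).filter fun p => ¬ (Nn p).Prime).card ≤ (Finset.Icc 1 ⌊Real.sqrt X⌋₊).card := by
    refine Finset.card_le_card_of_injOn f (fun p hp => ?_) fun p hp q hq e => ?_
    · have hp' := Finset.mem_coe.1 hp
      refine Finset.mem_coe.2 (Finset.mem_Icc.2 ⟨f0 p hp', Nat.le_floor (Real.le_sqrt_of_sq_le ?_)⟩)
      have := (mem_PP.1 (Finset.mem_filter.1 hp').1).1
      rw [N, f1 p hp'] at this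
      exact_mod_cast this
    · have hp' := Finset.mem_coe.1 hp
      have hq' := Finset.mem_coe.1 hq
      exact hB.b2.uniq _ _ (mem_PP.1 (Finset.mem_filter.1 hp').1).2.2
        (mem_PP.1 (Finset.mem_filter.1 hq').1).2.2 ((f2 p hp').trans (e ▸ (f2 q hq').symm))
  rw [Nat.card_Icc] at this
  exact (Nat.cast_le.2 this).trans (by simpa using Nat.floor_le (Real.sqrt_nonneg X))

/-- weighted comparison of the two sums -/
theorem cmp {X K : ℝ} (h0 : 0 ≤ X) (w : ℕ → ℝ) (hw : ∀ n, |w n| ≤ K) :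
    ‖∑ l ∈ P1 X, SK l / (2 * (Real.sqrt l : ℂ)) * w l -
      ((∑ p ∈ PP X, gt p * w (Nn p)) + conj (∑ p ∈ PP X, gt p * w (Nn p))) / 4‖ ≤
      K * Real.sqrt X := by
  have hB := W1.bas
  have K0 : 0 ≤ K := (abs_nonneg _).trans (hw 0)
  have e1 : (∑ p ∈ PP X, gt p * w (Nn p)) + conj (∑ p ∈ PP X, gt p * w (Nn p)) =
      ∑ p ∈ PP X, (gt p + conj (gt p)) * w (Nn p) := by
    rw [map_sum, ← Finset.sum_add_distrib]
    exact Finset.sum_congr rfl fun p _ => by rw [map_mul, conj_ofReal, add_mul]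
  have e2 : ∑ p ∈ (PP X).filter fun p => (Nn p).Prime, (gt p + conj (gt p)) * w (Nn p) =
      4 * ∑ l ∈ P1 X, SK l / (2 * (Real.sqrt l : ℂ)) * w l := by
    rw [← Finset.sum_fiberwise_of_maps_to (t := P1 X) (g := Nn), Finset.mul_sum]
    · refine Finset.sum_congr rfl fun l hl => ?_
      rw [Finset.sum_congr rfl (g := fun _ => SK l / (Real.sqrt l : ℂ) * w l), Finset.sum_const,
        fibre hl h0]
      · simp only [nsmul_eq_mul]
        push_cast
        ring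
      · intro p hp
        simp only [Finset.mem_filter, mem_PP] at hp
        rw [← SK_eq hp.1.1.2.1 hp.1.1.2.2 hp.1.2, hp.2]
    · intro p hp
      simp only [Finset.mem_filter, mem_PP] at hp
      simp only [P1, Finset.mem_filter, Finset.mem_range]
      exact ⟨Nat.lt_succ_of_le (Nat.le_floor hp.1.1), hp.2, hB.b2.N_mod p hp.1.2.2⟩
  rw [e1, ← Finset.sum_filter_add_sum_filter_not (PP X) fun p => (Nn p).Prime, e2]
  have e3 : ‖∑ p ∈ (PP X).filter fun p => ¬ (Nn p).Prime, (gt p + conj (gt p)) * w (Nn p)‖ ≤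
      Real.sqrt X * (2 * K) := by
    refine (norm_sum_le _ _).trans ((Finset.sum_le_card_nsmul _ _ (2 * K) fun p hp => ?_).trans ?_)
    · have hp' := mem_PP.1 (Finset.mem_filter.1 hp).1
      have := norm_gt hp'.2.2 hp'.2.1.irreducible.squarefree
      rw [norm_mul, norm_real, Real.norm_eq_abs]
      refine mul_le_mul ((norm_add_le _ _).trans ?_) (hw _) (abs_nonneg _) two_pos.le
      rw [norm_conj, this]
      norm_num
    · rw [nsmul_eq_mul]
      exact mul_le_mul_of_nonneg_right (inert X) (by positivity)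
  rw [show ∀ a b : ℂ, a - (4 * a + b) / 4 = -(b / 4) from fun a b => by ring, norm_neg, norm_div]
  have : ‖(4 : ℂ)‖ = 4 := by simp
  rw [this]
  nlinarith [Real.sqrt_nonneg X]

lemma small (R : ℝ) : Tendsto (fun X : ℝ => Real.sqrt (R * X) / (X ^ (5 / 6 : ℝ) / Real.log X))
    atTop (𝓝 0) := by
  have h := ((isLittleO_log_rpow_atTop (show (0 : ℝ) < 1 / 3 by norm_num)).tendsto_div_nhds_zero).const_mul
    (Real.sqrt R)
  rw [mul_zero] at h
  refine h.congr' ((eventually_gt_atTop 0).mono fun X hX => ?_)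
  have e : X ^ (5 / 6 : ℝ) = Real.sqrt X * X ^ (1 / 3 : ℝ) := by
    rw [Real.sqrt_eq_rpow, ← Real.rpow_add hX]; norm_num
  have := Real.sqrt_pos.2 hX
  have := Real.rpow_pos_of_pos hX (1 / 3 : ℝ)
  simp only
  rw [e, Real.sqrt_mul' _ hX.le]
  by_cases hl : Real.log X = 0
  · simp [hl]
  · field_simp

/-- weighted reduction to rational primes -/
theorem rat {R K c : ℝ} (hR : 0 ≤ R) (w : ℝ → ℕ → ℝ) (hw : ∀ X n, |w X n| ≤ K)
    (h : Tendsto (fun X : ℝ => (∑ p ∈ PP (R * X), gt p * w X (Nn p)) /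
      ((X ^ (5 / 6 : ℝ) / Real.log X : ℝ) : ℂ)) atTop (𝓝 (c : ℂ))) :
    Tendsto (fun X : ℝ => (∑ l ∈ P1 (R * X), SK l / (2 * (Real.sqrt l : ℂ)) * w X l) /
      ((X ^ (5 / 6 : ℝ) / Real.log X : ℝ) : ℂ)) atTop (𝓝 ((c / 2 : ℝ) : ℂ)) := by
  have h1 := (h.add ((continuous_conj.tendsto _).comp h)).div_const 4
  rw [conj_ofReal, show ((c : ℂ) + c) / 4 = ((c / 2 : ℝ) : ℂ) + 0 by push_cast; ring] at h1
  rw [add_zero] at h1
  refine h1.congr_dist ?_
  have h2 := (small R).const_mul K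
  rw [mul_zero] at h2
  refine squeeze_zero' (Eventually.of_forall fun _ => dist_nonneg)
    ((eventually_gt_atTop 1).mono fun X hX => ?_) h2
  have a : 0 < X ^ (5 / 6 : ℝ) / Real.log X := div_pos (by positivity) (Real.log_pos hX)
  have := cmp (X := R * X) (by positivity) (w X) (hw X)
  rw [dist_comm, dist_eq_norm]
  simp only [Function.comp, map_div₀, conj_ofReal]
  rw [← add_div, div_right_comm, ← sub_div, norm_div, norm_real, Real.norm_eq_abs, abs_of_pos a,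
    ← mul_div_assoc]
  exact div_le_div_of_nonneg_right this a.le

/-- weighted reduction to the Gauss sums of the problem -/
theorem gg {c : ℝ} (s : ℝ → ℝ) (w : ℝ → ℕ → ℝ) (D : ℝ → ℝ)
    (h : Tendsto (fun X : ℝ => (∑ p ∈ PP (s X), gt p * w X (Nn p)) / (D X : ℂ)) atTop (𝓝 (c : ℂ))) :
    Tendsto (fun X : ℝ => (∑ p ∈ PP (s X), GG p * w X (Nn p)) / (D X : ℂ)) atTop (𝓝 (c : ℂ)) := by
  have h1 := (continuous_conj.tendsto _).comp h
  rw [conj_ofReal] at h1
  refine h1.congr fun X => ?_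
  simp only [Function.comp, map_div₀, conj_ofReal, map_sum, map_mul]
  congr 1
  exact Finset.sum_congr rfl fun p hp => by
    rw [GG_eq (mem_PP.1 hp).2.1 (mem_PP.1 hp).2.2]

end Z1

/-- the sharp asymptotic for `gt` -/
def Sharp : Prop := Tendsto (fun X : ℝ => (∑ p ∈ PP X, gt p) /
  ((X ^ (5 / 6 : ℝ) / Real.log X : ℝ) : ℂ)) atTop (𝓝 ((6 / 5 * cst : ℝ) : ℂ))

theorem sharp_GG (h : Sharp) : Tendsto (fun X : ℝ => (∑ p ∈ PP X, GG p) /
    ((X ^ (5 / 6 : ℝ) / Real.log X : ℝ) : ℂ)) atTop (𝓝 ((6 / 5 * cst : ℝ) : ℂ)) := by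
  simpa using Z1.gg (c := 6 / 5 * cst) id (fun _ _ => 1) (fun X => X ^ (5 / 6 : ℝ) / Real.log X)
    (by simpa [Sharp] using h)

theorem sharp_rat (h : Sharp) : Tendsto (fun X : ℝ =>
    (∑ p ∈ (Finset.range (⌊X⌋₊ + 1)).filter (fun p => p.Prime ∧ p % 3 = 1),
      (∑ x ∈ Finset.range p, cexp (2 * Real.pi * I * ((x : ℂ) ^ 3 / p))) / (2 * (Real.sqrt p : ℂ))) /
    (((2 * Real.pi) ^ (2 / 3 : ℝ) / (5 * Real.Gamma (2 / 3)) * (X ^ (5 / 6 : ℝ) / Real.log X) : ℝ) : ℂ))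
    atTop (𝓝 1) := by
  have h1 := Z1.rat (R := 1) (K := 1) (c := 6 / 5 * cst) zero_le_one (fun _ _ => 1) (by simp)
    (by simpa [Sharp] using h)
  have e : (2 * Real.pi) ^ (2 / 3 : ℝ) / (5 * Real.Gamma (2 / 3)) = 6 / 5 * cst / 2 := by
    have := Real.Gamma_pos_of_pos (show (0 : ℝ) < 2 / 3 by norm_num)
    unfold cst
    field_simp
    ring
  have c0 : ((6 / 5 * cst / 2 : ℝ) : ℂ) ≠ 0 := by
    have := Z1.cst_pos
    exact ofReal_ne_zero.2 (by positivity)
  have h2 := h1.div_const ((6 / 5 * cst / 2 : ℝ) : ℂ)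
  rw [div_self c0] at h2
  refine h2.congr fun X => ?_
  rw [e, ofReal_mul (6 / 5 * cst / 2), div_div, one_mul, mul_comm ((6 / 5 * cst / 2 : ℝ) : ℂ)]
  congr 1
  refine Finset.sum_congr rfl fun p _ => ?_
  simp [SK, ee]

end Vale.Agent.P006
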