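import Vale.Agent.P006.SL
import Vale.Agent.P006.Z1
import Vale.Agent.P006.Vau

/-! P006 main branch: decomposition of the prime sum. -/

noncomputable section
open Complex MeasureTheory Filter Topology
open scoped Classical ComplexConjugate

namespace Vale.Agent.P006.M
open Vale.Agent.P026 Vale.Agent.P006
open Vale.Agent.P006.Vau (PS Lam)

def del (n : O) : ℂ := if Squarefree n then gt n - ((cst * N n ^ (-1 / 6 : ℝ) : ℝ) : ℂ) else 0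
def Rough (w : ℝ) (n : O) : Prop := ∀ p ∈ pf n, w < N p
def Smo (w : ℝ) (n : O) : Prop := ∀ p ∈ pf n, N p ≤ w
def ll (X : ℝ) : ℝ := Real.log (Real.log X)
def ww (X : ℝ) : ℝ := Real.exp (Real.log X / ll X ^ 2)
def LL (X : ℝ) : ℝ := Real.exp (ll X ^ 2)

/-- admissible weights -/
structure Wt (X K : ℝ) (Φ : ℝ → ℂ) : Prop where
  rep : ∃ c : ℝ → ℂ, Integrable c ∧ Integrable (fun t => ‖c t‖ * (1 + |t|) ^ 8) ∧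
    (∀ x : ℝ, 0 < x → Φ x = ∫ t : ℝ, c t * (x : ℂ) ^ (-((Real.log X)⁻¹ : ℝ) - t * I : ℂ)) ∧
    ∫ t, ‖c t‖ ≤ K * ll X ∧ ∫ t, ‖c t‖ * (1 + |t|) ^ 8 ≤ LL X
  le : ∀ x, 0 < x → ‖Φ x‖ ≤ K
  tail : ∀ x, 2 ≤ x → ‖Φ x‖ ≤ X ^ (-10 : ℝ) * x ^ (-3 : ℝ)

def FF (X : ℝ) (Φ : ℝ → ℂ) (n : O) : ℂ := if N n ≤ 2 * X then del n * Φ (N n / X) else 0

/-- END of the branch -/
def MAINStmt : Prop := ∀ K ε : ℝ, 0 < ε → ∀ᶠ X : ℝ in atTop, ∀ Φ, Wt X K Φ →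
  ‖∑ n ∈ PS (2 * X), (if Rough (ww X) n then (Lam n : ℂ) else 0) * FF X Φ n‖ ≤ ε * X ^ (5 / 6 : ℝ)

/-- elementary growth facts -/
def GRStmt : Prop := ∀ (A δ : ℝ), 0 < δ → ∀ᶠ X : ℝ in atTop, 3 ≤ X ∧ 2 ≤ ll X ∧ A ≤ ll X ∧ ll X ^ A ≤ Real.log X ^ δ ∧
  Real.log X ^ A ≤ LL X ^ δ ∧ LL X ^ A ≤ ww X ^ δ ∧ ww X ^ A ≤ X ^ δ ∧
  Real.exp (-(δ * Real.log X) ^ 2) ≤ X ^ (-A) ∧ 2 ≤ ww X ∧ 1 ≤ LL X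

/-! six-fold sums -/
def MS (X : ℝ) (g : Fin 6 → O → ℂ) (G : O → ℂ) : ℂ :=
  ∑ x ∈ Fintype.piFinset (fun _ : Fin 6 => PS (2 * X)), (∏ i, g i (x i)) * G (∏ i, x i)
def CV (X : ℝ) (g : Fin 6 → O → ℂ) (J : Finset (Fin 6)) (n : O) : ℂ :=
  ∑ x ∈ Fintype.piFinset (fun i : Fin 6 => if i ∈ J then PS (2 * X) else {1}),
    if ∏ i, x i = n then ∏ i ∈ J, g i (x i) else 0

/-- splitting (only squarefree products matter), and the sup bound -/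
def SPLITStmt : Prop :=
  (∀ (X A B : ℝ) g J (G : O → ℂ), 1 ≤ X → (∀ n, ¬ Squarefree n → G n = 0) →
    (∀ a, SP a → CV X g Jᶜ a ≠ 0 → N a ≤ A) → (∀ b, SP b → CV X g J b ≠ 0 → N b ≤ B) →
    MS X g G = ∑ a ∈ SQ A, ∑ b ∈ SQ B, CV X g Jᶜ a * CV X g J b * G (a * b)) ∧
  ∀ᶠ X : ℝ in atTop, ∀ (g : Fin 6 → O → ℂ) J (V : Fin 6 → ℝ), (∀ i n, SP n → ‖g i n‖ ≤ V i) →
    (∀ i n, SP n → g i n ≠ 0 → Rough (ww X) n) → ∀ n, SP n → N n ≤ X ^ 2 →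
      ‖CV X g J n‖ ≤ LL X ^ 4 * ∏ i ∈ J, V i ∧ (CV X g J n ≠ 0 → Rough (ww X) n)

def aM (X : ℝ) (n : O) : ℂ := if Rough (ww X) n ∧ N n ≤ 2 * X ^ (1 / 3 : ℝ) then mu n else 0
def aE (n : O) : ℂ := if n = 1 then 1 else 0
def aL (X : ℝ) (j : ℕ) (n : O) : ℂ := if Rough (ww X) n then ((Real.log (N n) ^ j : ℝ) : ℂ) else 0
/-- the tuples of the Heath-Brown identity -/
def Raw (X : ℝ) (g : Fin 6 → O → ℂ) : Prop := (∀ i : Fin 6, i.val < 3 → g i = aM X ∨ g i = aE) ∧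
  (g 3 = aL X 0 ∨ g 3 = aE) ∧ (g 4 = aL X 0 ∨ g 4 = aE) ∧ g 5 = aL X 1

def HBStmt : Prop := ∀ (X : ℝ) (Φ : ℝ → ℂ), 1 ≤ X → ∃ g1 g2 g3, Raw X g1 ∧ Raw X g2 ∧ Raw X g3 ∧
  ∑ n ∈ PS (2 * X), (if Rough (ww X) n then (Lam n : ℂ) else 0) * FF X Φ n =
    3 * MS X g1 (FF X Φ) - 3 * MS X g2 (FF X Φ) + MS X g3 (FF X Φ)

/-- log-normal cut -/
def hiW (Y x : ℝ) : ℝ := (Real.sqrt Real.pi)⁻¹ * ∫ Z in Set.Ioi Y, VV Z x / Z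
def HLStmt : Prop := ∀ Y : ℝ, 0 < Y → MonotoneOn (hiW Y) (Set.Ioi 0) ∧ ∀ x : ℝ, 0 < x →
  0 ≤ hiW Y x ∧ hiW Y x ≤ 1 ∧ (Y ≤ x → 1 - hiW Y x ≤ VV Y x) ∧
  IntegrableOn (fun Z => VV Z x / Z) (Set.Ioi Y) ∧ IntegrableOn (fun Z => Real.log Z * (VV Z x / Z)) (Set.Ioi Y) ∧
  Real.log x * hiW Y x = (Real.sqrt Real.pi)⁻¹ * ((∫ Z in Set.Ioi Y, Real.log Z * (VV Z x / Z)) - VV Y x / 2)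

/-- low part of a tuple -/
def low (X : ℝ) (g : Fin 6 → O → ℂ) (i : Fin 6) (n : O) : ℂ :=
  if i.val < 3 ∨ g i = aE then g i n else g i n * ((1 - hiW (X ^ (49 / 100 : ℝ)) (N n) : ℝ) : ℂ)
def LOStmt : Prop := ∀ K ε : ℝ, 0 < ε → ∀ᶠ X : ℝ in atTop, ∀ Φ g, Wt X K Φ → Raw X g →
  ‖MS X (low X g) (FF X Φ)‖ ≤ ε * X ^ (5 / 6 : ℝ)
def HIStmt : Prop := ∀ K : ℝ, ∀ᶠ X : ℝ in atTop, ∀ Φ (α : O → ℂ) (j : ℕ), Wt X K Φ → (∀ r, ‖α r‖ ≤ 1) → j ≤ 1 →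
  ‖∑ r ∈ SQ (2 * X), ∑ u ∈ SQ (2 * X), α r * (aL X j u * (hiW (X ^ (49 / 100 : ℝ)) (N u) : ℝ)) * FF X Φ (r * u)‖ ≤
    X ^ (5 / 6 : ℝ) / LL X ^ 10

/-! boxes -/
def Atom (w Y V t : ℝ) (g : O → ℂ) : Prop := ∃ (η : ℂ) (v1 v2 : ℝ → ℝ), (η = 1 ∨ η = -1) ∧
  MonotoneOn v1 (Set.Ici 1) ∧ AntitoneOn v2 (Set.Ici 1) ∧
  (∀ x, 1 ≤ x → x < 2 * Y → 0 ≤ v1 x ∧ v1 x ≤ V ∧ 0 ≤ v2 x ∧ v2 x ≤ 1) ∧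
  ∀ n, SP n → g n = if Rough w n ∧ Y ≤ N n ∧ N n < 2 * Y then
    η ^ (pf n).card * ((v1 (N n) * v2 (N n) : ℝ) : ℂ) * (N n : ℂ) ^ (t * I) else 0
def Bx (X t : ℝ) (k : Fin 6 → ℕ) (g : Fin 6 → O → ℂ) : Prop :=
  ∀ i, (2 : ℝ) ^ k i ≤ X ^ (491 / 1000 : ℝ) ∧ Atom (ww X) (2 ^ k i) (if i = 5 then Real.log X else 1) t (g i)

/-- bilinear form of the sharp large sieve -/
def SLBStmt : Prop := ∃ C : ℝ, 0 ≤ C ∧ ∀ (A B : ℝ) (S T : Finset O) (α β : O → ℂ), 1 ≤ A → 1 ≤ B →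
  (∀ a ∈ S, SP a ∧ N a ≤ A) → (∀ b ∈ T, SP b ∧ N b ≤ B) →
  ‖∑ a ∈ S, ∑ b ∈ T, α a * β b * del (a * b)‖ ≤ C * Real.sqrt (A + B + (A * B) ^ (2 / 3 : ℝ)) *
    Real.sqrt (∑ a ∈ S, ‖α a‖ ^ 2) * Real.sqrt (∑ b ∈ T, ‖β b‖ ^ 2)

def NRMStmt : Prop := ∀ᶠ X : ℝ in atTop, ∀ t k g (J : Finset (Fin 6)) (B : ℝ), Bx X t k g →
  (∀ b, SP b → CV X g J b ≠ 0 → (2 : ℝ) ^ (∑ i ∈ J, k i) ≤ N b ∧ N b ≤ 64 * 2 ^ (∑ i ∈ J, k i)) ∧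
  ∑ b ∈ SQ B, ‖CV X g J b‖ ^ 2 ≤ 2 ^ (∑ i ∈ J, k i) * (if (5 : Fin 6) ∈ J then Real.log X ^ 2 else 1) *
    (ll X ^ 20 / Real.log X) ^ (J.filter fun i => k i ≠ 0).card

def BADStmt : Prop := ∀ᶠ X : ℝ in atTop, ∀ t k g, Bx X t k g → (2 : ℝ) ^ (∑ i, k i) ≤ 2 * X →
  (X ^ (99 / 100 : ℝ) ≤ 2 ^ (∑ i, k i) →
    ‖MS X g del‖ ≤ ((2 : ℝ) ^ (∑ i, k i)) ^ (5 / 6 : ℝ) * ll X ^ 40 / Real.sqrt (Real.log X)) ∧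
  ((2 : ℝ) ^ (∑ i, k i) ≤ X ^ (99 / 100 : ℝ) → ‖MS X g del‖ ≤ X ^ (83 / 100 : ℝ)) ∧
  ((∃ i, k i ≠ 0 ∧ (2 : ℝ) ^ (k i + 1) ≤ ww X) → MS X g del = 0)

/-- cancellation in one atom -/
def SW1Stmt : Prop := ∀ᶠ X : ℝ in atTop, ∀ (t Y V y : ℝ) (g : O → ℂ) (h b : O), |t| ≤ X → X ^ (1 / 20 : ℝ) ≤ Y → Y ≤ X →
  0 ≤ V → Atom (ww X) Y V t g → h ≠ 0 → (¬ ∃ c, h = c ^ 3) → N h ≤ X ^ 10 → SP b → Rough (ww X) b → N b ≤ X ^ 2 →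
  ‖∑ n ∈ SQ y, if IsCoprime n b then g n * cub h n else 0‖ ≤ V * Y * ww X ^ (-1 / 150 : ℝ)
def SWStmt : Prop := ∀ᶠ X : ℝ in atTop, ∀ t k g (J : Finset (Fin 6)) (h : O) (y : ℝ), |t| ≤ X → Bx X t k g →
  X ^ (3 / 10 : ℝ) ≤ 2 ^ (∑ i ∈ J, k i) → (2 : ℝ) ^ (∑ i ∈ J, k i) ≤ X → h ≠ 0 → (¬ ∃ c, h = c ^ 3) → N h ≤ X ^ 10 →
  ‖∑ b ∈ SQ y, CV X g J b * cub h b‖ ≤ 2 ^ (∑ i ∈ J, k i) * ww X ^ (-1 / 200 : ℝ)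

def T2Stmt : Prop := ∀ᶠ X : ℝ in atTop, ∀ t k g (J : Finset (Fin 6)), |t| ≤ X → Bx X t k g →
  X ^ (99 / 100 : ℝ) ≤ 2 ^ (∑ i, k i) → (2 : ℝ) ^ (∑ i, k i) ≤ 2 * X →
  ((2 : ℝ) ^ (∑ i, k i)) ^ (1 / 3 : ℝ) * LL X ^ 100 ≤ 2 ^ (∑ i ∈ J, k i) →
  (2 : ℝ) ^ (∑ i ∈ J, k i) * LL X ^ 100 ≤ ((2 : ℝ) ^ (∑ i, k i)) ^ (1 / 2 : ℝ) →
  ‖MS X g del‖ ≤ X ^ (5 / 6 : ℝ) / LL X

def COMBStmt : Prop := ∀ (k : Fin 6 → ℕ) (l s : ℝ), 1 ≤ l → s = ∑ i, (k i : ℝ) → (∀ i, (k i : ℝ) ≤ s / 2 - l) →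
  (∀ i, k i = 0 ∨ 100 * l ≤ k i) →
  (∀ J : Finset (Fin 6), ¬ (s / 3 + l ≤ ∑ i ∈ J, (k i : ℝ) ∧ ∑ i ∈ J, (k i : ℝ) ≤ s / 2 - l)) →
  ∀ i, ∃ j : ℕ, j ≤ 4 ∧ |(k i : ℝ) - j * s / 12| ≤ 6 * l

def BOXStmt : Prop := ∀ ε : ℝ, 0 < ε → ∀ᶠ X : ℝ in atTop, ∀ (t : ℝ) (S : Finset (Fin 6 → ℕ))
  (g : (Fin 6 → ℕ) → Fin 6 → O → ℂ), |t| ≤ X → (∀ k ∈ S, Bx X t k (g k) ∧ (2 : ℝ) ^ (∑ i, k i) ≤ 2 * X) →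
  ∑ k ∈ S, ‖MS X (g k) del‖ ≤ ε * X ^ (5 / 6 : ℝ) / ll X

/-! the high part -/
/-- averaged type I bound -/
def TI1Stmt : Prop := ∃ C : ℝ, 0 ≤ C ∧ ∀ (R Z t : ℝ) (S : Finset O) (Zf : O → ℝ), 1 ≤ R → 1 ≤ Z →
  (R * Z) ^ (46 / 100 : ℝ) ≤ Z → (∀ r ∈ S, SP r ∧ N r ≤ R ∧ Z ≤ Zf r ∧ Zf r ≤ 2 * Z) →
  ∑ r ∈ S, ‖∑' u : O, if Prim u then del (r * u) * (VV (Zf r) (N u) : ℝ) * (N u : ℂ) ^ (t * I) else 0‖ ≤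
    C * (1 + |t|) ^ 4 * (R * Z) ^ (5 / 6 - 1 / 500 : ℝ)

/-- the sum over `r e u` with a condition on `e` -/
def HS (X Z : ℝ) (Φ : ℝ → ℂ) (α : O → ℂ) (P : O → Prop) : ℂ :=
  ∑ r ∈ SQ (2 * X), ∑ e ∈ SQ (2 * X), ∑ u ∈ SQ (2 * X),
    if Smo (ww X) e ∧ P e then α r * mu e * (VV Z (N e * N u) : ℝ) * FF X Φ (r * e * u) else 0
def HP (P : ℝ → ℝ → O → Prop) : Prop := ∀ K : ℝ, ∀ᶠ X : ℝ in atTop, ∀ Φ (α : O → ℂ) (Z : ℝ), Wt X K Φ →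
  (∀ r, ‖α r‖ ≤ 1) → X ^ (49 / 100 : ℝ) ≤ Z → Z ≤ X ^ 2 → ‖HS X Z Φ α (P X Z)‖ ≤ X ^ (5 / 6 : ℝ) / LL X ^ 12
def HAStmt : Prop := HP fun X Z e => N e ≤ Z * X ^ (-48 / 100 : ℝ)
def HB1Stmt : Prop := HP fun X Z e => Z * X ^ (-48 / 100 : ℝ) < N e ∧ N e < X ^ (1 / 3 : ℝ)
def HB2Stmt : Prop := HP fun X Z e => Z * X ^ (-48 / 100 : ℝ) < N e ∧ X ^ (1 / 3 : ℝ) ≤ N e

/-- Rankin, and weighted counts -/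
def RANKStmt : Prop := (∀ᶠ X : ℝ in atTop, ∀ (E : ℝ) (s : Finset O), X ^ (9 / 1000 : ℝ) ≤ E →
    (∀ e ∈ s, SP e ∧ Smo (ww X) e ∧ E ≤ N e ∧ N e ≤ 2 * E) → ∑ e ∈ s, (3 : ℝ) ^ (pf e).card ≤ E / LL X ^ 100) ∧
  ∃ C : ℝ, 0 ≤ C ∧ ∀ (Y : ℝ), 1 ≤ Y → ∑ n ∈ SQ Y, (3 : ℝ) ^ (pf n).card ≤ C * Y * (1 + Real.log Y) ^ 3

/-- a bilinear bound valid on all sub-rectangles -/
def BF {ι κ : Type} (S : Finset ι) (T : Finset κ) (K : ι → κ → ℂ) (p : ι → ℝ) (q : κ → ℝ) (D : ℝ) : Prop :=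
  ∀ S' ⊆ S, ∀ T' ⊆ T, ‖∑ x ∈ S', ∑ y ∈ T', K x y‖ ≤ D * Real.sqrt (∑ x ∈ S', p x) * Real.sqrt (∑ y ∈ T', q y)
/-- triangular truncation -/
def TRIStmt : Prop := ∀ (ι κ : Type) (S : Finset ι) (T : Finset κ) (K : ι → κ → ℂ) (p : ι → ℝ) (q : κ → ℝ) (D : ℝ)
  (i : ι → ℕ) (j : κ → ℕ) (m : ℕ), (∀ x, 0 ≤ p x) → (∀ y, 0 ≤ q y) → 0 ≤ D → (∀ y ∈ T, j y ≤ 2 ^ m) →
  BF S T K p q D → BF S T (fun x y => if i x < j y then K x y else 0) p q ((m + 1) * D)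
/-- `SLB` for indexed families -/
def SLIStmt : Prop := ∃ C : ℝ, 0 ≤ C ∧ ∀ (A B : ℝ) (S T : Finset (O × O × O)) (α β : O × O × O → ℂ), 1 ≤ A → 1 ≤ B →
  (∀ x ∈ S, SP x.1 ∧ SP x.2.1 ∧ SP x.2.2 ∧ N (x.1 * x.2.1 * x.2.2) ≤ A) →
  (∀ y ∈ T, SP y.1 ∧ SP y.2.1 ∧ SP y.2.2 ∧ N (y.1 * y.2.1 * y.2.2) ≤ B) →
  BF S T (fun x y => α x * β y * del (x.1 * x.2.1 * x.2.2 * (y.1 * y.2.1 * y.2.2)))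
    (fun x => 3 ^ (pf x.1).card * 3 ^ (pf x.2.1).card * 3 ^ (pf x.2.2).card * ‖α x‖ ^ 2)
    (fun y => 3 ^ (pf y.1).card * 3 ^ (pf y.2.1).card * 3 ^ (pf y.2.2).card * ‖β y‖ ^ 2)
    (C * Real.sqrt (A + B + (A * B) ^ (2 / 3 : ℝ)))

end Vale.Agent.P006.M
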