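import Vale.Agent.P006.SL

/-! P006 branch S, part 1: the cubic large sieve on thin annuli. -/

noncomputable section
open Complex MeasureTheory
open scoped Classical ComplexConjugate

namespace Vale.Agent.P006.S
open Vale.Agent.P026

/-- three lines theorem with polynomial weights -/
def PLStmt : Prop := ∀ a b p q c : ℝ, a < b → 0 ≤ p → 0 ≤ q → ∃ C : ℝ, 0 ≤ C ∧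
  ∀ (f : ℂ → ℂ) (K Ma Mb : ℝ), DifferentiableOn ℂ f {s | a ≤ s.re ∧ s.re ≤ b} →
  (∀ s : ℂ, a ≤ s.re → s.re ≤ b → ‖f s‖ ≤ K * Real.exp (c * |s.im|)) → 0 ≤ Ma → 0 ≤ Mb →
  (∀ t : ℝ, ‖f (a + t * I)‖ ≤ Ma * (1 + |t|) ^ p) → (∀ t : ℝ, ‖f (b + t * I)‖ ≤ Mb * (1 + |t|) ^ q) →
  ∀ s : ℂ, a ≤ s.re → s.re ≤ b → ‖f s‖ ≤ C * (Ma * (1 + |s.im|) ^ p) ^ ((b - s.re) / (b - a)) *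
    (Mb * (1 + |s.im|) ^ q) ^ ((s.re - a) / (b - a))

def GRStmt : Prop := ∃ C : ℝ, 0 ≤ C ∧ ∀ u : ℝ,
  ‖Gamma (1 - ((3 / 4 : ℝ) + u * I)) / Gamma ((3 / 4 : ℝ) + u * I)‖ ≤ C * (1 + |u|) ^ (-1 / 2 : ℝ) ∧
  ‖Gamma (1 - ((-1 / 2 : ℝ) + u * I)) / Gamma ((-1 / 2 : ℝ) + u * I)‖ ≤ C * (1 + |u|) ^ 2

/-- thin weight -/
def wT (T x : ℝ) : ℝ := if 0 < x then Real.exp (-(T * Real.log x) ^ 2) else 0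
/-- its Mellin transform -/
def omT (T : ℝ) (s : ℂ) : ℂ := ((Real.sqrt Real.pi / T : ℝ) : ℂ) * cexp (s ^ 2 / (4 * T ^ 2))
/-- Mellin transform of the dual kernel -/
def dk (T σ u : ℝ) : ℂ := omT T (σ + u * I) * (Gamma (1 - (σ + u * I)) / Gamma (σ + u * I))

/-- the thin weight as a superposition of Gaussians -/
structure MU (T : ℝ) (μ : ℝ → ℂ) : Prop where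
  meas : Measurable μ
  bd : ∃ C : ℝ, ∀ v : ℝ, 0 < v → ‖μ v‖ ≤ C * v ^ 3 ∧ ‖μ v‖ ≤ C * (v ^ 2)⁻¹
  fwd : ∀ x : ℝ, 0 ≤ x → ∫ v in Set.Ioi (0 : ℝ), μ v / v * cexp (-(x * v : ℝ)) = wT T x
  zero : ∫ v in Set.Ioi (0 : ℝ), μ v / v ^ 2 = omT T 1
  dual : ∀ y σ : ℝ, 0 < y → σ = 3 / 4 ∨ σ = -1 / 2 →
    ∫ v in Set.Ioi (0 : ℝ), μ v / v ^ 2 * cexp (-(y / v : ℝ)) =
      (1 / (2 * Real.pi) : ℝ) * ∫ u : ℝ, dk T σ u * (y : ℂ) ^ (σ + u * I - 1)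

def MUStmt : Prop := ∀ T : ℝ, 1 ≤ T → ∃ μ, MU T μ

/-- size of the dual kernel on the two lines -/
def DKStmt : Prop := ∃ C : ℝ, 0 ≤ C ∧ ∀ T : ℝ, 1 ≤ T →
  Integrable (dk T (3 / 4)) ∧ Integrable (dk T (-1 / 2)) ∧
  ∫ u, ‖dk T (3 / 4) u‖ ≤ C * T ^ (-1 / 2 : ℝ) ∧ ∫ u, ‖dk T (-1 / 2) u‖ ≤ C * T ^ 2

/-- thin annulus -/
def Thin (A T : ℝ) (m : O) : Prop := A ≤ N m ∧ N m ≤ A * (1 + 1 / T)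
def PW (μ : ℝ → ℂ) (A X : ℝ) (b : O → ℂ) : ℂ := ∫ v in Set.Ioi (0 : ℝ), μ v / v * Fm (Pk (A / v)) X b

def TH1Stmt : Prop := ∀ (T A X : ℝ) (μ : ℝ → ℂ) (a : O → ℂ) (S : Finset O), 1 ≤ T → MU T μ → 0 < A →
  (∀ m ∈ S, Thin A T m) →
  ∑ m ∈ S, ‖∑ n ∈ SQ X, a n * cub m n‖ ^ 2 ≤ 3 * ∑ e ∈ SQ X, (PW μ A X (sh X a e)).re

def TH2Stmt : Prop := ∃ C : ℝ, 0 ≤ C ∧ ∀ (T A X Y : ℝ) (μ : ℝ → ℂ) (b : O → ℂ), 1 ≤ T → MU T μ → 0 < A →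
  0 < Y → Y * T ^ 2 ≤ A → Shell Y b →
  (PW μ A X b).re ≤ C * (A / T) * ‖b 1‖ ^ 2 + C * ((A * Y) ^ (2 / 3 : ℝ) * T ^ (-1 / 3 : ℝ)) *
    min 1 (Y * T / Real.sqrt A) * ∑ n ∈ SQ X, ‖b n‖ ^ 2

/-- thin rows, weighted -/
def TH3Stmt : Prop := ∃ C : ℝ, 0 ≤ C ∧ ∀ (T A Y : ℝ) (S U : Finset O) (a : O → ℂ), 1 ≤ T → 0 < A → 0 < Y →
  Y * T ^ 2 ≤ A → (∀ m ∈ S, Thin A T m) → (∀ n ∈ U, SP n ∧ Y / 2 < N n ∧ N n ≤ Y) →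
  ∑ m ∈ S, ‖∑ n ∈ U, a n * cub m n‖ ^ 2 ≤ C * (A / T) * ∑ n ∈ U, ‖a n‖ ^ 2 +
    C * ((A * Y) ^ (2 / 3 : ℝ) * T ^ (-1 / 3 : ℝ)) * ∑ n ∈ U, ‖a n‖ ^ 2 * rho (Y * T / Real.sqrt A) n

/-- thin rows -/
def TH4Stmt : Prop := ∃ C : ℝ, 0 ≤ C ∧ ∀ (T A Y : ℝ) (S U : Finset O) (a : O → ℂ), 1 ≤ T → 0 < A → 0 < Y →
  Y * T ^ 2 ≤ A → (∀ m ∈ S, Thin A T m) → (∀ n ∈ U, SP n ∧ Y / 2 < N n ∧ N n ≤ Y) →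
  ∑ m ∈ S, ‖∑ n ∈ U, a n * cub m n‖ ^ 2 ≤
    C * (A / T + (A * Y) ^ (2 / 3 : ℝ) * T ^ (-1 / 3 : ℝ)) * ∑ n ∈ U, ‖a n‖ ^ 2

/-- thin columns, squarefree rows -/
def DUTStmt : Prop := ∃ C : ℝ, 0 ≤ C ∧ ∀ (τ B Y : ℝ) (S U : Finset O) (a : O → ℂ), 1 ≤ τ → 1 ≤ B → 0 < Y →
  Y * τ ^ 2 ≤ B → (∀ m ∈ S, SP m ∧ N m ≤ Y) → (∀ n ∈ U, SP n ∧ Thin B τ n) →
  ∑ m ∈ S, ‖∑ n ∈ U, a n * cub m n‖ ^ 2 ≤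
    C * (1 + Real.log (1 + B)) * (B / τ + (B * Y) ^ (2 / 3 : ℝ) * τ ^ (-1 / 3 : ℝ)) * ∑ n ∈ U, ‖a n‖ ^ 2

/-- from squarefree rows to all rows -/
def ALLStmt : Prop := ∃ C : ℝ, 0 ≤ C ∧ ∀ (U : Finset O) (K D E : ℝ), 1 ≤ K → 0 ≤ D → 0 ≤ E →
  (∀ n ∈ U, Prim n) →
  (∀ (Y : ℝ) (S : Finset O) (a : O → ℂ), 0 < Y → Y ≤ K → (∀ m ∈ S, SP m ∧ N m ≤ Y) →
    ∑ m ∈ S, ‖∑ n ∈ U, a n * cub m n‖ ^ 2 ≤ (D + E * Y ^ (2 / 3 : ℝ)) * ∑ n ∈ U, ‖a n‖ ^ 2) →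
  ∀ (S : Finset O) (a : O → ℂ), (∀ k ∈ S, k ≠ 0 ∧ N k ≤ K) →
    ∑ k ∈ S, ‖∑ n ∈ U, a n * cub k n‖ ^ 2 ≤
      C * (1 + Real.log K) * (D * K ^ (1 / 3 : ℝ) + E * K ^ (2 / 3 : ℝ)) * ∑ n ∈ U, ‖a n‖ ^ 2

/-- all nonzero rows, columns restricted by `P` -/
def LAon (P : O → Prop) (K B : ℝ) : Prop := ∀ (S U : Finset O) (a : O → ℂ), (∀ k ∈ S, k ≠ 0 ∧ N k ≤ K) →
  (∀ n ∈ U, SP n ∧ P n) → ∑ k ∈ S, ‖∑ n ∈ U, a n * cub k n‖ ^ 2 ≤ B * ∑ n ∈ U, ‖a n‖ ^ 2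

def TH5Stmt : Prop := ∃ C : ℝ, 0 ≤ C ∧ ∀ τ B K : ℝ, 1 ≤ τ → 0 < B → 1 ≤ K →
  LAon (Thin B τ) K (C * (1 + Real.log (1 + B)) ^ 2 * (B / τ) * K ^ (1 / 3 : ℝ) +
    C * (1 + Real.log (1 + B)) ^ 2 * (B ^ (2 / 3 : ℝ) * τ ^ (-1 / 3 : ℝ)) * K ^ (2 / 3 : ℝ) +
    C * (1 + Real.log (1 + B)) ^ 2 * τ * K ^ (4 / 3 : ℝ))

/-- `ST2Stmt` with restricted columns -/
def ST2gStmt : Prop := ∃ C : ℝ, 0 ≤ C ∧ ∀ (P : O → Prop) (M X Y α β γ : ℝ) (b : O → ℂ), 0 < M → 0 < Y →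
  0 ≤ α → 0 ≤ β → 0 ≤ γ → Shell Y b → (∀ n, b n ≠ 0 → P n) →
  (∀ K : ℝ, 1 ≤ K → LAon P K (α * K ^ (1 / 3 : ℝ) + β * K ^ (2 / 3 : ℝ) + γ * K ^ (4 / 3 : ℝ))) →
  (Fm (Pk M) X b).re ≤ 4 * M * ‖b 1‖ ^ 2 + C * (M / Y) *
    (α * (Y ^ 2 / M) ^ (1 / 3 : ℝ) + β * (Y ^ 2 / M) ^ (2 / 3 : ℝ) + γ * (Y ^ 2 / M) ^ (4 / 3 : ℝ)) *
      ∑ n ∈ SQ X, ‖b n‖ ^ 2

/-- number of primary divisors -/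
def tau (n : O) : ℝ := (dv n).card

def TH7Stmt : Prop := ∃ C : ℝ, 0 ≤ C ∧ ∀ (τ M B : ℝ) (S U : Finset O) (a : O → ℂ), 2 ≤ τ → 0 < M → 1 ≤ B →
  (∀ m ∈ S, N m ≤ M) → (∀ n ∈ U, SP n ∧ Thin B τ n) →
  ∑ m ∈ S, ‖∑ n ∈ U, a n * cub m n‖ ^ 2 ≤ C * (1 + Real.log (1 + B)) ^ 2 *
    (M + (M * B) ^ (2 / 3 : ℝ) / τ + M ^ (1 / 3 : ℝ) * B * τ ^ (-1 / 3 : ℝ) +
      τ * M ^ (-1 / 3 : ℝ) * B ^ (5 / 3 : ℝ)) * ∑ n ∈ U, ‖a n‖ ^ 2 * tau n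

/-- many primes -/
def PRStmt : Prop := ∃ C : ℝ, 0 < C ∧ ∀ P : ℝ, 4 ≤ P → ∃ Q : Finset O,
  (∀ q ∈ Q, Prime q ∧ Prim q ∧ N q ≤ P) ∧ P / Real.log P ≤ C * Q.card

/-- the balanced case -/
def BALStmt : Prop := ∃ C : ℝ, 0 ≤ C ∧ ∀ (τ A B : ℝ) (S U : Finset O) (a : O → ℂ), 8 ≤ τ → 1 ≤ B → B ≤ A →
  (∀ m ∈ S, SP m ∧ N m ≤ A) → (∀ n ∈ U, SP n ∧ Thin B τ n) →
  ∑ m ∈ S, ‖∑ n ∈ U, a n * cub m n‖ ^ 2 ≤ C * (1 + Real.log (1 + B)) ^ 2 * Real.log τ *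
    (A * τ ^ (4 / 3 : ℝ) + (A * B) ^ (2 / 3 : ℝ) * τ ^ (-1 / 3 : ℝ)) * ∑ n ∈ U, ‖a n‖ ^ 2 * tau n

/-- END of part 1: thin rows and thin columns -/
def TTStmt : Prop := ∃ C : ℝ, 0 ≤ C ∧ ∀ (τ T A B : ℝ) (S U : Finset O) (a : O → ℂ), 8 ≤ τ → τ ≤ T → 1 ≤ B →
  B ≤ A → τ ^ 20 ≤ A * B → (∀ m ∈ S, SP m ∧ Thin A T m) → (∀ n ∈ U, SP n ∧ Thin B T n) →
  ∑ m ∈ S, ‖∑ n ∈ U, a n * cub m n‖ ^ 2 ≤ C * (1 + Real.log (1 + A)) ^ 3 *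
    (A / T + (A * B) ^ (2 / 3 : ℝ) * τ ^ (-1 / 3 : ℝ)) * ∑ n ∈ U, ‖a n‖ ^ 2 * tau n

end Vale.Agent.P006.S
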