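import Vale.Agent.P006.S2
import Vale.Agent.P006.M

/-! P006 branch S, part 3: final assembly. -/

noncomputable section
open Complex MeasureTheory Filter Topology
open scoped Classical ComplexConjugate

namespace Vale.Agent.P006.S
open Vale.Agent.P026

/-- the smooth cutoff is an admissible weight -/
def WTStmt : Prop := ∃ K : ℝ, ∀ᶠ X : ℝ in atTop, M.Wt X K fun x => (Phi (Real.log X ^ 100) x : ℂ)

/-- the smooth cutoff, all primes -/
def SMStmt : Prop := ∀ ε : ℝ, 0 < ε → ∀ᶠ X : ℝ in atTop,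
  ‖∑ p ∈ PP (X ^ 2), Real.log (N p) * M.del p * Phi (Real.log X ^ 100) (N p / X)‖ ≤ ε * X ^ (5 / 6 : ℝ)

/-- the comparison sum -/
def CMPStmt : Prop := Tendsto (fun X : ℝ => (∑ p ∈ PP (X ^ 2),
  Real.log (N p) * N p ^ (-1 / 6 : ℝ) * Phi (Real.log X ^ 100) (N p / X)) / X ^ (5 / 6 : ℝ)) atTop (𝓝 (6 / 5))

/-- sharp cutoff, logarithmic weight -/
def LOGStmt : Prop := Tendsto (fun X : ℝ => (∑ p ∈ PP X, gt p * Real.log (N p)) /
  ((X ^ (5 / 6 : ℝ) : ℝ) : ℂ)) atTop (𝓝 ((6 / 5 * cst : ℝ) : ℂ))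

end Vale.Agent.P006.S
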