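import Vale.Agent.P026.Stm2

/-! P006: angular mode zero, statements without the vanishing of the zero frequency. -/

noncomputable section
open Complex MeasureTheory Filter Topology
open scoped Classical ComplexConjugate

namespace Vale.Agent.P026.J0

structure Adm (u : ℂ → ℂ × ℂ → ℂ) : Prop where
  supp : ∃ r R : ℝ, 0 < r ∧ ∀ C p, u C p ≠ 0 → r ≤ ‖C‖ ∧ ‖C‖ ≤ R ∧ ‖p.1‖ ≤ R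
  cont : ∀ C, Continuous (u C)
  dec : ∃ K : ℝ, ∀ C p, ‖u C p‖ ≤ K * (1 + ‖p.2‖) ^ (-3 : ℝ)
  fcont : Continuous fun q : ℂ × ℂ × ℂ => F2 (u q.1) q.2.1 q.2.2
  fdec : ∃ K : ℝ, ∀ C ξ η, ‖F2 (u C) ξ η‖ ≤ K * (1 + ‖ξ‖) ^ (-6 : ℝ) * (1 + ‖η‖) ^ (-8 : ℝ)

/-- the zero frequency term -/
def S00 (ν : O → O → O → ℂ) (F : ℂ → ℂ) (t : ℝ) : ℂ :=
  ((t : ℂ) ^ 8)⁻¹ * ∑' c : O, if Prim c then nuh ν c 0 0 * Phi c 0 0 * F (toC c / t ^ 3) *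
    (t ^ 6 / N c) else 0

def LIM1Stmt : Prop := ∀ ν z u (t : ℝ), Nu ν → Adm u → 1 ≤ t →
  ((t : ℂ) ^ 12)⁻¹ * Lsum ν z u t =
    (kap ^ 2 * 3 ^ 16)⁻¹ * ∑' d : O, psi (z * toC d / 729) * Sd ν u t d
def LIM2Stmt : Prop := ∀ ν u d, Nu ν → Adm u → d ≠ 0 →
  Tendsto (fun t => Sd ν u t d) atTop (𝓝 ((kap ^ 2)⁻¹ * Av ν d * Ker u (toC d)))
def LIM3Stmt : Prop := ∀ ν u, Nu ν → Adm u →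
  Tendsto (fun t => Sd ν u t 0 - S00 ν (fun C => F2 (u C) 0 0) t) atTop (𝓝 0)
def LIM4Stmt : Prop := ∀ ν u, Nu ν → Adm u → ∃ K : ℝ, ∀ t : ℝ, 1 ≤ t → ∀ d, d ≠ 0 →
  ‖Sd ν u t d‖ ≤ K * (1 + ‖toC d‖) ^ (-4 : ℝ)
def LIMStmt : Prop := ∀ ν z u, Nu ν → Adm u →
  Tendsto (fun t : ℝ => ((t : ℂ) ^ 12)⁻¹ * Lsum ν z u t -
      (kap ^ 2 * 3 ^ 16)⁻¹ * S00 ν (fun C => F2 (u C) 0 0) t) atTop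
    (𝓝 ((kap ^ 4 * 3 ^ 16)⁻¹ * Theta ν z (Ker u)))

def INV2Stmt : Prop := ∀ (r h a a2 : O) (ν : ℕ → O → O → O → O → ℂ) (u : ℂ → ℂ × ℂ → ℂ) (t : ℝ),
  Prim r → Prim h → (729 : O) ∣ a → h ∣ lam ^ 18 * a * a2 - 1 →
  (∀ v < 7, ∀ e ∈ U6, InvP r v e h (ν v e)) → Adm u → 0 < t →
  Lsum (nu0 r) (toC (lam ^ 6 * a) / toC h) u t = ∑ v ∈ Finset.range 7, ∑ e ∈ U6,
    cub (e * lam ^ (6 - v) * a) h *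
      Lsum (ν v e) (-(toC (729 * lam ^ (2 * v) * e ^ 4 * a2) / toC h)) (utr (muC v e h) u) t

def SOFTStmt : Prop := ∀ ω (j j' : ℤ) β1 β2 (κ : ℂ), OmP ω → Bump j β1 → Bump j' β2 → True →
  (∀ X : ℝ, 0 < X → X ≤ 1 → Adm (UU ω β1 β2 κ X)) ∧
  (∃ K : ℝ, ∀ ξ, ‖F1 β2 ξ‖ ≤ K * (1 + ‖ξ‖) ^ (-6 : ℝ)) ∧
  ∃ K : ℝ, ∀ X : ℝ, 0 < X → X ≤ 1 → ∀ C ξ η,
    ‖F2 (UU ω β1 β2 κ X C) ξ η - β1 C * F1 β2 ξ * cexp (-((X * ‖η‖) ^ 6 : ℝ))‖ ≤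
      K * X ^ 3 * (1 + ‖ξ‖) ^ (-6 : ℝ) * (1 + X * ‖η‖) ^ (-8 : ℝ)

def XLStmt : Prop := ∃ A : ℂ, A ≠ 0 ∧ ∀ ω (j j' : ℤ) β1 β2 (κ : ℂ), OmP ω → Bump j β1 → Bump j' β2 →
  True → (∃ K : ℝ, ∀ X : ℝ, 0 < X → X ≤ 1 → ∀ d : ℂ, d ≠ 0 →
    ‖Ker (UU ω β1 β2 κ X) d‖ ≤ K * (1 + ‖d‖) ^ (-5 : ℝ)) ∧
  ∀ d : ℂ, d ≠ 0 → Tendsto (fun X => Ker (UU ω β1 β2 κ X) d) (𝓝[>] 0) (𝓝 (A * K0 β1 β2 d))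

end Vale.Agent.P026.J0
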