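import Vale.Agent.P006.T0a

/-! P026: Poisson summation applied to the lattice sum. -/

noncomputable section
open Complex MeasureTheory Filter Topology
open scoped Classical ComplexConjugate

namespace Vale.Agent.P026.J0

namespace LIM1Z

/-- decay of order three in both variables -/
def Dec (f : ℂ × ℂ → ℂ) : Prop :=
  ∃ K : ℝ, 0 ≤ K ∧ ∀ p, ‖f p‖ ≤ K * (1 + ‖p.1‖) ^ (-3 : ℝ) * (1 + ‖p.2‖) ^ (-3 : ℝ)

theorem cmp {x y M : ℝ} (hx : 0 ≤ x) (hy : 0 ≤ y) (hM : 0 ≤ M) (h : 1 + x ≤ M * (1 + y)) :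
    (1 + y) ^ (-3 : ℝ) ≤ M ^ (3 : ℝ) * (1 + x) ^ (-3 : ℝ) := by
  have h2 := Real.rpow_le_rpow (by positivity) h (by norm_num : (0 : ℝ) ≤ 3)
  rw [Real.mul_rpow hM (by positivity)] at h2
  rw [Real.rpow_neg (by positivity), Real.rpow_neg (by positivity), ← div_eq_mul_inv,
    le_div_iff₀ (by positivity), inv_mul_le_iff₀ (by positivity)]
  linarith

theorem aff {a : ℂ} (ha : a ≠ 0) (w : ℂ) : ∃ M : ℝ, 0 ≤ M ∧ ∀ z : ℂ,
    (1 + ‖a * (z + w)‖) ^ (-3 : ℝ) ≤ M * (1 + ‖z‖) ^ (-3 : ℝ) := by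
  have h0 : 0 < ‖a‖ := norm_pos_iff.2 ha
  refine ⟨(1 + ‖a‖⁻¹ + ‖w‖) ^ (3 : ℝ), by positivity, fun z =>
    cmp (norm_nonneg _) (norm_nonneg _) (by positivity) ?_⟩
  rw [norm_mul]
  have h1 : ‖z‖ ≤ ‖z + w‖ + ‖w‖ := by simpa using norm_sub_le (z + w) w
  have h2 : ‖a‖⁻¹ * (‖a‖ * ‖z + w‖) = ‖z + w‖ := by field_simp
  nlinarith [inv_pos.2 h0, mul_nonneg h0.le (norm_nonneg (z + w)), norm_nonneg w,
    mul_nonneg (norm_nonneg w) (mul_nonneg h0.le (norm_nonneg (z + w)))]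

theorem Dec.aff {f : ℂ × ℂ → ℂ} (hf : Dec f) {a b : ℂ} (ha : a ≠ 0) (hb : b ≠ 0) (w : ℂ) :
    Dec fun p => f (a * (p.1 + w), b * p.2) := by
  obtain ⟨K, hK, h⟩ := hf
  obtain ⟨M, hM, h1⟩ := LIM1Z.aff ha w
  obtain ⟨M', hM', h2⟩ := LIM1Z.aff hb 0
  refine ⟨K * M * M', by positivity, fun p => (h _).trans ?_⟩
  have h3 := h1 p.1
  have h4 := h2 p.2
  rw [add_zero] at h4
  calc K * (1 + ‖a * (p.1 + w)‖) ^ (-3 : ℝ) * (1 + ‖b * p.2‖) ^ (-3 : ℝ)
      ≤ K * (M * (1 + ‖p.1‖) ^ (-3 : ℝ)) * (M' * (1 + ‖p.2‖) ^ (-3 : ℝ)) := by gcongr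
    _ = _ := by ring

theorem Dec.bdd {f : ℂ × ℂ → ℂ} (hf : Dec f) {g : ℂ × ℂ → ℂ} {M : ℝ} (hM : 0 ≤ M)
    (hg : ∀ p, ‖g p‖ ≤ M * ‖f p‖) : Dec g := by
  obtain ⟨K, hK, h⟩ := hf
  refine ⟨M * K, by positivity, fun p => (hg p).trans ?_⟩
  have := mul_le_mul_of_nonneg_left (h p) hM
  linarith

theorem Dec.summ (hB : Bas) {f : ℂ × ℂ → ℂ} (hf : Dec f) {P : O × O → ℂ} {M : ℝ}
    (hP : ∀ a, ‖P a‖ ≤ M) : Summable fun a : O × O => P a * f (toC a.1, toC a.2) := by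
  obtain ⟨K, hK, h⟩ := hf
  have h1 := hB.b3.summ' 3 (by norm_num)
  have h2 := (h1.mul_of_nonneg h1 (fun _ => by positivity) (fun _ => by positivity)).mul_left (M * K)
  refine Summable.of_norm_bounded h2 fun a => ?_
  rw [norm_mul]
  have := mul_le_mul (hP a) (h (toC a.1, toC a.2)) (norm_nonneg _) ((norm_nonneg _).trans (hP a))
  linarith

theorem fin_tsum (φ : O → O → ℂ) (S : Finset O) (h0 : ∀ c, c ∉ S → ∀ y, φ c y = 0)
    (hs : ∀ c ∈ S, Summable (φ c)) : ∑' p : O × O, φ p.1 p.2 = ∑ c ∈ S, ∑' y, φ c y := by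
  have h1 : ∀ c ∈ S, HasSum (fun p : O × O => if p.1 = c then φ c p.2 else 0) (∑' y, φ c y) := by
    intro c hc
    have hi : Function.Injective fun y : O => (c, y) := fun a b h => (Prod.ext_iff.1 h).2
    rw [← hi.hasSum_iff]
    · simpa [Function.comp_def] using (hs c hc).hasSum
    · rintro ⟨a, b⟩ hab
      rw [if_neg]
      rintro rfl
      exact hab ⟨b, rfl⟩
  refine (HasSum.congr_fun (hasSum_sum h1) fun p => ?_).tsum_eq
  rw [Finset.sum_ite_eq]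
  split_ifs with h
  · rfl
  · exact h0 _ h _

theorem int2 (g : ℂ × ℂ → ℂ) {a b : ℝ} (ha : 0 < a) (hb : 0 < b) (w : ℂ) :
    ∫ p : ℂ × ℂ, g ((a : ℂ)⁻¹ * (p.1 + w), (b : ℂ)⁻¹ * p.2) = (a ^ 2 * b ^ 2 : ℝ) * ∫ p, g p := by
  have : Measure.IsAddHaarMeasure (volume : Measure (ℂ × ℂ)) := Measure.prod.instIsAddHaarMeasure _ _
  have h1 := integral_add_right_eq_self (μ := (volume : Measure (ℂ × ℂ)))
    (fun p : ℂ × ℂ => g ((a : ℂ)⁻¹ * p.1, (b : ℂ)⁻¹ * p.2)) (w, 0)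
  simp only [Prod.fst_add, Prod.snd_add, add_zero] at h1
  rw [h1]
  let A : (ℂ × ℂ) →ₗ[ℝ] (ℂ × ℂ) := LinearMap.prodMap (a⁻¹ • LinearMap.id) (b⁻¹ • LinearMap.id)
  have hd : LinearMap.det A = (a ^ 2 * b ^ 2)⁻¹ := by
    simp only [A]
    rw [LinearMap.det_prodMap, LinearMap.det_smul, LinearMap.det_smul]
    simp [mul_comm]
  have h2 := Measure.map_linearMap_addHaar_eq_smul_addHaar (volume : Measure (ℂ × ℂ)) (f := A)
    (by rw [hd]; positivity)
  have ha' : (a : ℂ)⁻¹ ≠ 0 := inv_ne_zero (by exact_mod_cast ha.ne')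
  have hb' : (b : ℂ)⁻¹ ≠ 0 := inv_ne_zero (by exact_mod_cast hb.ne')
  have h3 := ((Homeomorph.mulLeft₀ _ ha').prodCongr
    (Homeomorph.mulLeft₀ _ hb')).measurableEmbedding.integral_map (μ := volume) g
  have h4 : ((Homeomorph.mulLeft₀ _ ha').prodCongr (Homeomorph.mulLeft₀ _ hb') : ℂ × ℂ → ℂ × ℂ) = A := by
    ext p <;> simp [A]
  rw [h4, h2, integral_smul_measure, hd, inv_inv, abs_of_nonneg (by positivity),
    ENNReal.toReal_ofReal (by positivity), Complex.real_smul] at h3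
  rw [h3]
  congr 1
  ext p
  simp [A]

theorem F2_aff (hB : Bas) (g : ℂ × ℂ → ℂ) {a b : ℝ} (ha : 0 < a) (hb : 0 < b) (w ξ η : ℂ) :
    F2 (fun p => g ((a : ℂ)⁻¹ * (p.1 + w), (b : ℂ)⁻¹ * p.2)) ξ η =
      (a ^ 2 * b ^ 2 : ℝ) * (psi (w * ξ) * F2 g (a * ξ) (b * η)) := by
  have ha' : (a : ℂ) ≠ 0 := by exact_mod_cast ha.ne'
  have hb' : (b : ℂ) ≠ 0 := by exact_mod_cast hb.ne'
  rw [F2, F2, ← integral_const_mul, ← int2 _ ha hb w]
  congr 1
  ext p
  rw [mul_left_comm, ← hB.b1.psi_add]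
  congr 2
  field_simp
  ring

theorem inner (hB : Bas) (hP : PH) (hS : SDStmt) {ν : O → O → O → ℂ} (hν : Nu ν) {c : O}
    (hc : Prim c) (d x : O) :
    ∑ r1 ∈ Rs (729 * c), ∑ r2 ∈ Rs (9 * c),
      ν c r1 r2 * Phi c r1 r2 * eQ (r1 * d) (729 * c) * eQ (r2 * x) (9 * c) =
      nuh ν c d x * (N c * Phi c (27 * d) x) := by
  have c0 := hB.b2.ne c hc
  have h3 : IsCoprime (3 : O) c := (hB.b2.cop c hc).symm
  have h9 : IsCoprime (9 : O) c := by simpa [show (3 : O) ^ 2 = 9 by norm_num] using h3.pow_left (m := 2)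
  have h729 : IsCoprime (729 : O) c := by
    simpa [show (3 : O) ^ 6 = 729 by norm_num] using h3.pow_left (m := 6)
  have n9 : (9 : O) ≠ 0 := by decide
  have n729 : (729 : O) ≠ 0 := by decide
  have e1 : ∀ (q : O), q ≠ 0 → ∀ r s y : O, eQ ((r * c + s * q) * y) (q * c) = eQ (r * y) q * eQ (s * y) c := by
    intro q hq r s y
    rw [show (r * c + s * q) * y = c * (r * y) + q * (s * y) by ring, hB.b1.eQ_add,
      hB.b1.eQ_mul q _ _ hq, mul_comm q c, hB.b1.eQ_mul c _ _ c0]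
  have e2 : ∀ (q : O) (r m y : O), eQ ((r + q * m) * y) q = eQ (r * y) q := by
    intro q r m y
    rw [add_mul, hB.b1.eQ_add, hB.b1.eQ_dvd (q * m * y) q ⟨m * y, by ring⟩, mul_one]
  rw [← hS c hc d x, nuh, FT2, hB.b4.crt 729 c _ n729 c0 h729]
  swap
  · intro a m
    refine Finset.sum_congr rfl fun r2 _ => ?_
    have a1 := hν.p2 c r2 a (c * m)
    have a2 := hP.pe_d c r2 hc a (729 * m)
    simp only at a1 a2
    rw [e2, mul_assoc 729, a1, mul_left_comm 729, a2]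
  rw [Finset.sum_mul_sum]
  refine Finset.sum_congr rfl fun ρ _ => Finset.sum_congr rfl fun s _ => ?_
  rw [hB.b4.crt 9 c _ n9 c0 h9]
  swap
  · intro a m
    have a1 := hν.p3 c (ρ * c + s * 729) a (c * m)
    have a2 := hP.pe_x c (ρ * c + s * 729) hc a (9 * m)
    simp only at a1 a2 ⊢
    rw [e2, mul_assoc 9, a1, mul_left_comm 9, a2]
  rw [Finset.sum_mul_sum]
  refine Finset.sum_congr rfl fun ξ _ => Finset.sum_congr rfl fun s2 _ => ?_
  have a1 := hν.p2 c (ξ * c + s2 * 9) (c * ρ) s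
  have a2 := hν.p3 c (c * ρ) (c * ξ) s2
  have a3 := hP.pe_d c (ξ * c + s2 * 9) hc (9 ^ 3 * s) ρ
  have a4 := hP.pe_x c (9 ^ 3 * s) hc (9 * s2) ξ
  have a5 := hP.scale c s s2 9 hc h9
  simp only at a1 a2 a3 a4
  rw [show c * ρ + 729 * s = ρ * c + s * 729 by ring] at a1
  rw [show c * ξ + 9 * s2 = ξ * c + s2 * 9 by ring] at a2
  rw [show 9 ^ 3 * s + c * ρ = ρ * c + s * 729 by ring] at a3
  rw [show 9 * s2 + c * ξ = ξ * c + s2 * 9 by ring] at a4
  rw [e1 _ n729, e1 _ n9, a1, a2, a3, a4, a5, hB.b1.eQ_add]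
  ring

theorem dec_u {u : ℂ → ℂ × ℂ → ℂ} (hu : Adm u) (C : ℂ) : Dec (u C) := by
  obtain ⟨r, R, -, h⟩ := hu.supp
  obtain ⟨K, hK⟩ := hu.dec
  have K0 : 0 ≤ K := by simpa using (norm_nonneg _).trans (hK 0 0)
  refine ⟨K * (1 + |R|) ^ (3 : ℝ), by positivity, fun p => ?_⟩
  by_cases h0 : u C p = 0
  · rw [h0, norm_zero]; positivity
  refine (hK C p).trans (mul_le_mul_of_nonneg_right ?_ (by positivity))
  have := cmp (x := ‖p.1‖) (y := 0) (M := 1 + |R|) (norm_nonneg _) le_rfl (by positivity)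
    (by linarith [(h C p h0).2.2, le_abs_self R])
  simp only [add_zero, Real.one_rpow] at this
  nlinarith

theorem dec_F {u : ℂ → ℂ × ℂ → ℂ} (hu : Adm u) (C : ℂ) : Dec fun p => F2 (u C) p.1 p.2 := by
  obtain ⟨K, hK⟩ := hu.fdec
  have K0 : 0 ≤ K := by simpa using (norm_nonneg _).trans (hK 0 0 0)
  refine ⟨K, K0, fun p => (hK C p.1 p.2).trans ?_⟩
  gcongr
  · linarith [norm_nonneg p.1]
  · norm_num
  · linarith [norm_nonneg p.2]
  · norm_num

theorem nuh_bd (hB : Bas) {ν : O → O → O → ℂ} (hν : Nu ν) (c d x : O) :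
    ‖nuh ν c d x‖ ≤ ∑ _ρ ∈ Rs 729, ∑ _ξ ∈ Rs 9, (2 : ℝ) := by
  refine norm_sum_le_of_le _ fun ρ _ => norm_sum_le_of_le _ fun ξ _ => ?_
  rw [norm_mul, norm_mul, eQ, eQ, hB.b1.norm_psi, hB.b1.norm_psi, mul_one, mul_one]
  exact hν.bd _ _ _

end LIM1Z

open LIM1Z

theorem lim1S (hB : Bas) (hP : PH) (hS : SDStmt) (hp : POP2Stmt) : LIM1Stmt := by
  intro ν z u t hν hu ht
  have t0 : 0 < t := by linarith
  have tc : (t : ℂ) ≠ 0 := by exact_mod_cast t0.ne'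
  obtain ⟨r, R, -, hR⟩ := hu.supp
  set S := (hB.b3.fin ((R * t ^ 3) ^ 2)).toFinset with hSdef
  have hout : ∀ c, c ∉ S → u (toC c / t ^ 3) = 0 := by
    intro c hc
    ext p
    by_contra h
    apply hc
    have := (hR _ p h).2.1
    rw [norm_div, norm_pow, Complex.norm_real, Real.norm_of_nonneg t0.le,
      div_le_iff₀ (by positivity)] at this
    simp only [hSdef, Set.Finite.mem_toFinset, Set.mem_ofPred_eq, hB.b1.N_eq]
    exact pow_le_pow_left₀ (norm_nonneg _) this 2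
  set A : O → O → O → ℂ := fun c d x => if Prim c then ν c d x * Phi c d x *
    u (toC c / t ^ 3) ((toC d + toC c * z) / t ^ 3, toC x / t ^ 2) else 0 with hA
  set B : O → O → O → ℂ := fun c d x => if Prim c then nuh ν c d x * Phi c (27 * d) x *
    F2 (u (toC c / t ^ 3)) (t ^ 3 * toC d / (729 * toC c)) (t ^ 2 * toC x / (9 * toC c)) *
      (t ^ 6 / N c) else 0 with hBd
  have key : ∀ c, Summable (fun a : O × O => A c a.1 a.2) ∧ Summable (fun a : O × O => B c a.1 a.2) ∧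
      ((t : ℂ) ^ 12)⁻¹ * ∑' a : O × O, A c a.1 a.2 = (kap ^ 2 * 3 ^ 16)⁻¹ *
        ∑' a : O × O, psi (z * toC a.1 / 729) * (((t : ℂ) ^ 8)⁻¹ * B c a.1 a.2) := by
    intro c
    by_cases hc : Prim c
    swap
    · simp [hA, hBd, hc, summable_zero]
    have c0 := hB.b2.ne c hc
    have cc : toC c ≠ 0 := fun h => c0 (hB.b1.inj (by rw [h, map_zero]))
    have n9 : (9 : O) ≠ 0 := by decide
    have n729 : (729 : O) ≠ 0 := by decide
    have Nc : (N c : ℂ) ≠ 0 := by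
      have := hB.b1.N_one_le c c0
      exact_mod_cast (by linarith : N c ≠ 0)
    set C : ℂ := toC c / t ^ 3 with hC
    set f : ℂ × ℂ → ℂ := fun p =>
      u C (((t ^ 3 : ℝ) : ℂ)⁻¹ * (p.1 + toC c * z), ((t ^ 2 : ℝ) : ℂ)⁻¹ * p.2) with hf
    have t3 : ((t ^ 3 : ℝ) : ℂ) ≠ 0 := by exact_mod_cast (by positivity : t ^ 3 ≠ 0)
    have t2 : ((t ^ 2 : ℝ) : ℂ) ≠ 0 := by exact_mod_cast (by positivity : t ^ 2 ≠ 0)
    have d1 : Dec f := (dec_u hu C).aff (inv_ne_zero t3) (inv_ne_zero t2) _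
    have eF : ∀ ξ η, F2 f ξ η = ((t ^ 3) ^ 2 * (t ^ 2) ^ 2 : ℝ) *
        (psi (toC c * z * ξ) * F2 (u C) ((t ^ 3 : ℝ) * ξ) ((t ^ 2 : ℝ) * η)) :=
      fun ξ η => F2_aff hB (u C) (by positivity) (by positivity) _ ξ η
    have d2 : Dec fun p => F2 f p.1 p.2 := by
      refine ((dec_F hu C).aff t3 t2 0).bdd (M := (t ^ 3) ^ 2 * (t ^ 2) ^ 2) (by positivity)
        fun p => ?_
      rw [eF, norm_mul, norm_mul, hB.b1.norm_psi, one_mul, Complex.norm_real,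
        Real.norm_of_nonneg (by positivity), add_zero]
    have eA : ∀ a : O × O, A c a.1 a.2 = ν c a.1 a.2 * Phi c a.1 a.2 * f (toC a.1, toC a.2) := by
      intro a
      simp only [hA, hf, if_pos hc]
      congr 3 <;> push_cast <;> ring
    have eB : ∀ a : O × O, B c a.1 a.2 = (nuh ν c a.1 a.2 * Phi c (27 * a.1) a.2 * (t ^ 6 / N c)) *
        (fun p : ℂ × ℂ => F2 (u C) (t ^ 3 / (729 * toC c) * (p.1 + 0), t ^ 2 / (9 * toC c) * p.2).1
          (t ^ 3 / (729 * toC c) * (p.1 + 0), t ^ 2 / (9 * toC c) * p.2).2) (toC a.1, toC a.2) := by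
      intro a
      simp only [hBd, if_pos hc, add_zero]
      rw [mul_right_comm]
      congr 2 <;> ring
    refine ⟨?_, ?_, ?_⟩
    · simp only [eA]
      refine d1.summ hB (M := 2 * N c ^ (2 / 3 : ℝ)) fun a => ?_
      rw [norm_mul]
      exact mul_le_mul (hν.bd _ _ _) (hP.norm_c _ _ _ hc) (norm_nonneg _) zero_le_two
    · simp only [eB]
      refine ((dec_F hu C).aff (a := t ^ 3 / (729 * toC c)) (b := t ^ 2 / (9 * toC c))
        (by simp [tc, cc]) (by simp [tc, cc]) 0).summ hB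
        (M := (∑ _ρ ∈ Rs 729, ∑ _ξ ∈ Rs 9, (2 : ℝ)) * N c ^ (2 / 3 : ℝ) * ‖(t : ℂ) ^ 6 / N c‖)
        fun a => ?_
      rw [norm_mul, norm_mul]
      have := nuh_bd hB hν c a.1 a.2
      have := hP.norm_c c (27 * a.1) a.2 hc
      gcongr
    obtain ⟨K1, k1, h1⟩ := d1
    obtain ⟨K2, k2, h2⟩ := d2
    have := hp f (K1 + K2) (fun d x => ν c d x * Phi c d x) (729 * c) (9 * c)
      (mul_ne_zero n729 c0) (mul_ne_zero n9 c0)
      (fun x a m => by
        have a1 := hν.p2 c x a (c * m)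
        have a2 := hP.pe_d c x hc a (729 * m)
        simp only at a1 a2 ⊢
        rw [mul_assoc 729, a1, mul_left_comm 729, a2])
      (fun d a m => by
        have a1 := hν.p3 c d a (c * m)
        have a2 := hP.pe_x c d hc a (9 * m)
        simp only at a1 a2 ⊢
        rw [mul_assoc 9, a1, mul_left_comm 9, a2])
      ((hu.cont C).comp (by fun_prop))
      (fun p => (h1 p).trans (by gcongr; linarith))
      (fun ξ η => (h2 (ξ, η)).trans (by gcongr; linarith))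
    simp only [eA]
    rw [this, ← tsum_mul_left, ← tsum_mul_left, ← tsum_mul_left]
    refine tsum_congr fun a => ?_
    have N729 : N 729 = 3 ^ 12 := by
      have := hB.b1.N_int 729
      norm_num at this ⊢
      exact this
    have N9 : N 9 = 3 ^ 4 := by
      have := hB.b1.N_int 9
      norm_num at this ⊢
      exact this
    have k0 : kap ≠ 0 := by
      unfold kap
      have : Real.sqrt 3 ≠ 0 := by positivity
      exact div_ne_zero (by exact_mod_cast this) two_ne_zero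
    rw [inner hB hP hS hν hc, eF, hB.b1.N_mul, hB.b1.N_mul, N729, N9]
    simp only [hBd, if_pos hc, map_mul, map_ofNat]
    rw [show toC c * z * (toC a.1 / (729 * toC c)) = z * toC a.1 / 729 by field_simp,
      show ((t ^ 3 : ℝ) : ℂ) * (toC a.1 / (729 * toC c)) = t ^ 3 * toC a.1 / (729 * toC c) by
        push_cast; ring,
      show ((t ^ 2 : ℝ) : ℂ) * (toC a.2 / (9 * toC c)) = t ^ 2 * toC a.2 / (9 * toC c) by
        push_cast; ring]
    push_cast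
    rw [← hC]
    field_simp
  have A0 : ∀ c, c ∉ S → ∀ d x, A c d x = 0 := fun c hc d x => by simp [hA, hout c hc]
  have B0 : ∀ c, c ∉ S → ∀ d x, B c d x = 0 := fun c hc d x => by simp [hBd, hout c hc, F2]
  have L : Lsum ν z u t = ∑ c ∈ S, ∑' a : O × O, A c a.1 a.2 := by
    have := fin_tsum (fun c d => ∑' x, A c d x) S (fun c hc d => by simp [A0 c hc])
      (fun c _ => (key c).1.prod)
    refine this.trans (Finset.sum_congr rfl fun c _ => ?_)
    exact ((key c).1.tsum_prod).symm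
  have hs : ∀ c, Summable fun a : O × O => psi (z * toC a.1 / 729) * (((t : ℂ) ^ 8)⁻¹ * B c a.1 a.2) :=
    fun c => by
      refine Summable.of_norm ?_
      simp only [norm_mul, hB.b1.norm_psi, one_mul]
      exact (key c).2.1.norm.mul_left _
  have Rr : ∑' d : O, psi (z * toC d / 729) * Sd ν u t d =
      ∑ c ∈ S, ∑' a : O × O, psi (z * toC a.1 / 729) * (((t : ℂ) ^ 8)⁻¹ * B c a.1 a.2) := by
    have e : ∀ d, psi (z * toC d / 729) * Sd ν u t d =
        ∑ c ∈ S, ∑' x, psi (z * toC d / 729) * (((t : ℂ) ^ 8)⁻¹ * B c d x) := fun d => by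
      have := fin_tsum (fun c x => B c d x) S (fun c hc x => B0 c hc d x)
        (fun c _ => (key c).2.1.prod_factor d)
      have e0 : Sd ν u t d = ((t : ℂ) ^ 8)⁻¹ * ∑' a : O × O, B a.1 d a.2 := rfl
      rw [e0, this, Finset.mul_sum, Finset.mul_sum]
      simp only [tsum_mul_left]
    simp only [e]
    rw [Summable.tsum_finsetSum fun c _ => (hs c).prod]
    exact Finset.sum_congr rfl fun c _ => ((hs c).tsum_prod).symm
  rw [L, Rr, Finset.mul_sum, Finset.mul_sum]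
  exact Finset.sum_congr rfl fun c _ => (key c).2.2

end Vale.Agent.P026.J0
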