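import Vale.Agent.P006.T0a

/-! P026: the Riemann sum limit of the dual terms. -/

noncomputable section
open Complex MeasureTheory Filter Topology
open scoped Classical ComplexConjugate

namespace Vale.Agent.P026.J0

namespace LIM2Z

/-- integrand of `Ker` -/
def Gk (u : ℂ → ℂ × ℂ → ℂ) (d : ℂ) (p : ℂ × ℂ) : ℂ :=
  F2 (u p.1) (d / (729 * p.1)) (p.2 / (9 * p.1)) * psi (p.2 ^ 3 / (27 * p.1 * d)) / (‖p.1‖ : ℂ) ^ 2

theorem F2_zero {f : ℂ × ℂ → ℂ} (h : ∀ p, f p = 0) (ξ η : ℂ) : F2 f ξ η = 0 := by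
  simp [F2, h]

theorem Gk_zero {u : ℂ → ℂ × ℂ → ℂ} {r R : ℝ}
    (h : ∀ C p, u C p ≠ 0 → r ≤ ‖C‖ ∧ ‖C‖ ≤ R ∧ ‖p.1‖ ≤ R) (d : ℂ) {p : ℂ × ℂ}
    (hp : ¬ (r ≤ ‖p.1‖ ∧ ‖p.1‖ ≤ R)) : Gk u d p = 0 := by
  rw [Gk, F2_zero fun q => by_contra fun c => hp ⟨(h _ q c).1, (h _ q c).2.1⟩]
  simp

theorem Gk_cont (hB : Bas) {u : ℂ → ℂ × ℂ → ℂ} (hu : Adm u) {d : ℂ} (hd : d ≠ 0) :
    Continuous (Gk u d) := by
  obtain ⟨r, R, hr, h⟩ := hu.supp
  refine continuous_iff_continuousAt.2 fun p => ?_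
  by_cases c : p.1 = 0
  · refine (continuousAt_const (y := (0 : ℂ))).congr ?_
    have : ∀ᶠ q : ℂ × ℂ in 𝓝 p, ‖q.1‖ < r :=
      (continuous_fst.norm.tendsto p).eventually_lt_const (by simpa [c] using hr)
    exact this.mono fun q hq => (Gk_zero h d fun a => absurd a.1 (not_le.2 hq)).symm
  · have a1 : ContinuousAt (fun q : ℂ × ℂ => ((q.1, d / (729 * q.1), q.2 / (9 * q.1)) : ℂ × ℂ × ℂ)) p :=
      continuousAt_fst.prodMk ((continuousAt_const.div (by fun_prop) (by simpa using c)).prodMk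
        (continuousAt_snd.div (by fun_prop) (by simpa using c)))
    have a2 := hu.fcont.continuousAt.comp a1
    have a3 : ContinuousAt (fun q : ℂ × ℂ => q.2 ^ 3 / (27 * q.1 * d)) p :=
      ContinuousAt.div (by fun_prop) (by fun_prop) (by simp [c, hd])
    have a4 := hB.b1.cont_psi.continuousAt.comp a3
    exact (a2.mul a4).div (by fun_prop) (by simpa using c)

theorem rp_le {a b M : ℝ} (ha : 0 ≤ a) (hb : 0 ≤ b) (hM : 0 < M) (h : 1 + b ≤ M * (1 + a)) (n : ℕ) :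
    (1 + a) ^ (-n : ℝ) ≤ M ^ n * (1 + b) ^ (-n : ℝ) := by
  rw [Real.rpow_neg (by positivity), Real.rpow_neg (by positivity), Real.rpow_natCast,
    Real.rpow_natCast, ← div_eq_mul_inv, inv_eq_one_div, div_le_div_iff₀ (by positivity) (by positivity),
    one_mul, ← mul_pow]
  exact pow_le_pow_left₀ (by positivity) h n

theorem div_le {C Y : ℂ} {R : ℝ} (k : ℝ) (hk : 0 < k) (hC : C ≠ 0) (h : ‖C‖ ≤ R) :
    1 + ‖Y‖ ≤ (1 + k * R) * (1 + ‖Y / (k * C)‖) := by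
  have a1 : 0 < ‖C‖ := norm_pos_iff.2 hC
  have a2 : ‖Y‖ = k * ‖C‖ * ‖Y / (k * C)‖ := by
    rw [norm_div, norm_mul, norm_real, Real.norm_of_nonneg hk.le]; field_simp
  have a3 := norm_nonneg (Y / (k * C))
  have a4 : k * ‖C‖ ≤ k * R := by gcongr
  have a5 : 0 < k * ‖C‖ := by positivity
  nlinarith [mul_le_mul_of_nonneg_right a4 a3]

theorem Gk_bd (hB : Bas) {u : ℂ → ℂ × ℂ → ℂ} (hu : Adm u) (d : ℂ) : ∃ K : ℝ, ∀ p : ℂ × ℂ,
    ‖Gk u d p‖ ≤ K * (1 + ‖p.1‖) ^ (-3 : ℝ) * (1 + ‖p.2‖) ^ (-3 : ℝ) := by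
  obtain ⟨r, R, hr, h⟩ := hu.supp
  obtain ⟨K, hK⟩ := hu.fdec
  refine ⟨|K| * (1 + 9 * |R|) ^ 3 * (1 + |R|) ^ 3 / r ^ 2, fun p => ?_⟩
  by_cases c : r ≤ ‖p.1‖ ∧ ‖p.1‖ ≤ R
  swap
  · rw [Gk_zero h d c, norm_zero]
    positivity
  have hC : p.1 ≠ 0 := norm_pos_iff.1 (hr.trans_le c.1)
  have hR : 0 < R := hr.trans_le (c.1.trans c.2)
  rw [abs_of_pos hR]
  have a1 := rp_le (norm_nonneg _) (norm_nonneg p.2) (by positivity)
    (div_le (Y := p.2) 9 (by norm_num) hC c.2) 3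
  have a2 := rp_le (a := 0) le_rfl (norm_nonneg p.1) (show 0 < 1 + R by positivity)
    (by linarith [c.2]) 3
  have a3 : (1 + ‖d / (729 * p.1)‖) ^ (-6 : ℝ) ≤ 1 :=
    Real.rpow_le_one_of_one_le_of_nonpos (by linarith [norm_nonneg (d / (729 * p.1))]) (by norm_num)
  have a4 : (1 + ‖p.2 / (9 * p.1)‖) ^ (-8 : ℝ) ≤ (1 + ‖p.2 / (9 * p.1)‖) ^ (-3 : ℝ) :=
    Real.rpow_le_rpow_of_exponent_le (by linarith [norm_nonneg (p.2 / (9 * p.1))]) (by norm_num)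
  simp only [add_zero, Real.one_rpow, Nat.cast_ofNat, ofReal_ofNat] at a1 a2
  rw [Gk, norm_div, norm_mul, hB.b1.norm_psi, mul_one, norm_pow, norm_real, norm_norm]
  calc _ ≤ |K| * 1 * ((1 + 9 * R) ^ 3 * (1 + ‖p.2‖) ^ (-3 : ℝ)) / r ^ 2 := by
        refine div_le_div₀ (by positivity) ((hK _ _ _).trans ?_) (by positivity) (by gcongr; exact c.1)
        gcongr
        · exact le_abs_self K
        · exact a4.trans a1
    _ ≤ |K| * ((1 + R) ^ 3 * (1 + ‖p.1‖) ^ (-3 : ℝ)) * ((1 + 9 * R) ^ 3 * (1 + ‖p.2‖) ^ (-3 : ℝ)) /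
          r ^ 2 := by gcongr
    _ = _ := by ring

theorem nuh_c {ν : O → O → O → ℂ} (h : Nu ν) (c d x m : O) :
    nuh ν (c + 729 * m) d x = nuh ν c d x := by
  unfold nuh
  refine Finset.sum_congr rfl fun ρ _ => Finset.sum_congr rfl fun ξ _ => ?_
  have e1 := h.p1 ((c + 729 * m) * ρ) ((c + 729 * m) * ξ) c m
  have e2 := h.p2 c ((c + 729 * m) * ξ) (c * ρ) (m * ρ)
  have e3 := h.p3 c (c * ρ) (c * ξ) (81 * m * ξ)
  dsimp only at e1 e2 e3
  rw [e1, show (c + 729 * m) * ρ = c * ρ + 729 * (m * ρ) by ring, e2,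
    show (c + 729 * m) * ξ = c * ξ + 9 * (81 * m * ξ) by ring, e3]

theorem nuh_x (hB : Bas) (ν : O → O → O → ℂ) (c d x m : O) :
    nuh ν c d (x + 9 * m) = nuh ν c d x := by
  unfold nuh
  refine Finset.sum_congr rfl fun ρ _ => Finset.sum_congr rfl fun ξ _ => ?_
  rw [mul_add, hB.b1.eQ_add, hB.b1.eQ_dvd (ξ * (9 * m)) 9 ⟨ξ * m, by ring⟩, mul_one]

theorem prim_add (c m : O) : Prim (c + 3 * m) ↔ Prim c := by
  unfold Prim
  rw [show c + 3 * m - 1 = c - 1 + 3 * m by ring]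
  exact (dvd_add_left (dvd_mul_right 3 m))

theorem toC_ne (hB : Bas) {a : O} (h : a ≠ 0) : toC a ≠ 0 := fun c =>
  h (hB.b1.inj (c.trans (map_zero toC).symm))

end LIM2Z

open LIM2Z in
theorem lim2S (hB : Bas) (_hP : PH) (hE : PERStmt) (hR : RSStmt) : LIM2Stmt := by
  intro ν u d hν hu hd
  have h3 : (3 : O) ≠ 0 := fun c => by
    have := hB.b1.lam_sq
    rw [c, neg_zero] at this
    exact hB.b1.prime_lam.ne_zero (pow_eq_zero_iff two_ne_zero |>.1 this)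
  have h27 : 27 * d ≠ 0 := mul_ne_zero (by rw [show (27 : O) = 3 ^ 3 by norm_num]; positivity) hd
  have hM : 729 * d ≠ 0 := mul_ne_zero (by rw [show (729 : O) = 3 ^ 6 by norm_num]; positivity) hd
  have hd' := toC_ne hB hd
  obtain ⟨K, hK⟩ := Gk_bd hB hu (toC d)
  have := hR (fun c x => if Prim c then nuh ν c d x * Per (27 * d) c x else 0) (729 * d)
    (Gk u (toC d)) K hM (fun x c m => ?_) (fun c x m => ?_) (Gk_cont hB hu hd') hK
  · have e : (kap ^ 2)⁻¹ * Av ν d * Ker u (toC d) = (kap ^ 2 * N (729 * d) ^ 2)⁻¹ *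
        (∑ c ∈ Rs (729 * d), ∑ x ∈ Rs (729 * d),
          if Prim c then nuh ν c d x * Per (27 * d) c x else 0) * ∫ p, Gk u (toC d) p := by
      rw [Av, mul_inv, mul_assoc (kap ^ 2)⁻¹ ((N (729 * d) : ℂ) ^ 2)⁻¹]
      rfl
    rw [e]
    refine this.congr' ((eventually_gt_atTop 0).mono fun t ht => ?_)
    unfold Sd
    refine congrArg _ (tsum_congr fun a => ?_)
    split_ifs with c
    swap
    · simp
    have ht' : (t : ℂ) ≠ 0 := by exact_mod_cast ht.ne'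
    have ha := toC_ne hB (hB.b2.ne _ c)
    have e1 : Per (27 * d) a.1 a.2 * psi ((toC a.2 / t) ^ 3 / (27 * (toC a.1 / t ^ 3) * toC d)) =
        Phi a.1 (27 * d) a.2 := by
      rw [Per, eQ, mul_assoc, ← hB.b1.psi_add]
      have : toC (-a.2 ^ 3) / toC (a.1 * (27 * d)) +
          (toC a.2 / t) ^ 3 / (27 * (toC a.1 / t ^ 3) * toC d) = 0 := by
        simp only [map_neg, map_pow, map_mul, map_ofNat]
        field_simp
        ring
      rw [this, hB.b1.psi_zero, mul_one]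
    have e2 : toC d / (729 * (toC a.1 / t ^ 3)) = t ^ 3 * toC d / (729 * toC a.1) := by field_simp
    have e3 : toC a.2 / t / (9 * (toC a.1 / t ^ 3)) = t ^ 2 * toC a.2 / (9 * toC a.1) := by
      field_simp
    have e4 : ((‖toC a.1 / t ^ 3‖ : ℝ) : ℂ) ^ 2 = N a.1 / t ^ 6 := by
      rw [hB.b1.N_eq, norm_div, norm_pow, norm_real, Real.norm_of_nonneg ht.le]
      push_cast
      ring
    simp only [Gk]
    rw [e2, e3, e4, ← e1, div_div_eq_mul_div]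
    ring
  · dsimp only
    have e : c + 729 * d * m = c + 3 * (243 * d * m) := by ring
    by_cases c1 : Prim c
    · have c2 : Prim (c + 729 * d * m) := by rw [e, prim_add]; exact c1
      rw [if_pos c1, if_pos c2, hE.1 (27 * d) _ c x x h27 c2 c1 ⟨3 * m, by ring⟩ (by simp),
        mul_assoc 729 d m, nuh_c hν]
    · rw [if_neg c1, if_neg (by rw [e, prim_add]; exact c1)]
  · dsimp only
    split_ifs with c1
    · rw [hE.1 (27 * d) c c _ x h27 c1 c1 (by simp) ⟨27 * m, by ring⟩,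
        show 729 * d * m = 9 * (81 * d * m) by ring, nuh_x hB]
    · rfl

end Vale.Agent.P026.J0
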