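import Vale.Agent.P006.T0d

/-! P006: the zero frequency. -/

noncomputable section
open Complex MeasureTheory Filter Topology
open scoped Classical ComplexConjugate

namespace Vale.Agent.P026.J0

namespace LIM3Z

open LIM4Z

def tm (ν : O → O → O → ℂ) (Fh : ℂ → ℂ → ℂ → ℂ) (t : ℝ) (d : O) (a : O × O) : ℂ :=
  if Prim a.1 then nuh ν a.1 d a.2 * Phi a.1 (27 * d) a.2 *
    Fh (toC a.1 / t ^ 3) (t ^ 3 * toC d / (729 * toC a.1)) (t ^ 2 * toC a.2 / (9 * toC a.1)) *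
      (t ^ 6 / N a.1) else 0

theorem core2 (hB : Bas) {ν : O → O → O → ℂ} (hν : Nu ν) {Fh : ℂ → ℂ → ℂ → ℂ} {r R : ℝ} (r0 : 0 < r)
    (R1 : 1 ≤ R) (h : ∀ C ξ η, Fh C ξ η ≠ 0 → r ≤ ‖C‖ ∧ ‖C‖ ≤ R) :
    ∃ K : ℝ, ∀ t : ℝ, 1 ≤ t → ∀ (d : O) (A : ℝ), 0 ≤ A → (∀ c x, Prim c → r * t ^ 3 ≤ ‖toC c‖ →
      ‖toC c‖ ≤ R * t ^ 3 → ‖Phi c (27 * d) x‖ * ‖Fh (toC c / t ^ 3)
        (t ^ 3 * toC d / (729 * toC c)) (t ^ 2 * toC x / (9 * toC c))‖ ≤
        A * (1 + ‖toC x‖ / (9 * R * t)) ^ (-3 : ℝ)) →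
      Summable (tm ν Fh t d) ∧ ‖((t : ℂ) ^ 8)⁻¹ * ∑' a, tm ν Fh t d a‖ ≤ K * A := by
  obtain ⟨C, hC⟩ := hB.b3.scale 3 (by norm_num)
  set B : ℝ := (Rs 729).card * ((Rs 9).card * 2) with hBe
  have B0 : 0 ≤ B := by positivity
  refine ⟨16 * R ^ 2 * (B / r ^ 2) * (C * (9 * R) ^ 2), fun t t1 d A A0 H => ?_⟩
  have t0 : 0 < t := by positivity
  have T1 : 1 ≤ 9 * R * t := by nlinarith
  set S := (hB.b3.fin (R ^ 2 * t ^ 6)).toFinset.filter (· ≠ 0) with hS
  have hc := hB.b3.card_le (R ^ 2 * t ^ 6) S (by positivity) fun a ha => by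
    simpa [hS, and_comm] using ha
  have s1 : HasSum (fun c : O => if c ∈ S then B / r ^ 2 * A else 0) (S.card * (B / r ^ 2 * A)) := by
    have := hasSum_sum_of_ne_finset_zero (L := SummationFilter.unconditional O)
      (f := fun c : O => if c ∈ S then B / r ^ 2 * A else 0) (s := S) fun c e => if_neg e
    simpa using this
  have s2 := (summ hB T1).hasSum
  have s3 := s1.mul s2 (s1.summable.mul_of_nonneg s2.summable
    (fun c => by dsimp; split_ifs <;> positivity) fun a => by positivity)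
  have bd : ∀ a : O × O, ‖tm ν Fh t d a‖ ≤ (if a.1 ∈ S then B / r ^ 2 * A else 0) *
      (1 + ‖toC a.2‖ / (9 * R * t)) ^ (-3 : ℝ) := fun ⟨c, x⟩ => by
    unfold tm
    have z : 0 ≤ (if c ∈ S then B / r ^ 2 * A else 0) * (1 + ‖toC x‖ / (9 * R * t)) ^ (-3 : ℝ) := by
      split_ifs <;> positivity
    by_cases pc : Prim c
    swap
    · simpa [pc] using z
    by_cases e : Fh (toC c / t ^ 3) (t ^ 3 * toC d / (729 * toC c))
      (t ^ 2 * toC x / (9 * toC c)) = 0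
    · simpa [e] using z
    obtain ⟨e1, e2⟩ := h _ _ _ e
    rw [norm_div, norm_pow, norm_real, Real.norm_of_nonneg t0.le] at e1 e2
    rw [le_div_iff₀ (by positivity)] at e1
    rw [div_le_iff₀ (by positivity)] at e2
    have m : c ∈ S := by
      simp only [hS, Finset.mem_filter, Set.Finite.mem_toFinset, Set.mem_ofPred_eq]
      refine ⟨?_, hB.b2.ne c pc⟩
      rw [hB.b1.N_eq, show R ^ 2 * t ^ 6 = (R * t ^ 3) ^ 2 by ring]
      gcongr
    have e3 : ‖((t : ℂ) ^ 6 / N c)‖ ≤ 1 / r ^ 2 := by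
      rw [norm_div, norm_pow, norm_real, norm_real, Real.norm_of_nonneg t0.le, hB.b1.N_eq,
        Real.norm_of_nonneg (by positivity), div_le_div_iff₀ (pow_pos (lt_of_lt_of_le
          (by positivity) e1) 2) (by positivity), one_mul,
        show t ^ 6 * r ^ 2 = (r * t ^ 3) ^ 2 by ring]
      gcongr
    simp only [pc, m, if_true, norm_mul, mul_assoc (‖nuh ν c d x‖)]
    calc _ ≤ B * (A * (1 + ‖toC x‖ / (9 * R * t)) ^ (-3 : ℝ) * (1 / r ^ 2)) := by
          exact mul_le_mul (nuh_le hB hν _ _ _) (mul_le_mul (H c x pc e1 e2) e3 (norm_nonneg _)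
            (by positivity)) (by positivity) B0
      _ = _ := by ring
  have := tsum_of_norm_bounded s3 bd
  refine ⟨Summable.of_norm_bounded s3.summable bd, ?_⟩
  rw [norm_mul, norm_inv, norm_pow, norm_real, Real.norm_of_nonneg t0.le,
    inv_mul_le_iff₀ (by positivity)]
  refine this.trans ?_
  calc _ ≤ 16 * (R ^ 2 * t ^ 6) * (B / r ^ 2 * A) * (C * (9 * R * t) ^ 2) := by
        gcongr
        exact hC _ T1
    _ = _ := by ring

theorem far (hB : Bas) (hP : PH) {ν : O → O → O → ℂ} (hν : Nu ν) {Fh : ℂ → ℂ → ℂ → ℂ} {r R K : ℝ}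
    (r0 : 0 < r) (r1 : r ≤ 1) (R1 : 1 ≤ R) (K0 : 0 ≤ K)
    (h : ∀ C ξ η, Fh C ξ η ≠ 0 → r ≤ ‖C‖ ∧ ‖C‖ ≤ R)
    (hK : ∀ C ξ η, ‖Fh C ξ η‖ ≤ K * (1 + ‖ξ‖) ^ (-6 : ℝ) * (1 + ‖η‖) ^ (-8 : ℝ))
    (hz : ∀ C, Fh C 0 0 = 0) : (∀ t : ℝ, 1 ≤ t → Summable (tm ν Fh t 0)) ∧
    Tendsto (fun t : ℝ => ((t : ℂ) ^ 8)⁻¹ * ∑' a, tm ν Fh t 0 a) atTop (𝓝 0) := by
  obtain ⟨K1, H⟩ := core2 hB hν r0 R1 h
  suffices key : ∀ t : ℝ, 1 ≤ t → Summable (tm ν Fh t 0) ∧
      ‖((t : ℂ) ^ 8)⁻¹ * ∑' a, tm ν Fh t 0 a‖ ≤ K1 * (R ^ 2 * K * (9 * R / r) ^ 5 * t⁻¹) by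
    refine ⟨fun t ht => (key t ht).1, ?_⟩
    refine squeeze_zero_norm' (a := fun t => K1 * (R ^ 2 * K * (9 * R / r) ^ 5 * t⁻¹)) ?_ (by
      simpa using (tendsto_inv_atTop_zero.const_mul (R ^ 2 * K * (9 * R / r) ^ 5)).const_mul K1)
    filter_upwards [eventually_ge_atTop 1] with t t1 using (key t t1).2
  intro t t1
  have t0 : 0 < t := by positivity
  refine H t t1 0 _ (by positivity) fun c x pc e1 e2 => ?_
  have c0 : 0 < ‖toC c‖ := lt_of_lt_of_le (by positivity) e1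
  rw [mul_zero]
  by_cases hx : c ^ 2 ∣ x ^ 3
  swap
  · rw [hP.d0 c x pc hx, norm_zero, zero_mul]; positivity
  by_cases x0 : x = 0
  · simp only [x0, map_zero, mul_zero, zero_div, hz, norm_zero]; positivity
  obtain ⟨y, hy⟩ := hx
  have y0 : y ≠ 0 := by rintro rfl; exact x0 (by simpa using hy)
  have a0 : r * t ^ 2 ≤ ‖toC x‖ := by
    have b1 := congrArg N hy
    have b2 := hB.b1.N_one_le y y0
    rw [hB.b1.N_mul, hB.b1.N_pow, hB.b1.N_pow, hB.b1.N_eq x, hB.b1.N_eq c] at b1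
    refine le_of_pow_le_pow_left₀ (n := 6) (by norm_num) (norm_nonneg _) ?_
    calc _ = r ^ 2 * (r * t ^ 3) ^ 4 * 1 := by ring
      _ ≤ 1 ^ 2 * ‖toC c‖ ^ 4 * N y := by gcongr
      _ = _ := by linear_combination -b1
  have a1 : ‖Phi c 0 x‖ ≤ R ^ 2 * t ^ 4 := by
    refine (hP.norm_c c _ x pc).trans ?_
    have : N c ≤ (R * t ^ 2) ^ 3 := by
      rw [hB.b1.N_eq]
      calc _ ≤ 1 * (R * t ^ 3) ^ 2 := by rw [one_mul]; gcongr
        _ ≤ R * (R * t ^ 3) ^ 2 := by gcongr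
        _ = _ := by ring
    refine (Real.rpow_le_rpow (by rw [hB.b1.N_eq]; positivity) this (by norm_num)).trans_eq ?_
    rw [← Real.rpow_natCast, ← Real.rpow_mul (by positivity)]
    norm_num
    ring
  have a2 := eta t0 c0 e2 (toC x)
  have a3 : (1 + ‖(t : ℂ) ^ 2 * toC x / (9 * toC c)‖) ^ (-8 : ℝ) ≤
      (9 * R / r) ^ 5 * (t ^ 5)⁻¹ * (1 + ‖toC x‖ / (9 * R * t)) ^ (-3 : ℝ) := by
    rw [show (-8 : ℝ) = -5 + -3 by norm_num, Real.rpow_add (by positivity)]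
    refine mul_le_mul ?_ (Real.rpow_le_rpow_of_nonpos (by positivity) (by linarith) (by norm_num))
      (by positivity) (by positivity)
    have : r * t / (9 * R) ≤ ‖toC x‖ / (9 * R * t) := by
      calc _ = r * t ^ 2 / (9 * R * t) := by field_simp
        _ ≤ _ := by gcongr
    refine (Real.rpow_le_rpow_of_nonpos (x := r * t / (9 * R)) (by positivity) (by linarith)
      (by norm_num)).trans_eq ?_
    rw [Real.rpow_neg (by positivity), Real.rpow_ofNat]
    field_simp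
  have a4 := hK (toC c / t ^ 3) 0 ((t : ℂ) ^ 2 * toC x / (9 * toC c))
  simp only [norm_zero, add_zero, Real.one_rpow, mul_one] at a4
  rw [map_zero, mul_zero, zero_div]
  calc _ ≤ R ^ 2 * t ^ 4 * (K * ((9 * R / r) ^ 5 * (t ^ 5)⁻¹ *
        (1 + ‖toC x‖ / (9 * R * t)) ^ (-3 : ℝ))) :=
        mul_le_mul a1 (a4.trans (by gcongr)) (norm_nonneg _) (by positivity)
    _ = _ := by field_simp

end LIM3Z

open LIM4Z LIM3Z in
theorem lim3S (hB : Bas) (hP : PH) : LIM3Stmt := by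
  intro ν u hν hu
  obtain ⟨r, R, K, r0, r1, R1, K0, h, hK⟩ := adm hu
  obtain ⟨s1, l1⟩ := far hB hP hν (Fh := fun C ξ η => if η = 0 then 0 else F2 (u C) ξ η) r0 r1 R1 K0
    (fun C ξ η e => h C ξ η fun e' => e (by simp [e']))
    (fun C ξ η => by
      split_ifs
      · rw [norm_zero]; positivity
      · exact hK C ξ η) (fun C => by simp)
  refine l1.congr' ?_
  filter_upwards [eventually_ge_atTop 1] with t t1
  have t0 : 0 < t := by positivity
  have tc : (t : ℂ) ≠ 0 := by exact_mod_cast t0.ne'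
  set g : O → ℂ := fun c => if Prim c then nuh ν c 0 0 * Phi c 0 0 * F2 (u (toC c / t ^ 3)) 0 0 *
    (t ^ 6 / N c) else 0 with hg
  have sg : Summable g := by
    refine summable_of_finite_support ((hB.b3.fin (R ^ 2 * t ^ 6)).subset fun c hc => ?_)
    have e : F2 (u (toC c / t ^ 3)) 0 0 ≠ 0 := fun e => hc (by simp [hg, e])
    have e2 := (h _ _ _ e).2
    rw [norm_div, norm_pow, norm_real, Real.norm_of_nonneg t0.le, div_le_iff₀ (by positivity)] at e2
    simp only [Set.mem_setOf_eq]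
    rw [hB.b1.N_eq, show R ^ 2 * t ^ 6 = (R * t ^ 3) ^ 2 by ring]
    gcongr
  have inj : Function.Injective fun c : O => ((c, 0) : O × O) := fun a b e => (Prod.ext_iff.1 e).1
  have hs : HasSum (fun a : O × O => if a.2 = 0 then g a.1 else 0) (∑' c, g c) := by
    refine (inj.hasSum_iff ?_).1 (by simpa [Function.comp_def] using sg.hasSum)
    rintro ⟨c, x⟩ hx
    exact if_neg fun e => hx ⟨c, by simp at e; simp [e]⟩
  have e : ∀ a : O × O, tm ν (fun C => F2 (u C)) t 0 a =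
      tm ν (fun C ξ η => if η = 0 then 0 else F2 (u C) ξ η) t 0 a +
        if a.2 = 0 then g a.1 else 0 := by
    rintro ⟨c, x⟩
    unfold tm
    by_cases pc : Prim c
    · have c0 : toC c ≠ 0 := fun h0 => hB.b2.ne c pc (hB.b1.inj (by rw [h0, map_zero]))
      by_cases x0 : x = 0
      · simp [x0, hg, pc]
      · have : toC x ≠ 0 := fun h0 => x0 (hB.b1.inj (by rw [h0, map_zero]))
        simp [x0, pc, this, c0, tc]
    · simp [pc, hg]
  have e2 : Sd ν u t 0 = ((t : ℂ) ^ 8)⁻¹ * ∑' a, tm ν (fun C => F2 (u C)) t 0 a := rfl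
  rw [e2, funext e, (s1 t t1).tsum_add hs.summable, hs.tsum_eq, S00]
  ring

theorem limS (hB : Bas) (h1 : LIM1Stmt) (h2 : LIM2Stmt) (h3 : LIM3Stmt) (h4 : LIM4Stmt) :
    LIMStmt := by
  intro ν z u hν hu
  obtain ⟨K, hK⟩ := h4 ν u hν hu
  have h0 := h3 ν u hν hu
  have sm := (hB.b3.summ' 4 (by norm_num)).mul_left |K|
  have bd : ∀ t : ℝ, 1 ≤ t → ∀ d : O, ‖(if d = 0 then 0 else psi (z * toC d / 729) * Sd ν u t d)‖ ≤
      |K| * (1 + ‖toC d‖) ^ (-4 : ℝ) := fun t b d => by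
    by_cases hd : d = 0
    · rw [if_pos hd, norm_zero]; positivity
    · rw [if_neg hd, norm_mul, hB.b1.norm_psi, one_mul]
      exact (hK t b d hd).trans (mul_le_mul_of_nonneg_right (le_abs_self K) (by positivity))
  have key := tendsto_tsum_of_dominated_convergence (𝓕 := atTop)
    (f := fun (t : ℝ) (d : O) => if d = 0 then 0 else psi (z * toC d / 729) * Sd ν u t d)
    (g := fun d => (kap ^ 2)⁻¹ *
      if d = 0 then 0 else psi (z * toC d / 729) * Av ν d * Ker u (toC d)) sm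
    (fun d => by
      by_cases hd : d = 0
      · simp [hd]
      · simp only [if_neg hd]
        convert (h2 ν u d hν hu hd).const_mul (psi (z * toC d / 729)) using 2
        ring)
    (by
      filter_upwards [eventually_ge_atTop 1] with t b d using bd t b d)
  rw [tsum_mul_left] at key
  refine Tendsto.congr' ?_ (by
    convert (key.add h0).const_mul (kap ^ 2 * 3 ^ 16)⁻¹ using 2
    rw [Theta, mul_inv, mul_inv, show kap ^ 4 = kap ^ 2 * kap ^ 2 by ring, mul_inv]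
    ring)
  filter_upwards [eventually_ge_atTop 1] with t ht
  have s1 : Summable fun d : O => if d = 0 then 0 else psi (z * toC d / 729) * Sd ν u t d :=
    Summable.of_norm_bounded sm (bd t ht)
  have s2 : Summable fun d : O => psi (z * toC d / 729) * Sd ν u t d := by
    refine (s1.add (hasSum_ite_eq (0 : O) (Sd ν u t 0)).summable).congr fun d => ?_
    by_cases hd : d = 0
    · simp [hd, hB.b1.psi_zero]
    · simp [hd]
  rw [h1 ν z u t hν hu ht, s2.tsum_eq_add_tsum_ite 0]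
  simp only [map_zero, mul_zero, zero_div, hB.b1.psi_zero, one_mul]
  ring

end Vale.Agent.P026.J0
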