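import Vale.Agent.P006.T0b
import Vale.Agent.P006.T0e
import Vale.Agent.P006.T0f
import Vale.Agent.P006.T0g
import Vale.Agent.P006.T0h
import Vale.Agent.P026.M.W2

/-! P006: the theta identity for radial bump functions, with its constant term. -/

noncomputable section
open Complex MeasureTheory Filter Topology
open scoped Classical ComplexConjugate

namespace Vale.Agent.P026.J0

open W1

theorem lim0 : LIMStmt :=
  limS bas (lim1S bas ph sd W2.pop2) (lim2S bas ph W2.per W2.rs) (lim3S bas ph) (lim4S bas ph)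
theorem inv0 : INV2Stmt := inv2S bas W2.av0
theorem soft0 : SOFTStmt := softS bas W2.soft1 W2.soft2
theorem xl0 : XLStmt := xlS bas soft0 W2.ai

/-- left side of the theta identity -/
def thL (r h a : O) (β1 β2 : ℂ → ℂ) : ℂ := Theta (nu0 r) (toC (lam ^ 6 * a) / toC h) (K0 β1 β2)

/-- right side of the theta identity -/
def thR (h a a2 : O) (ν : ℕ → O → O → O → O → ℂ) (β1 β2 : ℂ → ℂ) : ℂ :=
  ∑ v ∈ Finset.range 7, ∑ e ∈ U6, cub (e * lam ^ (6 - v) * a) h *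
    Theta (ν v e) (-(toC (729 * lam ^ (2 * v) * e ^ 4 * a2) / toC h))
      (K0 (fun C => β2 (C / muC v e h)) (fun E => β1 (-(muC v e h * E))))

namespace TH0Z

open TH0M

lemma utr_eq (ω : SchwartzMap ℂ ℂ) (β1 β2 : ℂ → ℂ) (X : ℝ) {m : ℂ} (hm : m ≠ 0) :
    utr m (UU ω β1 β2 (-1) X) = UU ω (fun C => β2 (C / m)) (fun E => β1 (-(m * E))) 0 X := by
  funext C p
  have e : C / m * -(m * p.1) = -(p.1 * C) := by field_simp
  have e2 : psi (-1 * p.2 ^ 3 / -(p.1 * C)) * psi (-(p.2 ^ 3 / (p.1 * C))) = 1 := by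
    rw [← bas.b1.psi_add, neg_mul, one_mul, neg_div_neg_eq, add_neg_cancel, bas.b1.psi_zero]
  simp only [utr, UU, zero_mul, zero_div, bas.b1.psi_zero, e]
  rw [mul_assoc, e2]
  ring

lemma s00_nu0 {r : O} (hr : Prim r) (F : ℂ → ℂ) (t : ℝ) : S00 (nu0 r) F t = 0 := by
  have nl := AV0M.nl bas hr
  have l0 := bas.b1.prime_lam.ne_zero
  have e : AV0M.TT0 r 0 = 0 := by
    unfold AV0M.TT0
    rw [if_neg, if_neg, sub_zero]
    · rw [zero_sub, dvd_neg, show lam ^ 11 = lam ^ 5 * lam ^ 6 by ring,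
        mul_dvd_mul_iff_left (pow_ne_zero _ l0)]
      exact fun h => nl ((dvd_pow_self lam (by norm_num)).trans h)
    · rw [zero_sub, dvd_neg, show lam ^ 12 = lam ^ 6 * lam ^ 6 by ring,
        mul_dvd_mul_iff_left (pow_ne_zero _ l0)]
      exact fun h => nl ((dvd_pow_self lam (by norm_num)).trans h)
  simp [S00, AV0M.nuh_eq bas, e]

lemma s00_mul (ν : O → O → O → ℂ) (F : ℂ → ℂ) (w : ℂ) (t : ℝ) :
    S00 ν (fun C => F C * w) t = w * S00 ν F t := by
  unfold S00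
  rw [mul_left_comm, ← tsum_mul_left (a := w)]
  congr 1
  refine tsum_congr fun c => ?_
  split_ifs <;> ring

lemma F2_00 {ω : SchwartzMap ℂ ℂ} (hω : OmP ω) (γ1 γ2 : ℂ → ℂ) {X : ℝ} (hX : 0 < X) (C : ℂ) :
    F2 (UU ω γ1 γ2 0 X C) 0 0 = γ1 C * ∫ E, γ2 E := by
  have hX' : (X : ℂ) ≠ 0 := by exact_mod_cast hX.ne'
  have e1 : ∫ x, ω x = 1 := by simpa [F1, bas.b1.psi_zero] using hω.1 0
  have e2 : ∫ x : ℂ, ((X : ℂ) ^ 2)⁻¹ * ω (x / X) = 1 := by
    have := TH1M.int_mul ω (inv_ne_zero hX')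
    simp only [← div_eq_inv_mul] at this
    rw [integral_const_mul, this, e1, norm_inv, Complex.norm_real, Real.norm_of_nonneg hX.le]
    push_cast
    field_simp
  simp only [F2, UU, mul_zero, add_zero, neg_zero, zero_mul, zero_div, bas.b1.psi_zero, mul_one,
    mul_assoc, integral_const_mul]
  rw [Measure.volume_eq_prod, integral_prod_mul γ2 (fun x => ((X : ℂ) ^ 2)⁻¹ * ω (x / X)), e2,
    mul_one]

def TS (h : O) (ν : ℕ → O → O → O → O → ℂ) (β2 : ℂ → ℂ) (t : ℝ) : ℂ :=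
  ∑ v ∈ Finset.range 7, ∑ e ∈ U6, cub (e * lam ^ (6 - v)) h *
    (((‖muC v e h‖ ^ 2)⁻¹ : ℝ) * S00 (ν v e) (fun C => β2 (C / muC v e h)) t)

lemma kap_ne : kap ≠ 0 := div_ne_zero (by
  exact_mod_cast (Real.sqrt_pos.2 (by norm_num : (0 : ℝ) < 3)).ne') two_ne_zero

lemma key {ω : SchwartzMap ℂ ℂ} (hω : OmP ω) {r h a a2 : O} {ν : ℕ → O → O → O → O → ℂ}
    {β1 β2 : ℂ → ℂ} (hr : Prim r) (hh : Prim h) (hν : ∀ v < 7, ∀ e ∈ U6, InvP r v e h (ν v e))
    (h1 : Bump 0 β1) (h2 : Bump 0 β2) (ha : (729 : O) ∣ a) (ha2 : h ∣ lam ^ 18 * a * a2 - 1)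
    {X : ℝ} (h0 : 0 < X) (hX1 : X ≤ 1) :
    Tendsto (fun t => kap ^ 2 * (cub a h * (∫ z, β1 z) * TS h ν β2 t)) atTop
      (𝓝 (Theta (nu0 r) (toC (lam ^ 6 * a) / toC h) (Ker (UU ω β1 β2 (-1) X)) -
        ∑ v ∈ Finset.range 7, ∑ e ∈ U6, cub (e * lam ^ (6 - v) * a) h *
          Theta (ν v e) (-(toC (729 * lam ^ (2 * v) * e ^ 4 * a2) / toC h))
            (Ker (UU ω (fun C => β2 (C / muC v e h)) (fun E => β1 (-(muC v e h * E))) 0 X)))) := by
  have n0 := (W2.av0 r hr).1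
  have ad := (soft0 ω _ _ β1 β2 (-1) hω h1 h2 trivial).1 X h0 hX1
  have t1 := lim0 _ (toC (lam ^ 6 * a) / toC h) _ n0 ad
  simp only [s00_nu0 hr, mul_zero, sub_zero] at t1
  have t2 := tendsto_finsetSum (Finset.range 7) fun v hv => tendsto_finsetSum U6 fun e he =>
    Tendsto.const_mul (cub (e * lam ^ (6 - v) * a) h)
      (lim0 _ (-(toC (729 * lam ^ (2 * v) * e ^ 4 * a2) / toC h)) _
        (hν v (Finset.mem_range.1 hv) e he).1
        ((soft0 ω _ _ _ _ 0 hω (bump_div h2 (mu_ne bas v he hh)) (bump_neg h1 (mu_ne bas v he hh))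
          trivial).1 X h0 hX1))
  have k0 := kap_ne
  have t3 := (t1.sub t2).const_mul (kap ^ 4 * 3 ^ 16)
  have c3 : IsCoprime h 3 := bas.b2.cop h hh
  convert t3.congr' ?_ using 2
  · rw [mul_sub, Finset.mul_sum, mul_inv_cancel_left₀ (by simp [k0])]
    congr 1
    refine Finset.sum_congr rfl fun v _ => ?_
    rw [Finset.mul_sum]
    refine Finset.sum_congr rfl fun e _ => ?_
    field_simp
  · filter_upwards [eventually_gt_atTop (0 : ℝ)] with t ht
    rw [inv0 r h a a2 ν _ t hr hh ha ha2 hν ad ht, TS]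
    simp only [Finset.mul_sum, ← Finset.sum_sub_distrib]
    refine Finset.sum_congr rfl fun v _ => Finset.sum_congr rfl fun e he => ?_
    have m0 := mu_ne bas v he hh
    rw [utr_eq _ _ _ _ m0]
    have e1 : ∫ E, β1 (-(muC v e h * E)) = ((‖muC v e h‖ ^ 2)⁻¹ : ℝ) * ∫ z, β1 z := by
      have := TH1M.int_mul β1 (neg_ne_zero.2 m0)
      simpa only [neg_mul, norm_neg] using this
    simp only [F2_00 hω _ _ h0, s00_mul, e1]
    rw [bas.b6.mul_l _ a h c3]
    field_simp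
    ring

end TH0Z

open TH0M TH0Z in
/-- the theta identity for radial bumps -/
theorem th00 (r h : O) (ν : ℕ → O → O → O → O → ℂ) (β2 : ℂ → ℂ) (hr : Prim r) (hh : Prim h)
    (hν : ∀ v < 7, ∀ e ∈ U6, InvP r v e h (ν v e)) (h2 : Bump 0 β2) :
    ∃ l : ℂ, ∀ (β1 : ℂ → ℂ) (a a2 : O), Bump 0 β1 → (729 : O) ∣ a → h ∣ lam ^ 18 * a * a2 - 1 →
      thL r h a β1 β2 = thR h a a2 ν β1 β2 + cub a h * (∫ z, β1 z) * l := by
  obtain ⟨ω, hω⟩ := W2.oms
  obtain ⟨A, hA, hX⟩ := xl0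
  have n0 := (W2.av0 r hr).1
  refine ⟨A⁻¹ * kap ^ 2 * limUnder atTop (TS h ν β2), fun β1 a a2 h1 ha ha2 => ?_⟩
  have lim : ∀ γ1 γ2 (κ : ℂ) μ z, Bump 0 γ1 → Bump 0 γ2 → Nu μ →
      Tendsto (fun X : ℝ => Theta μ z (Ker (UU ω γ1 γ2 κ X))) (𝓝[>] 0)
        (𝓝 (A * Theta μ z (K0 γ1 γ2))) := by
    intro γ1 γ2 κ μ z g1 g2 hμ
    obtain ⟨⟨K, hK⟩, hT⟩ := hX ω 0 0 γ1 γ2 κ hω g1 g2 trivial
    rw [← theta_mul]
    refine theta_lim bas W1.bb W2.av1 hμ z (K := max K 0) ?_ hT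
    filter_upwards [Ioc_mem_nhdsGT (show (0 : ℝ) < 1 from one_pos)] with X hX d hd
    have d0 : 0 < ‖d‖ := lt_of_lt_of_le one_pos hd
    refine (hK X hX.1 hX.2 d (norm_pos_iff.1 d0)).trans ?_
    refine mul_le_mul (le_max_left _ _) ?_ (by positivity) (le_max_right _ _)
    exact (Real.rpow_le_rpow_of_nonpos d0 (by linarith) (by norm_num)).trans
      (Real.rpow_le_rpow_of_exponent_le hd (by norm_num))
  have t1 := lim β1 β2 (-1) _ (toC (lam ^ 6 * a) / toC h) h1 h2 n0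
  have t2 := tendsto_finsetSum (Finset.range 7) fun v hv => tendsto_finsetSum U6 fun e he =>
    Tendsto.const_mul (cub (e * lam ^ (6 - v) * a) h)
      (lim _ _ 0 _ (-(toC (729 * lam ^ (2 * v) * e ^ 4 * a2) / toC h))
        (bump_div h2 (mu_ne bas v he hh)) (bump_neg h1 (mu_ne bas v he hh))
        (hν v (Finset.mem_range.1 hv) e he).1)
  set w := cub a h * ∫ z, β1 z with hw
  have k1 := key hω hr hh hν h1 h2 ha ha2 one_pos le_rfl
  have k2 : Tendsto (fun t => kap ^ 2 * (w * TS h ν β2 t)) atTop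
      (𝓝 (kap ^ 2 * (w * limUnder atTop (TS h ν β2)))) := by
    by_cases w0 : w = 0
    · simp [w0]
    · have k3 := k1.const_mul (kap ^ 2 * w)⁻¹
      have k0 := kap_ne
      have k4 : Tendsto (TS h ν β2) atTop _ := k3.congr fun t => by
        rw [← hw]; field_simp
      exact ((tendsto_nhds_limUnder ⟨_, k4⟩).const_mul w).const_mul _
  have t3 := tendsto_nhds_unique_of_eventuallyEq (t1.sub t2)
    (tendsto_const_nhds (x := kap ^ 2 * (w * limUnder atTop (TS h ν β2)))) (by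
      filter_upwards [Ioc_mem_nhdsGT (show (0 : ℝ) < 1 from one_pos)] with X hX
      exact tendsto_nhds_unique (key hω hr hh hν h1 h2 ha ha2 hX.1 hX.2) k2)
  refine mul_left_cancel₀ hA ?_
  have e : A * thR h a a2 ν β1 β2 = ∑ v ∈ Finset.range 7, ∑ e ∈ U6,
      cub (e * lam ^ (6 - v) * a) h * (A * Theta (ν v e)
        (-(toC (729 * lam ^ (2 * v) * e ^ 4 * a2) / toC h))
        (K0 (fun C => β2 (C / muC v e h)) (fun E => β1 (-(muC v e h * E))))) := by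
    simp only [thR, Finset.mul_sum]
    refine Finset.sum_congr rfl fun v _ => Finset.sum_congr rfl fun e _ => ?_
    ring
  rw [mul_add, e, thL, ← sub_eq_iff_eq_add', t3]
  field_simp

end Vale.Agent.P026.J0
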